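import Mathlib.Topology.MetricSpace.Basic
import Mathlib.Topology.Order.Compact
import Mathlib.Data.ZMod.Basic
import Mathlib.Tactic

/-! P216, polygon model: closed polygons `ZMod k → M` in a metric space with unique short segments,
the discrete curve shortening. -/

namespace Vale.Agent.P216.H494

open Set Filter Topology

set_option linter.all false

/-- Unique short segments: `seg x y t`, for `dist x y < ρ` and `t ∈ [0, 1]`, is the unique point
`z` with `dist x z = t * dist x y` and `dist z y = (1 - t) * dist x y`. -/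
structure Segs (M : Type*) [MetricSpace M] where
  ρ : ℝ
  ρ_pos : 0 < ρ
  seg : M → M → ℝ → M
  cont : ContinuousOn (fun p : M × M × ℝ => seg p.1 p.2.1 p.2.2)
    {p | dist p.1 p.2.1 < ρ ∧ p.2.2 ∈ Icc (0 : ℝ) 1}
  seg_zero : ∀ x y, dist x y < ρ → seg x y 0 = x
  seg_one : ∀ x y, dist x y < ρ → seg x y 1 = y
  dd : ∀ x y, dist x y < ρ → ∀ s ∈ Icc (0 : ℝ) 1, ∀ t ∈ Icc (0 : ℝ) 1,
    dist (seg x y s) (seg x y t) = |s - t| * dist x y
  uniq : ∀ x y, dist x y < ρ → ∀ t ∈ Icc (0 : ℝ) 1, ∀ z, dist x z = t * dist x y →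
    dist z y = (1 - t) * dist x y → z = seg x y t

section
variable {M : Type*} [MetricSpace M] {k : ℕ} [NeZero k]

/-- The energy of a closed polygon. -/
noncomputable def en (x : ZMod k → M) : ℝ := ∑ i, dist (x i) (x (i + 1)) ^ 2

theorem en_nonneg (x : ZMod k → M) : 0 ≤ en x := Finset.sum_nonneg fun _ _ => sq_nonneg _

theorem sq_le_en (x : ZMod k → M) (i : ZMod k) : dist (x i) (x (i + 1)) ^ 2 ≤ en x :=
  Finset.single_le_sum (f := fun i => dist (x i) (x (i + 1)) ^ 2) (fun _ _ => sq_nonneg _)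
    (Finset.mem_univ i)

theorem step_lt {ρ : ℝ} (hρ : 0 < ρ) {x : ZMod k → M} (h : en x < ρ ^ 2) (i : ZMod k) :
    dist (x i) (x (i + 1)) < ρ :=
  lt_of_pow_lt_pow_left₀ 2 hρ.le ((sq_le_en x i).trans_lt h)

theorem en_cont : Continuous (en (M := M) (k := k)) := by
  unfold en
  fun_prop

/-- rotation of the polygon -/
def shift (j : ZMod k) (x : ZMod k → M) : ZMod k → M := fun i => x (i + j)

/-- reversal of the polygon -/
def rev (x : ZMod k → M) : ZMod k → M := fun i => x (-i)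

theorem en_shift (j : ZMod k) (x : ZMod k → M) : en (shift j x) = en x := by
  unfold en shift
  refine Fintype.sum_equiv (Equiv.addRight j) _ _ fun i => ?_
  simp only [Equiv.coe_addRight]
  rw [show i + 1 + j = i + j + 1 by ring]

theorem en_rev (x : ZMod k → M) : en (rev x) = en x := by
  unfold en rev
  refine Fintype.sum_equiv ((Equiv.neg (ZMod k)).trans (Equiv.subRight 1)) _ _ fun i => ?_
  simp only [Equiv.trans_apply, Equiv.neg_apply, Equiv.subRight_apply]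
  rw [show -i - 1 + 1 = -i by ring, dist_comm, show -i - 1 = -(i + 1) by ring]

theorem sum_shift (f : ZMod k → ℝ) (j : ZMod k) : ∑ i, f (i + j) = ∑ i, f i :=
  Fintype.sum_equiv (Equiv.addRight j) _ _ fun _ => rfl

/-! convexity -/

theorem conv3 {a b c w₁ w₂ w₃ : ℝ} (h1 : 0 ≤ w₁) (h2 : 0 ≤ w₂) (h3 : 0 ≤ w₃)
    (h : w₁ + w₂ + w₃ = 1) :
    (w₁ * a + w₂ * b + w₃ * c) ^ 2 + w₁ * w₂ * (a - b) ^ 2 ≤
      w₁ * a ^ 2 + w₂ * b ^ 2 + w₃ * c ^ 2 := by
  have e : w₁ * a ^ 2 + w₂ * b ^ 2 + w₃ * c ^ 2 - (w₁ * a + w₂ * b + w₃ * c) ^ 2 =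
      w₁ * w₂ * (a - b) ^ 2 + w₁ * w₃ * (a - c) ^ 2 + w₂ * w₃ * (b - c) ^ 2 := by
    have e3 : w₃ = 1 - w₁ - w₂ := by linarith
    subst e3; ring
  have : 0 ≤ w₁ * w₃ * (a - c) ^ 2 + w₂ * w₃ * (b - c) ^ 2 := by
    positivity
  linarith

variable (S : Segs M)

/-- midpoints -/
noncomputable def Segs.mid (a b : M) : M := S.seg a b (1 / 2)

theorem half_mem : (1 / 2 : ℝ) ∈ Icc (0 : ℝ) 1 := ⟨by norm_num, by norm_num⟩

theorem zero_mem' : (0 : ℝ) ∈ Icc (0 : ℝ) 1 := ⟨le_rfl, zero_le_one⟩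

theorem one_mem' : (1 : ℝ) ∈ Icc (0 : ℝ) 1 := ⟨zero_le_one, le_rfl⟩

theorem Segs.dl {x y : M} (h : dist x y < S.ρ) {t : ℝ} (ht : t ∈ Icc (0 : ℝ) 1) :
    dist x (S.seg x y t) = t * dist x y := by
  have := S.dd x y h 0 zero_mem' t ht
  rwa [S.seg_zero x y h, zero_sub, abs_neg, abs_of_nonneg ht.1] at this

theorem Segs.dr {x y : M} (h : dist x y < S.ρ) {t : ℝ} (ht : t ∈ Icc (0 : ℝ) 1) :
    dist (S.seg x y t) y = (1 - t) * dist x y := by
  have := S.dd x y h t ht 1 one_mem'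
  rwa [S.seg_one x y h, abs_sub_comm, abs_of_nonneg (by linarith [ht.2])] at this

theorem Segs.seg_self (x : M) {t : ℝ} (ht : t ∈ Icc (0 : ℝ) 1) : S.seg x x t = x := by
  have := S.dl (x := x) (y := x) (by rw [dist_self]; exact S.ρ_pos) ht
  rw [dist_self, mul_zero] at this
  exact (dist_eq_zero.1 this).symm

theorem Segs.seg_symm {x y : M} (h : dist x y < S.ρ) {t : ℝ} (ht : t ∈ Icc (0 : ℝ) 1) :
    S.seg x y t = S.seg y x (1 - t) := by
  have ht' : 1 - t ∈ Icc (0 : ℝ) 1 := ⟨by linarith [ht.2], by linarith [ht.1]⟩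
  refine S.uniq y x (by rwa [dist_comm]) _ ht' _ ?_ ?_
  · rw [dist_comm y, S.dr h ht, dist_comm x y]
  · rw [dist_comm, S.dl h ht, dist_comm x y]; ring

theorem Segs.mid_symm {x y : M} (h : dist x y < S.ρ) : S.mid x y = S.mid y x := by
  unfold Segs.mid
  rw [S.seg_symm h half_mem]
  norm_num

theorem Segs.mid_self (x : M) : S.mid x x = x := S.seg_self x half_mem

theorem Segs.mid_dl {x y : M} (h : dist x y < S.ρ) : dist x (S.mid x y) = dist x y / 2 := by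
  unfold Segs.mid
  rw [S.dl h half_mem]; ring

theorem Segs.mid_dr {x y : M} (h : dist x y < S.ρ) : dist (S.mid x y) y = dist x y / 2 := by
  unfold Segs.mid
  rw [S.dr h half_mem]; ring

/-- The point at parameter `τ / 2` on the edge from `x i` to `x (i + 1)`. -/
noncomputable def Segs.fw (τ : ℝ) (x : ZMod k → M) (i : ZMod k) : M :=
  S.seg (x i) (x (i + 1)) (τ / 2)

/-- The point at parameter `τ / 2` on the edge from `x i` to `x (i - 1)`. -/
noncomputable def Segs.bw (τ : ℝ) (x : ZMod k → M) (i : ZMod k) : M :=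
  S.seg (x i) (x (i - 1)) (τ / 2)

/-- The deformation `H τ`, `H 0 = id`, `H 1 = β`. -/
noncomputable def Segs.H (τ : ℝ) (x : ZMod k → M) (i : ZMod k) : M :=
  S.mid (S.bw τ x i) (S.fw τ x i)

section
variable {S} {x : ZMod k → M} {τ : ℝ}

theorem half_mem' (hτ : τ ∈ Icc (0 : ℝ) 1) : τ / 2 ∈ Icc (0 : ℝ) 1 :=
  ⟨by linarith [hτ.1], by linarith [hτ.2]⟩

variable (hx : ∀ i, dist (x i) (x (i + 1)) < S.ρ)
include hx

theorem stepB (i : ZMod k) : dist (x i) (x (i - 1)) < S.ρ := by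
  have := hx (i - 1)
  rwa [sub_add_cancel, dist_comm] at this

variable (hτ : τ ∈ Icc (0 : ℝ) 1)
include hτ

theorem dist_fw (i : ZMod k) : dist (x i) (S.fw τ x i) = τ / 2 * dist (x i) (x (i + 1)) :=
  S.dl (hx i) (half_mem' hτ)

theorem dist_bw (i : ZMod k) :
    dist (x i) (S.bw τ x i) = τ / 2 * dist (x (i - 1)) (x i) := by
  rw [dist_comm (x (i - 1))]
  exact S.dl (stepB hx i) (half_mem' hτ)

/-- The two points on the edge from `x i` to `x (i + 1)`. -/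
theorem dist_fw_bw (i : ZMod k) :
    dist (S.fw τ x i) (S.bw τ x (i + 1)) = (1 - τ) * dist (x i) (x (i + 1)) := by
  have h1 : S.bw τ x (i + 1) = S.seg (x i) (x (i + 1)) (1 - τ / 2) := by
    unfold Segs.bw
    rw [add_sub_cancel_right, S.seg_symm (by rw [dist_comm]; exact hx i) (half_mem' hτ)]
  rw [h1]
  unfold Segs.fw
  rw [S.dd _ _ (hx i) _ (half_mem' hτ) _ ⟨by linarith [hτ.2], by linarith [hτ.1]⟩]
  rw [show τ / 2 - (1 - τ / 2) = -(1 - τ) by ring, abs_neg, abs_of_nonneg (by linarith [hτ.2])]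

theorem dist_bw_fw (i : ZMod k) :
    dist (S.bw τ x i) (S.fw τ x i) ≤
      τ / 2 * (dist (x (i - 1)) (x i) + dist (x i) (x (i + 1))) := by
  have h := dist_triangle_left (S.bw τ x i) (S.fw τ x i) (x i)
  rw [dist_fw hx hτ, dist_bw hx hτ] at h
  linarith

theorem dist_bw_fw_lt (i : ZMod k) : dist (S.bw τ x i) (S.fw τ x i) < S.ρ := by
  have h := dist_bw_fw hx hτ i
  have h1 := hx i
  have h2 := hx (i - 1)
  rw [sub_add_cancel] at h2
  have h3 : (0 : ℝ) ≤ dist (x i) (x (i + 1)) := dist_nonneg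
  have h4 : (0 : ℝ) ≤ dist (x (i - 1)) (x i) := dist_nonneg
  nlinarith [hτ.1, hτ.2]

theorem dist_H (i : ZMod k) :
    dist (S.H τ x i) (S.H τ x (i + 1)) ≤
      dist (S.bw τ x i) (S.fw τ x i) / 2 + (1 - τ) * dist (x i) (x (i + 1)) +
        dist (S.bw τ x (i + 1)) (S.fw τ x (i + 1)) / 2 := by
  have h1 := S.mid_dr (dist_bw_fw_lt hx hτ i)
  have h2 := S.mid_dl (dist_bw_fw_lt hx hτ (i + 1))
  have h3 := dist_fw_bw hx hτ i
  have h4 := dist_triangle4 (S.H τ x i) (S.fw τ x i) (S.bw τ x (i + 1)) (S.H τ x (i + 1))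
  unfold Segs.H at h4 ⊢
  rw [h1, h2, h3] at h4
  exact h4

theorem dist_H_le (i : ZMod k) :
    dist (S.H τ x i) (S.H τ x (i + 1)) ≤
      τ / 4 * dist (x (i - 1)) (x i) + (1 - τ / 2) * dist (x i) (x (i + 1)) +
        τ / 4 * dist (x (i + 1)) (x (i + 2)) := by
  have h1 := dist_H hx hτ i
  have h2 := dist_bw_fw hx hτ i
  have h3 := dist_bw_fw hx hτ (i + 1)
  rw [add_sub_cancel_right, show i + 1 + 1 = i + 2 by ring] at h3
  linarith

/-- The energy estimate with a remainder. -/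
theorem en_H_add : en (S.H τ x) +
    τ / 4 * (1 - τ / 2) * ∑ i, (dist (x (i - 1)) (x i) - dist (x i) (x (i + 1))) ^ 2 ≤ en x := by
  have key : ∀ i, dist (S.H τ x i) (S.H τ x (i + 1)) ^ 2 +
      τ / 4 * (1 - τ / 2) * (dist (x (i - 1)) (x i) - dist (x i) (x (i + 1))) ^ 2 ≤
      τ / 4 * dist (x (i - 1)) (x i) ^ 2 + (1 - τ / 2) * dist (x i) (x (i + 1)) ^ 2 +
        τ / 4 * dist (x (i + 1)) (x (i + 2)) ^ 2 := fun i => by
    refine le_trans ?_ (conv3 (by linarith [hτ.1]) (by linarith [hτ.2]) (by linarith [hτ.1])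
      (by ring))
    gcongr
    exact dist_H_le hx hτ i
  have h := Finset.sum_le_sum fun i (_ : i ∈ (Finset.univ : Finset (ZMod k))) => key i
  simp only [Finset.sum_add_distrib, ← Finset.mul_sum] at h
  have e1 : ∑ i, dist (x (i - 1)) (x i) ^ 2 = en x := by
    unfold en
    rw [← sum_shift (fun i => dist (x (i - 1)) (x i) ^ 2) 1]
    refine Finset.sum_congr rfl fun i _ => ?_
    rw [add_sub_cancel_right]
  have e2 : ∑ i, dist (x (i + 1)) (x (i + 2)) ^ 2 = en x := by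
    unfold en
    rw [← sum_shift (fun i => dist (x i) (x (i + 1)) ^ 2) 1]
    refine Finset.sum_congr rfl fun i _ => ?_
    rw [show i + 1 + 1 = i + 2 by ring]
  rw [e1, e2] at h
  have e3 : en (S.H τ x) = ∑ i, dist (S.H τ x i) (S.H τ x (i + 1)) ^ 2 := rfl
  have e4 : en x = ∑ i, dist (x i) (x (i + 1)) ^ 2 := rfl
  rw [← e3, ← e4] at h
  linarith

theorem en_H_le : en (S.H τ x) ≤ en x := by
  have h := en_H_add hx hτ
  have : 0 ≤ τ / 4 * (1 - τ / 2) *
      ∑ i, (dist (x (i - 1)) (x i) - dist (x i) (x (i + 1))) ^ 2 :=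
    mul_nonneg (mul_nonneg (by linarith [hτ.1]) (by linarith [hτ.2]))
      (Finset.sum_nonneg fun _ _ => sq_nonneg _)
  linarith

omit hτ in
theorem H_zero : S.H 0 x = x := by
  funext i
  unfold Segs.H Segs.bw Segs.fw
  rw [zero_div, S.seg_zero _ _ (hx i), S.seg_zero _ _ (stepB hx i), S.mid_self]

omit hx hτ in
theorem H_shift (j : ZMod k) : S.H τ (shift j x) = shift j (S.H τ x) := by
  funext i
  unfold Segs.H Segs.bw Segs.fw shift
  rw [show i + 1 + j = i + j + 1 by ring, show i - 1 + j = i + j - 1 by ring]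

theorem H_rev : S.H τ (rev x) = rev (S.H τ x) := by
  funext i
  have h := S.mid_symm (dist_bw_fw_lt hx hτ (-i))
  show S.mid (S.bw τ (rev x) i) (S.fw τ (rev x) i) = S.mid (S.bw τ x (-i)) (S.fw τ x (-i))
  rw [h]
  unfold Segs.bw Segs.fw rev
  rw [show -(i + 1) = -i - 1 by ring, show -(i - 1) = -i + 1 by ring]

/-! ### critical polygons -/

omit hx hτ in
theorem sum_eq_iff {f : ZMod k → ℝ} (hf : ∀ i, 0 ≤ f i) (h : ∑ i, f i ≤ 0) (i : ZMod k) :
    f i = 0 := by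
  have h0 : ∑ i, f i = 0 := le_antisymm h (Finset.sum_nonneg fun i _ => hf i)
  exact (Finset.sum_eq_zero_iff_of_nonneg fun i _ => hf i).1 h0 i (Finset.mem_univ i)

omit hτ in
theorem eq_steps (hτ0 : 0 < τ) (hτ1 : τ ≤ 1) (h : en x ≤ en (S.H τ x)) (i : ZMod k) :
    dist (x (i - 1)) (x i) = dist (x i) (x (i + 1)) := by
  have hτ : τ ∈ Icc (0 : ℝ) 1 := ⟨hτ0.le, hτ1⟩
  have h1 := en_H_add hx hτ
  have hc : 0 < τ / 4 * (1 - τ / 2) := mul_pos (by linarith) (by linarith)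
  have h2 : ∑ i, (dist (x (i - 1)) (x i) - dist (x i) (x (i + 1))) ^ 2 ≤ 0 := by
    have : τ / 4 * (1 - τ / 2) * ∑ i, (dist (x (i - 1)) (x i) - dist (x i) (x (i + 1))) ^ 2 ≤
        τ / 4 * (1 - τ / 2) * 0 := by
      rw [mul_zero]; linarith
    exact le_of_mul_le_mul_left this hc
  have h3 := sum_eq_iff (fun _ => sq_nonneg _) h2 i
  have := pow_eq_zero_iff (two_ne_zero) |>.1 h3
  linarith

omit hx hτ in
theorem const_of_step {α : Type*} {f : ZMod k → α} (h : ∀ i, f (i - 1) = f i) (i : ZMod k) :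
    f i = f 0 := by
  have h1 : ∀ n : ℕ, f (n : ZMod k) = f 0 := by
    intro n
    induction n with
    | zero => simp
    | succ n ih =>
      rw [← h, ← ih]
      congr 1
      push_cast
      ring
  have := h1 i.val
  rwa [ZMod.natCast_zmod_val] at this

/-- A critical polygon (at scale `τ`) of step `d`. -/
def IsCritAt (S : Segs M) (τ : ℝ) (x : ZMod k → M) (d : ℝ) : Prop :=
  ∀ i, dist (x i) (x (i + 1)) = d ∧ dist (S.bw τ x i) (S.fw τ x i) = τ * d

omit hτ in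
theorem isCritAt_of_le (hτ0 : 0 < τ) (hτ1 : τ ≤ 1) (h : en x ≤ en (S.H τ x)) :
    IsCritAt S τ x (dist (x 0) (x (0 + 1))) := by
  have hτ : τ ∈ Icc (0 : ℝ) 1 := ⟨hτ0.le, hτ1⟩
  have h1 := eq_steps hx hτ0 hτ1 h
  have hst : ∀ i, dist (x i) (x (i + 1)) = dist (x 0) (x (0 + 1)) := by
    refine const_of_step (f := fun i => dist (x i) (x (i + 1))) fun i => ?_
    rw [sub_add_cancel]
    exact h1 i
  set d := dist (x 0) (x (0 + 1)) with hd
  have hd0 : 0 ≤ d := dist_nonneg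
  have hb : ∀ i, dist (S.bw τ x i) (S.fw τ x i) ≤ τ * d := fun i => by
    have := dist_bw_fw hx hτ i
    rw [h1 i, hst i] at this
    linarith
  have hH : ∀ i, dist (S.H τ x i) (S.H τ x (i + 1)) ≤ d := fun i => by
    have h3 := dist_H hx hτ i
    rw [hst i] at h3
    linarith [hb i, hb (i + 1)]
  have hHe : ∀ i, d - dist (S.H τ x i) (S.H τ x (i + 1)) = 0 := by
    have e1 : ∀ i, d ^ 2 - dist (S.H τ x i) (S.H τ x (i + 1)) ^ 2 = 0 := by
      refine sum_eq_iff (fun i => ?_) ?_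
      · have := hH i
        have h0 : (0 : ℝ) ≤ dist (S.H τ x i) (S.H τ x (i + 1)) := dist_nonneg
        nlinarith
      · rw [Finset.sum_sub_distrib]
        have e2 : en x = ∑ _i : ZMod k, d ^ 2 := by
          unfold en
          exact Finset.sum_congr rfl fun i _ => by rw [hst i]
        unfold en at h e2
        linarith
    intro i
    have h0 : (0 : ℝ) ≤ dist (S.H τ x i) (S.H τ x (i + 1)) := dist_nonneg
    have h2 : dist (S.H τ x i) (S.H τ x (i + 1)) = d :=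
      (sq_eq_sq₀ h0 hd0).1 (by linarith [e1 i])
    linarith
  intro i
  refine ⟨hst i, le_antisymm (hb i) ?_⟩
  have h3 := dist_H hx hτ i
  rw [hst i] at h3
  linarith [hb (i + 1), hHe i]

theorem IsCritAt.H_eq {d : ℝ} (h : IsCritAt S τ x d) : S.H τ x = x := by
  funext i
  have h1 := (h i).2
  have h2 := (h i).1
  have h3 : dist (x (i - 1)) (x i) = d := by
    have := (h (i - 1)).1
    rwa [sub_add_cancel] at this
  refine (S.uniq _ _ (dist_bw_fw_lt hx hτ i) _ half_mem (x i) ?_ ?_).symm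
  · rw [dist_comm, dist_bw hx hτ, h1, h3]; ring
  · rw [dist_fw hx hτ, h1, h2]; ring

omit hx hτ in
theorem IsCritAt.en_eq {d : ℝ} (h : IsCritAt S τ x d) : en x = k * d ^ 2 := by
  unfold en
  rw [Finset.sum_congr rfl fun i _ => by rw [(h i).1]]
  simp [ZMod.card]

omit hτ in
theorem crit_tfae (hτ0 : 0 < τ) (hτ1 : τ ≤ 1) :
    [∃ d, IsCritAt S τ x d, S.H τ x = x, en (S.H τ x) = en x, en x ≤ en (S.H τ x)].TFAE := by
  tfae_have 1 → 2 := fun ⟨d, hd⟩ => hd.H_eq hx ⟨hτ0.le, hτ1⟩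
  tfae_have 2 → 3 := fun h => by rw [h]
  tfae_have 3 → 4 := fun h => h.ge
  tfae_have 4 → 1 := fun h => ⟨_, isCritAt_of_le hx hτ0 hτ1 h⟩
  tfae_finish

end

/-! ### Continuity -/

/-- The sublevel sets. -/
def sub (M : Type*) [MetricSpace M] (k : ℕ) [NeZero k] (e : ℝ) : Set (ZMod k → M) :=
  {x | en x ≤ e}

theorem isClosed_sub (e : ℝ) : IsClosed (sub M k e) := isClosed_le en_cont continuous_const

theorem sub_mono {e e' : ℝ} (h : e ≤ e') : sub M k e ⊆ sub M k e' := fun _ hx => le_trans hx h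

theorem isCompact_sub [CompactSpace M] (e : ℝ) : IsCompact (sub M k e) :=
  (isClosed_sub e).isCompact

variable {S}

theorem continuousOn_H :
    ContinuousOn (fun p : ℝ × (ZMod k → M) => S.H p.1 p.2)
      {p | p.1 ∈ Icc (0 : ℝ) 1 ∧ ∀ i, dist (p.2 i) (p.2 (i + 1)) < S.ρ} := by
  have hfw : ∀ i, ContinuousOn (fun p : ℝ × (ZMod k → M) => S.fw p.1 p.2 i)
      {p | p.1 ∈ Icc (0 : ℝ) 1 ∧ ∀ i, dist (p.2 i) (p.2 (i + 1)) < S.ρ} := fun i => by
    refine S.cont.comp (f := fun p : ℝ × (ZMod k → M) => (p.2 i, p.2 (i + 1), p.1 / 2))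
      (by fun_prop) ?_
    rintro ⟨τ, x⟩ ⟨h1, h2⟩
    exact ⟨h2 i, half_mem' h1⟩
  have hbw : ∀ i, ContinuousOn (fun p : ℝ × (ZMod k → M) => S.bw p.1 p.2 i)
      {p | p.1 ∈ Icc (0 : ℝ) 1 ∧ ∀ i, dist (p.2 i) (p.2 (i + 1)) < S.ρ} := fun i => by
    refine S.cont.comp (f := fun p : ℝ × (ZMod k → M) => (p.2 i, p.2 (i - 1), p.1 / 2))
      (by fun_prop) ?_
    rintro ⟨τ, x⟩ ⟨h1, h2⟩
    exact ⟨stepB h2 i, half_mem' h1⟩
  refine continuousOn_pi.2 fun i => ?_
  refine S.cont.comp (f := fun p : ℝ × (ZMod k → M) =>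
    (S.bw p.1 p.2 i, S.fw p.1 p.2 i, (1 / 2 : ℝ)))
    ((hbw i).prodMk ((hfw i).prodMk continuousOn_const)) ?_
  rintro ⟨τ, x⟩ ⟨h1, h2⟩
  exact ⟨dist_bw_fw_lt h2 h1 i, half_mem⟩

theorem step_lt' {e : ℝ} (he : e < S.ρ ^ 2) {x : ZMod k → M} (h : x ∈ sub M k e) (i : ZMod k) :
    dist (x i) (x (i + 1)) < S.ρ := step_lt S.ρ_pos (lt_of_le_of_lt h he) i

theorem H_mem {e : ℝ} (he : e < S.ρ ^ 2) {x : ZMod k → M} (h : x ∈ sub M k e) {τ : ℝ}
    (hτ : τ ∈ Icc (0 : ℝ) 1) {e' : ℝ} (hx : x ∈ sub M k e') : S.H τ x ∈ sub M k e' :=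
  (en_H_le (step_lt' he h) hτ).trans hx

end

end Vale.Agent.P216.H494
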