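import Mathlib.Topology.Sequences
import Vale.Agent.P216.H494.Poly

/-! P216: the flow of the discrete curve shortening and the deformation lemmas. -/

namespace Vale.Agent.P216.H494

open Set Filter Topology

set_option linter.all false

section
variable {M : Type*} [MetricSpace M] {k : ℕ} [NeZero k] {S : Segs M}

/-- One step of the discrete curve shortening. -/
noncomputable def Segs.beta (S : Segs M) (x : ZMod k → M) : ZMod k → M := S.H 1 x

/-- The polygon `x` is critical. -/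
def Crit (S : Segs M) (x : ZMod k → M) : Prop := S.beta x = x

variable {e : ℝ} (he : e < S.ρ ^ 2)
include he

theorem beta_mem {x : ZMod k → M} (h : x ∈ sub M k e) : S.beta x ∈ sub M k e :=
  H_mem he h one_mem' h

theorem iter_mem {x : ZMod k → M} (h : x ∈ sub M k e) (n : ℕ) :
    (S.beta)^[n] x ∈ sub M k e := by
  induction n with
  | zero => exact h
  | succ n ih => rw [Function.iterate_succ_apply']; exact beta_mem he ih

theorem en_beta_le {x : ZMod k → M} (h : x ∈ sub M k e) : en (S.beta x) ≤ en x :=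
  en_H_le (step_lt' he h) one_mem'

theorem en_iter_le {x : ZMod k → M} (h : x ∈ sub M k e) {m n : ℕ} (hmn : m ≤ n) :
    en ((S.beta)^[n] x) ≤ en ((S.beta)^[m] x) := by
  induction n, hmn using Nat.le_induction with
  | base => exact le_rfl
  | succ n hn ih =>
    rw [Function.iterate_succ_apply']
    exact (en_beta_le he (iter_mem he h n)).trans ih

theorem continuousOn_beta : ContinuousOn (S.beta (k := k)) (sub M k e) := by
  have := (continuousOn_H (S := S) (k := k)).comp (f := fun x : ZMod k → M => ((1 : ℝ), x))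
    (s := sub M k e) (by fun_prop) fun x hx => ⟨one_mem', step_lt' he hx⟩
  exact this

theorem continuousOn_iter (n : ℕ) : ContinuousOn (fun x : ZMod k → M => (S.beta)^[n] x)
    (sub M k e) := by
  induction n with
  | zero => exact continuousOn_id
  | succ n ih =>
    simp only [Function.iterate_succ_apply']
    exact (continuousOn_beta he).comp ih fun x hx => iter_mem he hx n

omit he in
/-- The flow. -/
noncomputable def Segs.flow (S : Segs M) (t : ℝ) (x : ZMod k → M) : ZMod k → M :=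
  S.H (t - ⌊t⌋₊) ((S.beta)^[⌊t⌋₊] x)

omit he in
theorem frac_mem {t : ℝ} (ht : 0 ≤ t) : t - ⌊t⌋₊ ∈ Icc (0 : ℝ) 1 :=
  ⟨by linarith [Nat.floor_le ht], by linarith [Nat.lt_floor_add_one t]⟩

theorem flow_eq {x : ZMod k → M} (h : x ∈ sub M k e) {t : ℝ} {n : ℕ} (h1 : (n : ℝ) ≤ t)
    (h2 : t ≤ n + 1) : S.flow t x = S.H (t - n) ((S.beta)^[n] x) := by
  rcases h2.eq_or_lt with h3 | h3
  · have hf : ⌊t⌋₊ = n + 1 := by
      rw [h3]
      exact_mod_cast Nat.floor_natCast (n + 1)
    unfold Segs.flow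
    rw [hf, h3]
    push_cast
    rw [sub_self, add_sub_cancel_left, H_zero (step_lt' he (iter_mem he h (n + 1))),
      Function.iterate_succ_apply']
    rfl
  · have hf : ⌊t⌋₊ = n := by
      rw [Nat.floor_eq_iff (le_trans (Nat.cast_nonneg n) h1)]
      exact ⟨h1, h3⟩
    unfold Segs.flow
    rw [hf]

theorem flow_zero {x : ZMod k → M} (h : x ∈ sub M k e) : S.flow 0 x = x := by
  rw [flow_eq he h (n := 0) (by simp) (by norm_num)]
  simp only [Nat.cast_zero, sub_zero, Function.iterate_zero, id]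
  exact H_zero (step_lt' he h)

theorem flow_nat {x : ZMod k → M} (h : x ∈ sub M k e) (n : ℕ) :
    S.flow n x = (S.beta)^[n] x := by
  rw [flow_eq he h (n := n) le_rfl (by linarith), sub_self]
  exact H_zero (step_lt' he (iter_mem he h n))

theorem flow_mem {x : ZMod k → M} (h : x ∈ sub M k e) {t : ℝ} (ht : 0 ≤ t) :
    S.flow t x ∈ sub M k e :=
  H_mem he (iter_mem he h _) (frac_mem ht) (iter_mem he h _)

theorem en_flow_le {x : ZMod k → M} (h : x ∈ sub M k e) {t : ℝ} (ht : 0 ≤ t) :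
    en (S.flow t x) ≤ en x := by
  have h1 := en_H_le (step_lt' he (iter_mem he h ⌊t⌋₊)) (frac_mem ht)
  exact h1.trans (en_iter_le he h (Nat.zero_le _))

theorem flow_le_iter {x : ZMod k → M} (h : x ∈ sub M k e) {t : ℝ} {n : ℕ} (ht : (n : ℝ) ≤ t) :
    en (S.flow t x) ≤ en ((S.beta)^[n] x) := by
  have ht0 : (0 : ℝ) ≤ t := le_trans (Nat.cast_nonneg n) ht
  have h1 := en_H_le (step_lt' he (iter_mem he h ⌊t⌋₊)) (frac_mem ht0)
  exact h1.trans (en_iter_le he h (Nat.le_floor ht))

theorem continuousOn_flow_Icc (n : ℕ) :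
    ContinuousOn (fun p : ℝ × (ZMod k → M) => S.flow p.1 p.2) (Icc (n : ℝ) (n + 1) ×ˢ sub M k e) := by
  have h1 : ContinuousOn (fun p : ℝ × (ZMod k → M) => S.H (p.1 - n) ((S.beta)^[n] p.2))
      (Icc (n : ℝ) (n + 1) ×ˢ sub M k e) := by
    refine (continuousOn_H (S := S) (k := k)).comp
      (f := fun p : ℝ × (ZMod k → M) => (p.1 - n, (S.beta)^[n] p.2)) ?_ ?_
    · refine ContinuousOn.prodMk (by fun_prop) ?_
      exact (continuousOn_iter he n).comp continuousOn_snd fun p hp => hp.2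
    · rintro ⟨t, x⟩ ⟨ht, hx⟩
      exact ⟨⟨by linarith [ht.1], by linarith [ht.2]⟩, step_lt' he (iter_mem he hx n)⟩
  refine h1.congr ?_
  rintro ⟨t, x⟩ ⟨ht, hx⟩
  exact flow_eq he hx ht.1 ht.2

theorem continuousOn_flow_Icc' (n : ℕ) :
    ContinuousOn (fun p : ℝ × (ZMod k → M) => S.flow p.1 p.2) (Icc (0 : ℝ) n ×ˢ sub M k e) := by
  induction n with
  | zero =>
    refine (continuousOn_flow_Icc he 0).mono ?_
    rintro ⟨t, x⟩ ⟨ht, hx⟩
    refine ⟨⟨?_, ?_⟩, hx⟩
    · simpa using ht.1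
    · have := ht.2
      simp at this ⊢
      linarith
  | succ n ih =>
    have hu : Icc (0 : ℝ) ((n + 1 : ℕ) : ℝ) ×ˢ sub M k e =
        (Icc (0 : ℝ) n ×ˢ sub M k e) ∪ (Icc (n : ℝ) (n + 1) ×ˢ sub M k e) := by
      rw [← union_prod, Icc_union_Icc_eq_Icc (Nat.cast_nonneg n) (by linarith)]
      push_cast
      rfl
    rw [hu]
    exact ih.union_of_isClosed (continuousOn_flow_Icc he n)
      (isClosed_Icc.prod (isClosed_sub e)) (isClosed_Icc.prod (isClosed_sub e))

theorem continuousOn_flow :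
    ContinuousOn (fun p : ℝ × (ZMod k → M) => S.flow p.1 p.2) (Ici (0 : ℝ) ×ˢ sub M k e) := by
  rintro ⟨t, x⟩ ⟨ht, hx⟩
  obtain ⟨n, hn⟩ := exists_nat_gt t
  have h1 := continuousOn_flow_Icc' (S := S) (k := k) he n (t, x) ⟨⟨ht, hn.le⟩, hx⟩
  refine h1.mono_of_mem_nhdsWithin ?_
  have h2 : {p : ℝ × (ZMod k → M) | p.1 < n} ∈ 𝓝[Ici (0 : ℝ) ×ˢ sub M k e] (t, x) :=
    mem_nhdsWithin_of_mem_nhds ((isOpen_lt continuous_fst continuous_const).mem_nhds hn)
  filter_upwards [h2, self_mem_nhdsWithin] with p hp1 hp2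
  exact ⟨⟨hp2.1, hp1.le⟩, hp2.2⟩

omit he in
theorem beta_shift (j : ZMod k) (x : ZMod k → M) :
    S.beta (shift j x) = shift j (S.beta x) := H_shift j

theorem beta_rev {x : ZMod k → M} (h : x ∈ sub M k e) : S.beta (rev x) = rev (S.beta x) :=
  H_rev (step_lt' he h) one_mem'

omit he in
theorem iter_shift (j : ZMod k) (x : ZMod k → M) (n : ℕ) :
    (S.beta)^[n] (shift j x) = shift j ((S.beta)^[n] x) := by
  induction n with
  | zero => rfl
  | succ n ih => rw [Function.iterate_succ_apply', Function.iterate_succ_apply', ih, beta_shift]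

theorem iter_rev {x : ZMod k → M} (h : x ∈ sub M k e) (n : ℕ) :
    (S.beta)^[n] (rev x) = rev ((S.beta)^[n] x) := by
  induction n with
  | zero => rfl
  | succ n ih =>
    rw [Function.iterate_succ_apply', Function.iterate_succ_apply', ih,
      beta_rev he (iter_mem he h n)]

omit he in
theorem flow_shift (j : ZMod k) (t : ℝ) (x : ZMod k → M) :
    S.flow t (shift j x) = shift j (S.flow t x) := by
  unfold Segs.flow
  rw [iter_shift, H_shift]

theorem flow_rev {x : ZMod k → M} (h : x ∈ sub M k e) {t : ℝ} (ht : 0 ≤ t) :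
    S.flow t (rev x) = rev (S.flow t x) := by
  unfold Segs.flow
  rw [iter_rev he h, H_rev (step_lt' he (iter_mem he h _)) (frac_mem ht)]

theorem crit_iff {x : ZMod k → M} (h : x ∈ sub M k e) : Crit S x ↔ en (S.beta x) = en x :=
  (crit_tfae (step_lt' he h) one_pos le_rfl).out 1 2

theorem crit_iff' {x : ZMod k → M} (h : x ∈ sub M k e) :
    Crit S x ↔ ∃ d, IsCritAt S 1 x d :=
  (crit_tfae (step_lt' he h) one_pos le_rfl).out 1 0

theorem lt_of_not_crit {x : ZMod k → M} (h : x ∈ sub M k e) (hx : ¬ Crit S x) :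
    en (S.beta x) < en x :=
  lt_of_le_of_ne (en_beta_le he h) fun h' => hx ((crit_iff he h).2 h')

theorem isClosed_crit : IsClosed {x : ZMod k → M | x ∈ sub M k e ∧ Crit S x} := by
  have h1 : ContinuousOn (fun x : ZMod k → M => (S.beta x, x)) (sub M k e) :=
    (continuousOn_beta he).prodMk continuousOn_id
  exact h1.preimage_isClosed_of_isClosed (isClosed_sub e) isClosed_diagonal

/-- Uniform decrease away from the critical set. -/
theorem exists_decrease [CompactSpace M] {C : Set (ZMod k → M)} (hC : IsClosed C)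
    (hCs : C ⊆ sub M k e) (hcr : ∀ x ∈ C, ¬ Crit S x) :
    ∃ δ > 0, ∀ x ∈ C, en (S.beta x) ≤ en x - δ := by
  rcases C.eq_empty_or_nonempty with rfl | hne
  · exact ⟨1, one_pos, by simp⟩
  have hcont : ContinuousOn (fun x : ZMod k → M => en x - en (S.beta x)) C :=
    (en_cont.continuousOn).sub ((en_cont.comp_continuousOn (continuousOn_beta he)).mono hCs)
  obtain ⟨x₀, hx₀, hmin⟩ := hC.isCompact.exists_isMinOn hne hcont
  refine ⟨en x₀ - en (S.beta x₀), sub_pos.2 (lt_of_not_crit he (hCs hx₀) (hcr x₀ hx₀)),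
    fun x hx => ?_⟩
  have := hmin hx
  simp only [mem_setOf_eq] at this
  linarith

/-- The deformation lemma: no critical polygon with energy in `[a, e]`. -/
theorem exists_iter_lt [CompactSpace M] {a : ℝ}
    (hcr : ∀ x : ZMod k → M, a ≤ en x → en x ≤ e → ¬ Crit S x) :
    ∃ N : ℕ, ∀ n ≥ N, ∀ x ∈ sub M k e, en ((S.beta)^[n] x) < a := by
  have hC : IsClosed {x : ZMod k → M | a ≤ en x ∧ en x ≤ e} :=
    (isClosed_le continuous_const en_cont).inter (isClosed_le en_cont continuous_const)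
  obtain ⟨δ, hδ, hdec⟩ := exists_decrease he hC (fun x hx => hx.2) fun x hx => hcr x hx.1 hx.2
  have key : ∀ n : ℕ, ∀ x ∈ sub M k e, en ((S.beta)^[n] x) < a ∨
      en ((S.beta)^[n] x) ≤ e - n * δ := by
    intro n x hx
    induction n with
    | zero => right; simpa [sub] using hx
    | succ n ih =>
      have hm := iter_mem he hx n
      rw [Function.iterate_succ_apply']
      rcases ih with ih | ih
      · exact Or.inl ((en_beta_le he hm).trans_lt ih)
      · rcases lt_or_ge (en ((S.beta)^[n] x)) a with h1 | h1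
        · exact Or.inl ((en_beta_le he hm).trans_lt h1)
        · right
          have := hdec _ ⟨h1, hm⟩
          push_cast
          linarith
  obtain ⟨N, hN⟩ := exists_nat_gt ((e - a) / δ)
  refine ⟨N, fun n hn x hx => ?_⟩
  rcases key n x hx with h | h
  · exact h
  · rw [div_lt_iff₀ hδ] at hN
    have : (N : ℝ) * δ ≤ n * δ := by
      have : (N : ℝ) ≤ n := by exact_mod_cast hn
      gcongr
    linarith

/-- Passing a critical level: near level `a`, everything is pushed below `a - ε` except near the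
critical set. -/
theorem exists_pass [CompactSpace M] {a : ℝ} (ha : a < e) {U : Set (ZMod k → M)} (hU : IsOpen U)
    (hK : ∀ x : ZMod k → M, en x = a → Crit S x → x ∈ U) :
    ∃ ε > 0, a + ε ≤ e ∧ ∀ x : ZMod k → M, en x ≤ a + ε → S.beta x ∈ U ∨ en (S.beta x) ≤ a - ε := by
  by_contra hcon
  push Not at hcon
  have hx : ∀ n : ℕ, ∃ x : ZMod k → M, en x ≤ a + min (1 / (n + 1 : ℝ)) (e - a) ∧ S.beta x ∉ U ∧
      a - min (1 / (n + 1 : ℝ)) (e - a) < en (S.beta x) := by
    intro n
    refine hcon _ (lt_min (by positivity) (by linarith)) ?_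
    have := min_le_right (1 / (n + 1 : ℝ)) (e - a)
    linarith
  choose x hx1 hx2 hx3 using hx
  have hxe : ∀ n, x n ∈ sub M k e := fun n => by
    have := min_le_right (1 / (n + 1 : ℝ)) (e - a)
    exact (hx1 n).trans (by linarith)
  obtain ⟨y, -, φ, hφ, hy⟩ := (isCompact_univ (X := ZMod k → M)).tendsto_subseq
    (x := x) fun _ => mem_univ _
  have hmin : Tendsto (fun n : ℕ => min (1 / (n + 1 : ℝ)) (e - a)) atTop (𝓝 0) := by
    have h1 : Tendsto (fun n : ℕ => min (1 / (n + 1 : ℝ)) (e - a)) atTop (𝓝 (min 0 (e - a))) :=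
      (tendsto_one_div_add_atTop_nhds_zero_nat (𝕜 := ℝ)).min tendsto_const_nhds
    rwa [min_eq_left (by linarith)] at h1
  have hmin' := hmin.comp hφ.tendsto_atTop
  have hye : y ∈ sub M k e := (isClosed_sub e).mem_of_tendsto hy (Eventually.of_forall fun n => hxe _)
  have hb : Tendsto (fun n => S.beta (x (φ n))) atTop (𝓝 (S.beta y)) := by
    have h1 : Tendsto (fun n => x (φ n)) atTop (𝓝[sub M k e] y) :=
      tendsto_nhdsWithin_iff.2 ⟨hy, Eventually.of_forall fun n => hxe _⟩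
    exact (continuousOn_beta he y hye).tendsto.comp h1
  have e1 : en y ≤ a := by
    have h1 : Tendsto (fun n => en (x (φ n))) atTop (𝓝 (en y)) := (en_cont.tendsto y).comp hy
    have h2 : Tendsto (fun n => a + min (1 / ((φ n : ℕ) + 1 : ℝ)) (e - a)) atTop (𝓝 (a + 0)) :=
      tendsto_const_nhds.add hmin'
    rw [add_zero] at h2
    exact le_of_tendsto_of_tendsto' h1 h2 fun n => hx1 _
  have e2 : a ≤ en (S.beta y) := by
    have h1 : Tendsto (fun n => en (S.beta (x (φ n)))) atTop (𝓝 (en (S.beta y))) :=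
      (en_cont.tendsto _).comp hb
    have h2 : Tendsto (fun n => a - min (1 / ((φ n : ℕ) + 1 : ℝ)) (e - a)) atTop (𝓝 (a - 0)) :=
      tendsto_const_nhds.sub hmin'
    rw [sub_zero] at h2
    exact le_of_tendsto_of_tendsto' h2 h1 fun n => (hx3 _).le
  have e3 := en_beta_le he hye
  have hcr : Crit S y := (crit_iff he hye).2 (by linarith)
  have hyU : y ∈ U := hK y (by linarith) hcr
  have : S.beta y ∈ U := by
    rw [show S.beta y = y from hcr]; exact hyU
  obtain ⟨n, hn⟩ := (hb.eventually (hU.mem_nhds this)).exists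
  exact hx2 _ hn

omit he in
theorem isCritAt_of_one {x : ZMod k → M} (hx : ∀ i, dist (x i) (x (i + 1)) < S.ρ) {d τ : ℝ}
    (h : IsCritAt S 1 x d) (hτ : τ ∈ Icc (0 : ℝ) 1) : IsCritAt S τ x d := by
  intro i
  have h1 := (h i).1
  have h2 : dist (x (i - 1)) (x i) = d := by
    have := (h (i - 1)).1
    rwa [sub_add_cancel] at this
  refine ⟨h1, le_antisymm ?_ ?_⟩
  · have := dist_bw_fw hx hτ i
    rw [h1, h2] at this
    linarith
  · have e1 : dist (S.bw 1 x i) (S.bw τ x i) = (1 - τ) / 2 * d := by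
      unfold Segs.bw
      rw [S.dd _ _ (stepB hx i) _ (half_mem' one_mem') _ (half_mem' hτ), dist_comm (x i), h2,
        show (1 : ℝ) / 2 - τ / 2 = (1 - τ) / 2 by ring, abs_of_nonneg (by linarith [hτ.2])]
    have e2 : dist (S.fw τ x i) (S.fw 1 x i) = (1 - τ) / 2 * d := by
      unfold Segs.fw
      rw [S.dd _ _ (hx i) _ (half_mem' hτ) _ (half_mem' one_mem'), h1, abs_sub_comm,
        show (1 : ℝ) / 2 - τ / 2 = (1 - τ) / 2 by ring, abs_of_nonneg (by linarith [hτ.2])]
    have e3 := dist_triangle4 (S.bw 1 x i) (S.bw τ x i) (S.fw τ x i) (S.fw 1 x i)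
    rw [e1, e2, (h i).2] at e3
    linarith

theorem Crit.H_eq {x : ZMod k → M} (h : x ∈ sub M k e) (hx : Crit S x) {τ : ℝ}
    (hτ : τ ∈ Icc (0 : ℝ) 1) : S.H τ x = x := by
  obtain ⟨d, hd⟩ := (crit_iff' he h).1 hx
  exact (isCritAt_of_one (step_lt' he h) hd hτ).H_eq (step_lt' he h) hτ

/-- Small neighbourhoods of the critical set are moved little. -/
theorem exists_tube {K U : Set (ZMod k → M)} (hU : IsOpen U)
    (hK : ∀ x ∈ K, x ∈ sub M k e ∧ Crit S x ∧ x ∈ U) :
    ∃ V : Set (ZMod k → M), IsOpen V ∧ K ⊆ V ∧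
      ∀ x ∈ V ∩ sub M k e, ∀ τ ∈ Icc (0 : ℝ) 1, S.H τ x ∈ U := by
  refine ⟨interior {x | ∀ τ ∈ Icc (0 : ℝ) 1, x ∈ sub M k e → τ ∈ Icc (0 : ℝ) 1 → S.H τ x ∈ U},
    isOpen_interior, fun x hx => ?_, fun x hx τ hτ => interior_subset hx.1 τ hτ hx.2 hτ⟩
  obtain ⟨h1, h2, h3⟩ := hK x hx
  rw [mem_interior_iff_mem_nhds]
  refine isCompact_Icc.eventually_forall_of_forall_eventually
    (P := fun x τ => x ∈ sub M k e → τ ∈ Icc (0 : ℝ) 1 → S.H τ x ∈ U) fun τ hτ => ?_
  have h4 : ContinuousWithinAt (fun p : (ZMod k → M) × ℝ => S.H p.2 p.1)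
      (sub M k e ×ˢ Icc (0 : ℝ) 1) (x, τ) := by
    have := (continuousOn_H (S := S) (k := k)).comp
      (f := fun p : (ZMod k → M) × ℝ => (p.2, p.1)) (s := sub M k e ×ˢ Icc (0 : ℝ) 1)
      (by fun_prop) fun p hp => ⟨hp.2, step_lt' he hp.1⟩
    exact this (x, τ) ⟨h1, hτ⟩
  have h5 : ∀ᶠ p in 𝓝[sub M k e ×ˢ Icc (0 : ℝ) 1] (x, τ), S.H p.2 p.1 ∈ U := by
    refine h4.tendsto.eventually (hU.mem_nhds ?_)
    show S.H τ x ∈ U
    rw [h2.H_eq he h1 hτ]
    exact h3
  rw [eventually_nhdsWithin_iff] at h5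
  filter_upwards [h5] with p hp h6 h7
  exact hp ⟨h6, h7⟩

end

end Vale.Agent.P216.H494
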