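import Vale.Agent.P216.LS.Seg
import Vale.Agent.P216.H494.Flow

/-! P216: `Segs` from `LS.UniqSeg`. -/

namespace Vale.Agent.P216.H494

open Set Filter Topology

/-- The structure `Segs` of a compact metric space with unique short segments;
the segments are `LS.seg`. -/
noncomputable def Segs.ofUniqSeg {M : Type*} [MetricSpace M] [CompactSpace M] {ρ : ℝ} (hρ : 0 < ρ)
    (h : LS.UniqSeg M ρ) : Segs M where
  ρ := ρ
  ρ_pos := hρ
  seg := LS.seg
  cont := LS.continuousOn_seg h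
  seg_zero x y _ := LS.seg_zero x y
  seg_one x y _ := LS.seg_one x y
  dd x y hxy s hs t ht := LS.dist_seg_seg h hxy hs ht
  uniq x y hxy t ht z h1 h2 := LS.eq_seg h hxy ht h1 h2

@[simp] theorem Segs.ofUniqSeg_ρ {M : Type*} [MetricSpace M] [CompactSpace M] {ρ : ℝ} (hρ : 0 < ρ)
    (h : LS.UniqSeg M ρ) : (Segs.ofUniqSeg hρ h).ρ = ρ := rfl

@[simp] theorem Segs.ofUniqSeg_seg {M : Type*} [MetricSpace M] [CompactSpace M] {ρ : ℝ}
    (hρ : 0 < ρ) (h : LS.UniqSeg M ρ) : (Segs.ofUniqSeg hρ h).seg = LS.seg := rfl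

end Vale.Agent.P216.H494
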