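import Vale.Agent.P216.Bdl.B1
import Vale.Agent.P216.H494.Flow

/-! P216: critical polygons and closed geodesics. -/

namespace Vale.Agent.P216.H494

open Set Filter Topology

set_option linter.all false

section
variable {M : Type*} [MetricSpace M] {k : ℕ} [NeZero k] {S : Segs M}

/-- The broken geodesic of a polygon. -/
noncomputable def crv (S : Segs M) (x : ZMod k → M) (t : ℝ) : M :=
  S.seg (x (⌊t⌋ : ℤ)) (x ((⌊t⌋ : ℤ) + 1)) (Int.fract t)

theorem periodic_of_int {α : Type*} {f : ℤ → α} : True := trivial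

section
variable {x : ZMod k → M} (hx : ∀ i, dist (x i) (x (i + 1)) < S.ρ)
include hx

theorem crv_eq {t : ℝ} (n : ℤ) (h1 : (n : ℝ) ≤ t) (h2 : t ≤ n + 1) :
    crv S x t = S.seg (x n) (x (n + 1)) (t - n) := by
  rcases h2.eq_or_lt with h3 | h3
  · have hf : ⌊t⌋ = n + 1 := by
      rw [h3]
      exact_mod_cast Int.floor_intCast (n + 1)
    unfold crv
    have hfr : Int.fract t = 0 := by
      rw [Int.fract, hf, h3]; push_cast; ring
    rw [hf, hfr, h3]
    push_cast
    rw [add_sub_cancel_left, S.seg_zero _ _ (hx _), S.seg_one _ _ (hx _)]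
  · have hf : ⌊t⌋ = n := Int.floor_eq_iff.2 ⟨h1, h3⟩
    unfold crv
    rw [Int.fract, hf]

theorem crv_int (n : ℤ) : crv S x n = x n := by
  rw [crv_eq hx n le_rfl (by linarith), sub_self, S.seg_zero _ _ (hx _)]

omit hx in
theorem crv_periodic : Function.Periodic (crv S x) (k : ℝ) := by
  intro t
  unfold crv
  have h1 : ⌊t + (k : ℝ)⌋ = ⌊t⌋ + k := by
    exact_mod_cast Int.floor_add_natCast t k
  have h2 : Int.fract (t + (k : ℝ)) = Int.fract t := by
    exact_mod_cast Int.fract_add_natCast t k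
  rw [h1, h2]
  push_cast
  simp

theorem crv_dist {s t : ℝ} (n : ℤ) (hs1 : (n : ℝ) ≤ s) (hs2 : s ≤ n + 1) (ht1 : (n : ℝ) ≤ t)
    (ht2 : t ≤ n + 1) : dist (crv S x s) (crv S x t) = |s - t| * dist (x n) (x (n + 1)) := by
  rw [crv_eq hx n hs1 hs2, crv_eq hx n ht1 ht2, S.dd _ _ (hx _) _ ⟨by linarith, by linarith⟩ _
    ⟨by linarith, by linarith⟩]
  congr 2
  ring

theorem crv_half_right (n : ℤ) : crv S x (n + 1 / 2) = S.fw 1 x n := by
  rw [crv_eq hx n (by linarith) (by linarith)]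
  unfold Segs.fw
  congr 1
  ring

theorem crv_half_left (n : ℤ) : crv S x (n - 1 / 2) = S.bw 1 x n := by
  have h := crv_eq (S := S) hx (t := (n : ℝ) - 1 / 2) (n - 1) (by push_cast; linarith)
    (by push_cast; linarith)
  rw [h]
  unfold Segs.bw
  have h1 := hx ((n - 1 : ℤ) : ZMod k)
  have e1 : ((n - 1 : ℤ) : ZMod k) + 1 = n := by push_cast; ring
  have e2 : ((n - 1 : ℤ) : ZMod k) = n - 1 := by push_cast; ring
  rw [e1] at h1 ⊢
  rw [e2] at h1 ⊢
  rw [S.seg_symm h1 ⟨by push_cast; linarith, by push_cast; linarith⟩]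
  congr 1
  push_cast
  ring

theorem crv_dist_crit {d : ℝ} (h : IsCritAt S 1 x d) (n : ℤ) {s t : ℝ}
    (hs1 : (n : ℝ) - 1 / 2 ≤ s) (hs2 : s ≤ n + 1 / 2) (ht1 : (n : ℝ) - 1 / 2 ≤ t)
    (ht2 : t ≤ n + 1 / 2) : dist (crv S x s) (crv S x t) = d * |s - t| := by
  have hd : ∀ i : ZMod k, dist (x i) (x (i + 1)) = d := fun i => (h i).1
  -- the two half edges
  have R : ∀ {u v : ℝ}, (n : ℝ) ≤ u → u ≤ n + 1 → (n : ℝ) ≤ v → v ≤ n + 1 →
      dist (crv S x u) (crv S x v) = |u - v| * d := fun h1 h2 h3 h4 => by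
    rw [crv_dist hx n h1 h2 h3 h4, hd]
  have L : ∀ {u v : ℝ}, (n : ℝ) - 1 ≤ u → u ≤ n → (n : ℝ) - 1 ≤ v → v ≤ n →
      dist (crv S x u) (crv S x v) = |u - v| * d := fun h1 h2 h3 h4 => by
    rw [crv_dist hx (n - 1) (by push_cast; linarith) (by push_cast; linarith)
      (by push_cast; linarith) (by push_cast; linarith), hd]
  have key : ∀ {u v : ℝ}, (n : ℝ) - 1 / 2 ≤ u → u ≤ n → (n : ℝ) ≤ v → v ≤ n + 1 / 2 →
      dist (crv S x u) (crv S x v) = d * |u - v| := by
    intro u v h1 h2 h3 h4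
    have e1 := L (u := u) (v := n) (by linarith) h2 (by linarith) le_rfl
    have e2 := R (u := n) (v := v) le_rfl (by linarith) h3 (by linarith)
    have e3 := L (u := n - 1 / 2) (v := u) (by linarith) (by linarith) (by linarith) h2
    have e4 := R (u := v) (v := n + 1 / 2) h3 (by linarith) (by linarith) (by linarith)
    have e5 : dist (crv S x (n - 1 / 2)) (crv S x (n + 1 / 2)) = d := by
      rw [crv_half_left hx, crv_half_right hx, (h n).2, one_mul]
    have t1 := dist_triangle (crv S x u) (crv S x n) (crv S x v)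
    have t2 := dist_triangle4 (crv S x (n - 1 / 2)) (crv S x u) (crv S x v) (crv S x (n + 1 / 2))
    rw [e1, e2] at t1
    rw [e3, e4, e5] at t2
    rw [abs_sub_comm, abs_of_nonneg (by linarith)] at t1
    rw [abs_sub_comm (n : ℝ) v, abs_of_nonneg (show (0 : ℝ) ≤ v - n by linarith)] at t1
    rw [abs_sub_comm _ u, abs_of_nonneg (show (0 : ℝ) ≤ u - (n - 1 / 2) by linarith),
      abs_sub_comm v, abs_of_nonneg (show (0 : ℝ) ≤ n + 1 / 2 - v by linarith)] at t2
    rw [abs_sub_comm, abs_of_nonneg (by linarith)]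
    apply le_antisymm
    · linarith
    · linarith
  rcases le_total s n with h1 | h1 <;> rcases le_total t n with h2 | h2
  · rw [L (by linarith) h1 (by linarith) h2, mul_comm]
  · exact key hs1 h1 h2 ht2
  · rw [dist_comm, key ht1 h2 h1 hs2, abs_sub_comm]
  · rw [R h1 (by linarith) h2 (by linarith), mul_comm]

/-- Critical polygons are closed geodesics. -/
theorem IsCritAt.isGeodesic {d : ℝ} (h : IsCritAt S 1 x d) :
    IsGeodesicWithSpeed (crv S x) d := by
  intro t
  refine ⟨1 / 4, by norm_num, fun s s' hs hs' => ?_⟩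
  rw [abs_lt] at hs hs'
  have hf := Int.floor_le t
  have hl := Int.lt_floor_add_one t
  rcases lt_or_ge (t - ⌊t⌋) (1 / 4) with h1 | h1
  · exact crv_dist_crit hx h ⌊t⌋ (by linarith) (by linarith) (by linarith) (by linarith)
  rcases lt_or_ge (3 / 4) (t - ⌊t⌋) with h2 | h2
  · refine crv_dist_crit hx h (⌊t⌋ + 1) ?_ ?_ ?_ ?_ <;> push_cast <;> linarith
  · rw [crv_dist hx ⌊t⌋ (by linarith) (by linarith) (by linarith) (by linarith), (h _).1, mul_comm]

end

end

/-! ### Finitely many closed geodesics -/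

/-- A finite list of unit speed prime closed geodesics, containing all closed geodesics. -/
structure GeoList (M : Type*) [MetricSpace M] where
  ι : Type
  fin : Finite ι
  c : ι → ℝ → M
  ℓ : ι → ℝ
  ℓ_pos : ∀ j, 0 < ℓ j
  geo : ∀ j, IsGeodesicWithSpeed (c j) 1
  per : ∀ j, Function.Periodic (c j) (ℓ j)
  prime : ∀ j p, Function.Periodic (c j) p → ∃ m : ℤ, p = m * ℓ j
  inj : ∀ i j, range (c i) = range (c j) → i = j
  all : ∀ γ : ℝ → M, IsGeodesicWithSpeed γ 1 → ∀ p > 0, Function.Periodic γ p →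
    ∃ j, ∃ e : ℝ, (e = 1 ∨ e = -1) ∧ ∃ b : ℝ, ∀ t, γ t = c j (e * t + b)

theorem exists_geoList {M : Type*} [MetricSpace M] (hNB : NonBranching M)
    (hfin : (primeClosedGeodesicImages M).Finite) : Nonempty (GeoList M) := by
  have h1 : ∀ R : primeClosedGeodesicImages M, ∃ (c : ℝ → M) (ℓ : ℝ), 0 < ℓ ∧
      IsGeodesicWithSpeed c 1 ∧ Function.Periodic c ℓ ∧
      (∀ p, Function.Periodic c p → ∃ m : ℤ, p = m * ℓ) ∧ range c = R.1 := by
    rintro ⟨R, c, τ, ⟨⟨v, hv, hc⟩, hτ, hper, -⟩, rfl⟩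
    have h2 := hc.normalize hv
    have h3 : Function.Periodic (fun t => c (t / v)) (v * τ) := fun t => by
      show c ((t + v * τ) / v) = c (t / v)
      rw [add_div, mul_div_cancel_left₀ _ hv.ne']
      exact hper _
    obtain ⟨ℓ, hℓ, hp1, hp2⟩ := exists_generator_periods one_pos h2 (mul_pos hv hτ) h3
    refine ⟨fun t => c (t / v), ℓ, hℓ, h2, hp1, hp2, ?_⟩
    ext y
    constructor
    · rintro ⟨t, rfl⟩; exact ⟨t / v, rfl⟩
    · rintro ⟨t, rfl⟩; exact ⟨v * t, by simp only [mul_div_cancel_left₀ _ hv.ne']⟩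
  choose c ℓ h2 h3 h4 h5 h6 using h1
  have hF : Finite (primeClosedGeodesicImages M) := hfin
  obtain ⟨n, ⟨f⟩⟩ := Finite.exists_equiv_fin (primeClosedGeodesicImages M)
  refine ⟨⟨Fin n, inferInstance, fun j => c (f.symm j), fun j => ℓ (f.symm j), fun j => h2 _,
    fun j => h3 _, fun j => h4 _, fun j => h5 _, fun i j hij => ?_, ?_⟩⟩
  · rw [h6, h6] at hij
    exact f.symm.injective (Subtype.ext hij)
  · intro γ hγ p hp hper
    have hm := range_mem_images hγ hp hper
    refine ⟨f ⟨_, hm⟩, ?_⟩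
    have h7 : range γ ⊆ range (c (f.symm (f ⟨_, hm⟩))) := by
      rw [h6, Equiv.symm_apply_apply]
    exact eq_comp_of_range_subset hNB hγ (h3 _) h7

end Vale.Agent.P216.H494
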