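import Vale.Agent.P216.L250.Loop
import Vale.Agent.P216.LS.Milnor
import Vale.Agent.P216.H494.Adapter
import Vale.Agent.P216.H494.Dict

/-! P216, (D3): the critical loops. -/

namespace Vale.Agent.P216.H494

open Set Filter Topology L250

set_option linter.all false

variable {M : Type*} [MetricSpace M]

/-- The lengths of the closed geodesics. -/
def GeoList.Crit (G : GeoList M) : Set ℝ := {a | ∃ j, ∃ m : ℕ, 1 ≤ m ∧ a = m * G.ℓ j}

/-- The loops of length `a` which follow a closed geodesic with orientation `e = ±1`. -/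
def GeoList.KK (G : GeoList M) (e a : ℝ) : Set (LM M) :=
  {g | ∃ j, ∃ b : ℝ, ∀ t, fn g t = G.c j (e * a * t + b)}

section
variable (G : GeoList M) {e a : ℝ}

theorem GeoList.dist_le (j : G.ι) (s t : ℝ) : dist (G.c j s) (G.c j t) ≤ |s - t| := by
  have := (G.geo j).dist_le s t
  rwa [one_mul] at this

theorem GeoList.continuous_c (j : G.ι) : Continuous (G.c j) := (G.geo j).continuous

variable {G}

theorem abs_sgn (he : e = 1 ∨ e = -1) : |e| = 1 := by rcases he with rfl | rfl <;> simp

theorem sgn_mul_self (he : e = 1 ∨ e = -1) : e * e = 1 := by rcases he with rfl | rfl <;> simp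

theorem sgn_neg (he : e = 1 ∨ e = -1) : -e = 1 ∨ -e = -1 := by rcases he with rfl | rfl <;> simp

theorem KK_dist_le {g : LM M} (he : e = 1 ∨ e = -1) (ha : 0 ≤ a) (hg : g ∈ G.KK e a) (s t : ℝ) :
    dist (fn g s) (fn g t) ≤ a * |s - t| := by
  obtain ⟨j, b, h⟩ := hg
  rw [h, h]
  refine (G.dist_le j _ _).trans (le_of_eq ?_)
  rw [show e * a * s + b - (e * a * t + b) = e * (a * (s - t)) by ring, abs_mul, abs_sgn he,
    one_mul, abs_mul, abs_of_nonneg ha]

theorem KK_subset_XE (he : e = 1 ∨ e = -1) (ha : 0 ≤ a) : G.KK e a ⊆ XE M a := by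
  intro g hg
  rw [mem_XE]
  refine ⟨fun t => a ^ 2 * t, fun s t hst => ?_, fun t => by ring⟩
  have h := KK_dist_le he ha hg s t
  rw [abs_sub_comm, abs_of_nonneg (by linarith)] at h
  have h2 := pow_le_pow_left₀ dist_nonneg h 2
  linarith

theorem KK_period {g : LM M} (he : e = 1 ∨ e = -1) {j : G.ι} {b r : ℝ} (ha : 0 < a)
    (h : ∀ t, fn g t = G.c j (e * a * t + b)) (hr : ∀ t, fn g (t + r) = fn g t) :
    Function.Periodic (G.c j) (a * r) := by
  have h1 : ∀ u, G.c j (u + e * (a * r)) = G.c j u := by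
    intro u
    have := hr ((u - b) / (e * a))
    have hea : e * a ≠ 0 := by
      rcases he with rfl | rfl
      · simpa using ha.ne'
      · simpa using ha.ne'
    rw [h, h] at this
    have e0 : e * a * ((u - b) / (e * a)) = u - b := mul_div_cancel₀ _ hea
    have e1 : e * a * ((u - b) / (e * a) + r) + b = u + e * (a * r) := by
      rw [mul_add, e0]; ring
    have e2 : e * a * ((u - b) / (e * a)) + b = u := by
      rw [e0]; ring
    rwa [e1, e2] at this
  rcases he with rfl | rfl
  · simpa using h1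
  · intro u
    have := h1 (u + a * r)
    rw [show u + a * r + -1 * (a * r) = u by ring] at this
    exact this.symm

theorem mem_Crit_of_periodic {j : G.ι} (ha : 0 < a) (h : Function.Periodic (G.c j) a) :
    a ∈ G.Crit := by
  obtain ⟨m, hm⟩ := G.prime j _ h
  have h0 := G.ℓ_pos j
  have hm0 : 0 < m := by
    by_contra hcon
    push Not at hcon
    have : (m : ℝ) ≤ 0 := by exact_mod_cast hcon
    nlinarith
  obtain ⟨n, rfl⟩ := Int.eq_ofNat_of_zero_le hm0.le
  refine ⟨j, n, ?_, ?_⟩
  · exact_mod_cast hm0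
  · simpa using hm

/-- The critical set is empty if `a` is not a critical length. -/
theorem mem_Crit_of_mem_KK {g : LM M} (he : e = 1 ∨ e = -1) (ha : 0 < a) (hg : g ∈ G.KK e a) :
    a ∈ G.Crit := by
  obtain ⟨j, b, h⟩ := hg
  have := KK_period he ha h (r := 1) fun t => fn_periodic g t
  rw [mul_one] at this
  exact mem_Crit_of_periodic ha this

theorem rot_mem_KK {g : LM M} (hg : g ∈ G.KK e a) (r : ℝ) : rot r g ∈ G.KK e a := by
  obtain ⟨j, b, h⟩ := hg
  refine ⟨j, e * a * r + b, fun t => ?_⟩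
  rw [fn_rot, h]
  congr 1
  ring

theorem rev_mem_KK {g : LM M} (hg : g ∈ G.KK e a) : L250.rev g ∈ G.KK (-e) a := by
  obtain ⟨j, b, h⟩ := hg
  refine ⟨j, b, fun t => ?_⟩
  rw [fn_rev, h]
  congr 1
  ring

theorem iter_mem_KK {g : LM M} (hg : g ∈ G.KK e a) (p : ℕ) : iter p g ∈ G.KK e (p * a) := by
  obtain ⟨j, b, h⟩ := hg
  refine ⟨j, b, fun t => ?_⟩
  rw [fn_iter, h]
  congr 1
  ring

/-- A fixed point of the rotation by `1 / p` has a critical `p`-th part. -/
theorem div_mem_Crit_of_fixed {g : LM M} (he : e = 1 ∨ e = -1) (ha : 0 < a) (hg : g ∈ G.KK e a)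
    {p : ℕ} (hp : 0 < p) (hfix : rot (1 / p) g = g) : a / p ∈ G.Crit := by
  obtain ⟨j, b, h⟩ := hg
  have hp' : (0 : ℝ) < p := Nat.cast_pos.2 hp
  have := KK_period he ha h (r := 1 / p) fun t => by
    rw [← fn_rot, hfix]
  rw [mul_one_div] at this
  exact mem_Crit_of_periodic (div_pos ha hp') this

/-- The two orientations are disjoint. -/
theorem disjoint_KK (ha : 0 < a) : Disjoint (G.KK 1 a) (G.KK (-1) a) := by
  rw [Set.disjoint_left]
  rintro g ⟨i, b, h⟩ ⟨j, b', h'⟩
  have hr : range (G.c i) = range (G.c j) := by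
    ext y
    constructor
    · rintro ⟨u, rfl⟩
      refine ⟨-1 * a * ((u - b) / a) + b', ?_⟩
      rw [← h', h]
      congr 1
      field_simp
      ring
    · rintro ⟨u, rfl⟩
      refine ⟨1 * a * (-((u - b') / a)) + b, ?_⟩
      rw [← h, h']
      congr 1
      field_simp
      ring
  obtain rfl := G.inj i j hr
  have h1 : ∀ v, G.c i ((b + b') / 2 + v) = G.c i ((b + b') / 2 - v) := by
    intro v
    have e1 := h (((b + b') / 2 + v - b) / a)
    have e2 := h' (((b + b') / 2 + v - b) / a)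
    have e3 : 1 * a * (((b + b') / 2 + v - b) / a) + b = (b + b') / 2 + v := by
      field_simp; ring
    have e4 : -1 * a * (((b + b') / 2 + v - b) / a) + b' = (b + b') / 2 - v := by
      field_simp; ring
    rw [e3] at e1
    rw [e4] at e2
    rw [← e1, e2]
  obtain ⟨ε, hε, H⟩ := G.geo i ((b + b') / 2)
  have h2 := H ((b + b') / 2 + ε / 2) ((b + b') / 2 - ε / 2)
    (by rw [add_sub_cancel_left, abs_of_pos (by positivity)]; linarith)
    (by rw [sub_sub_cancel_left, abs_neg, abs_of_pos (by positivity)]; linarith)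
  rw [h1, dist_self, one_mul, show (b + b') / 2 + ε / 2 - ((b + b') / 2 - ε / 2) = ε by ring,
    abs_of_pos hε] at h2
  exact hε.ne h2

/-- The critical sets are compact. -/
theorem isCompact_KK (he : e = 1 ∨ e = -1) (ha : 0 < a) : IsCompact (G.KK e a) := by
  haveI := G.fin
  have h1 : G.KK e a = ⋃ j : G.ι, {g | ∃ b : ℝ, ∀ t, fn g t = G.c j (e * a * t + b)} := by
    ext g
    simp [GeoList.KK]
  rw [h1]
  refine isCompact_iUnion fun j => ?_
  by_cases hper : Function.Periodic (G.c j) a
  · have hper' : ∀ b : ℝ, Function.Periodic (fun t => G.c j (e * a * t + b)) 1 := by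
      intro b t
      show G.c j (e * a * (t + 1) + b) = _
      rcases he with rfl | rfl
      · rw [show (1 : ℝ) * a * (t + 1) + b = 1 * a * t + b + a by ring, hper]
      · rw [show (-1 : ℝ) * a * (t + 1) + b = -1 * a * t + b - a by ring, hper.sub_eq]
    have hcont : ∀ b : ℝ, Continuous (fun t => G.c j (e * a * t + b)) := fun b =>
      (G.continuous_c j).comp (by fun_prop)
    let F : ℝ → LM M := fun b => ofFn _ (hcont b) (hper' b)
    have hF : LipschitzWith 1 F := by
      refine LipschitzWith.of_dist_le_mul fun b b' => ?_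
      rw [NNReal.coe_one, one_mul, dist_le_iff dist_nonneg]
      intro t
      rw [fn_ofFn, fn_ofFn]
      refine (G.dist_le j _ _).trans (le_of_eq ?_)
      rw [Real.dist_eq]
      congr 1
      ring
    have h2 : {g | ∃ b : ℝ, ∀ t, fn g t = G.c j (e * a * t + b)} = F '' Icc 0 (G.ℓ j) := by
      ext g
      constructor
      · rintro ⟨b, hb⟩
        have hℓ := G.ℓ_pos j
        refine ⟨b - ⌊b / G.ℓ j⌋ * G.ℓ j, ⟨?_, ?_⟩, ?_⟩
        · have := Int.floor_le (b / G.ℓ j)
          rw [le_div_iff₀ hℓ] at this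
          linarith
        · have := (Int.lt_floor_add_one (b / G.ℓ j)).le
          rw [div_le_iff₀ hℓ] at this
          linarith
        · refine ext_fn fun t => ?_
          rw [hb, fn_ofFn]
          rw [show e * a * t + (b - ⌊b / G.ℓ j⌋ * G.ℓ j) = e * a * t + b - ⌊b / G.ℓ j⌋ * G.ℓ j by
            ring]
          exact (G.per j).sub_int_mul_eq _
      · rintro ⟨b, -, rfl⟩
        exact ⟨b, fun t => fn_ofFn _ _ _ t⟩
    rw [h2]
    exact isCompact_Icc.image hF.continuous
  · convert isCompact_empty (X := LM M) using 1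
    rw [eq_empty_iff_forall_notMem]
    rintro g ⟨b, hb⟩
    apply hper
    have := KK_period he ha hb (r := 1) fun t => fn_periodic g t
    rwa [mul_one] at this

/-- A uniform scale at which all the closed geodesics are minimal. -/
theorem exists_scale (G : GeoList M) :
    ∃ r > 0, ∀ j s t, |s - t| ≤ r → dist (G.c j s) (G.c j t) = |s - t| := by
  haveI := G.fin
  have h1 : ∀ j, ∃ r > 0, ∀ s t, |s - t| ≤ r → dist (G.c j s) (G.c j t) = |s - t| := by
    intro j
    choose ε hε H using G.geo j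
    have hc : Icc (0 : ℝ) (G.ℓ j) ⊆ ⋃ t : ℝ, Metric.ball t (ε t) := fun t _ =>
      mem_iUnion.2 ⟨t, Metric.mem_ball_self (hε t)⟩
    obtain ⟨δ, hδ, h2⟩ := lebesgue_number_lemma_of_metric isCompact_Icc
      (fun t => Metric.isOpen_ball) hc
    refine ⟨δ / 2, by positivity, fun s t hst => ?_⟩
    have hℓ := G.ℓ_pos j
    set n : ℤ := ⌊s / G.ℓ j⌋ with hn
    have hs0 : s - n * G.ℓ j ∈ Icc (0 : ℝ) (G.ℓ j) := by
      constructor
      · have := Int.floor_le (s / G.ℓ j)
        rw [le_div_iff₀ hℓ] at this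
        linarith
      · have := (Int.lt_floor_add_one (s / G.ℓ j)).le
        rw [div_le_iff₀ hℓ] at this
        linarith
    obtain ⟨t₀, ht₀⟩ := h2 _ hs0
    have m1 := ht₀ (Metric.mem_ball_self hδ)
    have m2 : t - n * G.ℓ j ∈ Metric.ball t₀ (ε t₀) := by
      apply ht₀
      rw [Metric.mem_ball, Real.dist_eq, show t - n * G.ℓ j - (s - n * G.ℓ j) = t - s by ring,
        abs_sub_comm]
      linarith
    rw [Metric.mem_ball, Real.dist_eq] at m1 m2
    have := H t₀ _ _ m1 m2
    rw [(G.per j).sub_int_mul_eq, (G.per j).sub_int_mul_eq, one_mul] at this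
    rw [this]
    congr 1
    ring
  choose r hr H using h1
  rcases isEmpty_or_nonempty G.ι with hι | hι
  · exact ⟨1, one_pos, fun j => (hι.false j).elim⟩
  · obtain ⟨j₀, hj₀⟩ := Finite.exists_min r
    exact ⟨r j₀, hr j₀, fun j s t h => H j s t (h.trans (hj₀ j))⟩

theorem KK_dist_eq {g : LM M} (he : e = 1 ∨ e = -1) (ha : 0 ≤ a) (hg : g ∈ G.KK e a) {r : ℝ}
    (hr : ∀ j s t, |s - t| ≤ r → dist (G.c j s) (G.c j t) = |s - t|) {s t : ℝ}
    (h : a * |s - t| ≤ r) : dist (fn g s) (fn g t) = a * |s - t| := by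
  obtain ⟨j, b, hb⟩ := hg
  have e1 : |e * a * s + b - (e * a * t + b)| = a * |s - t| := by
    rw [show e * a * s + b - (e * a * t + b) = e * (a * (s - t)) by ring, abs_mul, abs_sgn he,
      one_mul, abs_mul, abs_of_nonneg ha]
  rw [hb, hb, hr j _ _ (by rw [e1]; exact h), e1]

end

end Vale.Agent.P216.H494
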