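import Vale.Agent.P216.Hol.Struct
import Vale.Agent.P216.AS.Endgame707
import Vale.Agent.P216.H494.CritLoop

/-! P216, (D3) on the double cover `{(g, z) | z ^ 2 = hol g}`. -/

namespace Vale.Agent.P216.H494

open Set Filter Topology L250 Vale.Agent.P216.H288
open scoped ComplexConjugate

set_option linter.all false

variable {M : Type*} [MetricSpace M]

/-- The preimage in the double cover of a set of loops. -/
def cov (H : Hol M) (A : Set (LM M)) : Set (LM M × ℂ) := {q | q.1 ∈ A ∧ q.2 ^ 2 = H.hol q.1}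

theorem cov_mono (H : Hol M) {A B : Set (LM M)} (h : A ⊆ B) : cov H A ⊆ cov H B :=
  fun _ hq => ⟨h hq.1, hq.2⟩

theorem norm_snd_of_mem_cov {H : Hol M} {A : Set (LM M)} {q : LM M × ℂ} (h : q ∈ cov H A) :
    ‖q.2‖ = 1 := by
  have h1 : ‖q.2‖ ^ 2 = 1 := by rw [← norm_pow, h.2, H.norm_hol]
  exact (pow_eq_one_iff_of_nonneg (norm_nonneg _) two_ne_zero).1 h1

theorem isCompact_cov (H : Hol M) {A : Set (LM M)} (hA : IsCompact A) {s : ℝ}
    (hs : A ⊆ XE M s) : IsCompact (cov H A) := by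
  have hK : IsCompact (A ×ˢ Metric.closedBall (0 : ℂ) 1) := hA.prod (isCompact_closedBall 0 1)
  have hc : ContinuousOn (fun q : LM M × ℂ => (q.2 ^ 2, H.hol q.1))
      (A ×ˢ Metric.closedBall (0 : ℂ) 1) := by
    refine ContinuousOn.prodMk (by fun_prop) ?_
    exact ((H.continuousOn_hol s).mono hs).comp continuousOn_fst fun q hq => hq.1
  have h1 : IsCompact ((A ×ˢ Metric.closedBall (0 : ℂ) 1) ∩
      (fun q : LM M × ℂ => (q.2 ^ 2, H.hol q.1)) ⁻¹' diagonal ℂ) := by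
    obtain ⟨C, hC, hCe⟩ := (continuousOn_iff_isClosed.1 hc) _ isClosed_diagonal
    rw [inter_comm, hCe, inter_comm]
    exact hK.inter_right hC
  convert h1 using 1
  ext q
  constructor
  · intro hq
    refine ⟨⟨hq.1, ?_⟩, hq.2⟩
    rw [mem_closedBall_zero_iff, norm_snd_of_mem_cov hq]
  · rintro ⟨⟨h1, -⟩, h2⟩
    exact ⟨h1, h2⟩

theorem disjoint_cov (H : Hol M) {A B : Set (LM M)} (h : Disjoint A B) :
    Disjoint (cov H A) (cov H B) := by
  rw [Set.disjoint_left] at h ⊢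
  exact fun q h1 h2 => h h1.1 h2.1

theorem deck_mem_cov {H : Hol M} {A : Set (LM M)} {q : LM M × ℂ} (h : q ∈ cov H A) :
    (q.1, -q.2) ∈ cov H A := ⟨h.1, by simpa using h.2⟩

theorem rot_mem_cov {H : Hol M} {A : Set (LM M)} {a : ℝ} (hA : ∀ g ∈ A, rot a g ∈ A)
    {q : LM M × ℂ} (h : q ∈ cov H A) : (rot a q.1, q.2) ∈ cov H A :=
  ⟨hA _ h.1, by simpa [H.hol_rot] using h.2⟩

theorem rev_mem_cov {H : Hol M} {A B : Set (LM M)} (hA : ∀ g ∈ A, L250.rev g ∈ B)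
    {q : LM M × ℂ} (h : q ∈ cov H A) : (L250.rev q.1, conj q.2) ∈ cov H B :=
  ⟨hA _ h.1, by simp only; rw [H.hol_rev, ← map_pow, h.2]⟩

section
variable {G : GeoList M} (H : Hol M) {a : ℝ}

/-- The critical sets in the double cover, `e = 1` or `e = -1`. -/
def Kt (G : GeoList M) (H : Hol M) (e a : ℝ) : Set (LM M × ℂ) := cov H (G.KK e a)

theorem isCompact_Kt {e : ℝ} (he : e = 1 ∨ e = -1) (ha : 0 < a) : IsCompact (Kt G H e a) :=
  isCompact_cov H (isCompact_KK he ha) (KK_subset_XE he ha.le)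

theorem Kt_subset {e : ℝ} (he : e = 1 ∨ e = -1) (ha : 0 ≤ a) :
    Kt G H e a ⊆ cov H (XE M a) := cov_mono H (KK_subset_XE he ha)

theorem disjoint_Kt (ha : 0 < a) : Disjoint (Kt G H 1 a) (Kt G H (-1) a) :=
  disjoint_cov H (disjoint_KK ha)

theorem deck_mem_Kt {e : ℝ} {q : LM M × ℂ} (h : q ∈ Kt G H e a) : (q.1, -q.2) ∈ Kt G H e a :=
  deck_mem_cov h

theorem rot_mem_Kt {e r : ℝ} {q : LM M × ℂ} (h : q ∈ Kt G H e a) : (rot r q.1, q.2) ∈ Kt G H e a :=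
  rot_mem_cov (fun g hg => rot_mem_KK hg r) h

theorem rev_mem_Kt {e : ℝ} {q : LM M × ℂ} (h : q ∈ Kt G H e a) :
    (L250.rev q.1, conj q.2) ∈ Kt G H (-e) a := rev_mem_cov (fun g hg => rev_mem_KK hg) h

theorem Kt_eq_empty {e : ℝ} (he : e = 1 ∨ e = -1) (ha : 0 < a) (hc : a ∉ G.Crit) :
    Kt G H e a = ∅ := by
  rw [eq_empty_iff_forall_notMem]
  exact fun q hq => hc (mem_Crit_of_mem_KK he ha hq.1)

theorem not_fixed_Kt {e : ℝ} (he : e = 1 ∨ e = -1) (ha : 0 < a) {p : ℕ} (hp : 0 < p)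
    (hc : a / p ∉ G.Crit) {q : LM M × ℂ} (hq : q ∈ Kt G H e a) :
    (rot (1 / p) q.1, q.2) ≠ q := fun h =>
  hc (div_mem_Crit_of_fixed he ha hq.1 hp (congrArg Prod.fst h))

end

/-- Critical lengths are bounded below and locally finite. -/
theorem GeoList.finite_Crit (G : GeoList M) (a : ℝ) : (G.Crit ∩ Iic a).Finite := by
  haveI := G.fin
  have h1 : G.Crit ∩ Iic a ⊆ ⋃ j : G.ι, (fun m : ℕ => (m : ℝ) * G.ℓ j) '' Iic ⌊a / G.ℓ j⌋₊ := by
    rintro x ⟨⟨j, m, hm, rfl⟩, hx⟩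
    refine mem_iUnion.2 ⟨j, m, ?_, rfl⟩
    rw [mem_Iic]
    refine Nat.le_floor ?_
    rw [le_div_iff₀ (G.ℓ_pos j)]
    exact hx
  exact (finite_iUnion fun j => (finite_Iic _).image _).subset h1

/-- comparison with helper707's notation -/
theorem GeoList.Crit_eq (G : GeoList M) : G.Crit = Vale.Agent.P216.AS.Crit G.ℓ := rfl

theorem GeoList.pos_of_mem_Crit (G : GeoList M) {a : ℝ} (h : a ∈ G.Crit) : 0 < a := by
  obtain ⟨j, m, hm, rfl⟩ := h
  have : (0 : ℝ) < m := by exact_mod_cast hm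
  exact mul_pos this (G.ℓ_pos j)

theorem GeoList.nsmul_mem_Crit (G : GeoList M) {a : ℝ} (h : a ∈ G.Crit) {p : ℕ} (hp : 0 < p) :
    p * a ∈ G.Crit := by
  obtain ⟨j, m, hm, rfl⟩ := h
  exact ⟨j, p * m, Nat.one_le_iff_ne_zero.2 (Nat.mul_ne_zero hp.ne' (by omega)), by
    push_cast; ring⟩

end Vale.Agent.P216.H494
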