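import Mathlib.Topology.TietzeExtension
import Vale.Agent.P216.H494.CritLoop

/-! P216: the rotation orbits of the critical loops. -/

namespace Vale.Agent.P216.H494

open Set Filter Topology L250

set_option linter.all false

variable {M : Type*} [MetricSpace M] {G : GeoList M} {e a : ℝ}

/-- rotation orbit -/
def orb (g : LM M) : Set (LM M) := range fun s : ℝ => rot s g

theorem self_mem_orb (g : LM M) : g ∈ orb g := ⟨0, rot_zero g⟩

theorem rot_mem_orb (g : LM M) (s : ℝ) : rot s g ∈ orb g := ⟨s, rfl⟩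

theorem orb_subset_KK {g : LM M} (hg : g ∈ G.KK e a) : orb g ⊆ G.KK e a := by
  rintro _ ⟨s, rfl⟩
  exact rot_mem_KK hg s

theorem continuous_rot_of_mem {s : ℝ} (h0 : 0 ≤ s) {g : LM M} (hg : g ∈ XE M s) :
    Continuous fun u : ℝ => rot u g := by
  rw [Metric.continuous_iff]
  intro b ε hε
  have h1 : Tendsto (fun u : ℝ => s * Real.sqrt |u - b|) (𝓝 b) (𝓝 0) := by
    have : Continuous fun u : ℝ => s * Real.sqrt |u - b| := by fun_prop
    simpa using this.tendsto b
  obtain ⟨δ, hδ, h2⟩ := Metric.eventually_nhds_iff.1 (h1.eventually_lt_const hε)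
  exact ⟨δ, hδ, fun u hu => (dist_rot_le h0 hg u b).trans_lt (h2 hu)⟩

theorem continuous_rot_KK (he : e = 1 ∨ e = -1) (ha : 0 < a) {g : LM M} (hg : g ∈ G.KK e a) :
    Continuous fun u : ℝ => rot u g :=
  continuous_rot_of_mem ha.le (KK_subset_XE he ha.le hg)

theorem rot_add_int (g : LM M) (s : ℝ) (n : ℤ) : rot (s + n) g = rot s g := by
  refine ext_fn fun t => ?_
  rw [fn_rot, fn_rot, ← add_assoc]
  have := (fn_periodic g).int_mul n (t + s)
  simpa using this

theorem orb_eq_image (g : LM M) : orb g = (fun s : ℝ => rot s g) '' Icc 0 1 := by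
  ext x
  constructor
  · rintro ⟨s, rfl⟩
    refine ⟨Int.fract s, ⟨Int.fract_nonneg s, (Int.fract_lt_one s).le⟩, ?_⟩
    have := rot_add_int g (Int.fract s) ⌊s⌋
    rw [Int.fract_add_floor] at this
    exact this.symm
  · rintro ⟨s, -, rfl⟩
    exact ⟨s, rfl⟩

theorem isCompact_orb {s : ℝ} (h0 : 0 ≤ s) {g : LM M} (hg : g ∈ XE M s) : IsCompact (orb g) := by
  rw [orb_eq_image]
  exact isCompact_Icc.image (continuous_rot_of_mem h0 hg)

theorem isCompact_orb_KK (he : e = 1 ∨ e = -1) (ha : 0 < a) {g : LM M} (hg : g ∈ G.KK e a) :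
    IsCompact (orb g) := isCompact_orb ha.le (KK_subset_XE he ha.le hg)

/-- The stabiliser of a critical loop is `(1 / m) ℤ`. -/
theorem exists_mult (he : e = 1 ∨ e = -1) (ha : 0 < a) {g : LM M} (hg : g ∈ G.KK e a) :
    ∃ m : ℕ, 1 ≤ m ∧ ∀ s s' : ℝ, rot s g = rot s' g ↔ ∃ n : ℤ, s - s' = n / m := by
  obtain ⟨j, b, h⟩ := hg
  have hper := KK_period he ha h (r := 1) fun t => fn_periodic g t
  rw [mul_one] at hper
  obtain ⟨m', hm'⟩ := G.prime j _ hper
  have hℓ := G.ℓ_pos j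
  have hm0 : 0 < m' := by
    by_contra hcon
    push Not at hcon
    have : (m' : ℝ) ≤ 0 := by exact_mod_cast hcon
    nlinarith
  obtain ⟨m, rfl⟩ := Int.eq_ofNat_of_zero_le hm0.le
  have hm : 1 ≤ m := by exact_mod_cast hm0
  have hmpos : (0 : ℝ) < m := by exact_mod_cast hm
  have hma : a = m * G.ℓ j := by simpa using hm'
  refine ⟨m, hm, fun s s' => ⟨fun hs => ?_, ?_⟩⟩
  · have h1 := KK_period he ha h (r := s - s') fun t => by
      have := congrArg (fun x => fn x (t - s')) hs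
      simp only [fn_rot] at this
      rw [show t + (s - s') = t - s' + s by ring, this, sub_add_cancel]
    obtain ⟨n, hn⟩ := G.prime j _ h1
    refine ⟨n, ?_⟩
    rw [hma] at hn
    rw [eq_div_iff hmpos.ne']
    have : (G.ℓ j) * ((s - s') * m) = G.ℓ j * n := by linarith
    exact mul_left_cancel₀ hℓ.ne' this
  · rintro ⟨n, hn⟩
    have hs : s = s' + n / m := by linarith
    refine ext_fn fun t => ?_
    rw [fn_rot, fn_rot, h, h, hs]
    have e1 : e * a * (t + (s' + n / m)) + b = e * a * (t + s') + b + e * (n * G.ℓ j) := by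
      rw [hma]; field_simp; ring
    rw [e1]
    rcases he with rfl | rfl
    · rw [one_mul (_ * G.ℓ j)]
      exact (G.per j).int_mul n _
    · rw [show (-1 : ℝ) * (n * G.ℓ j) = -(n * G.ℓ j) by ring, ← sub_eq_add_neg]
      exact (G.per j).sub_int_mul_eq n

/-- Two critical loops on the same closed geodesic are in the same orbit; otherwise the orbits are
disjoint. -/
theorem mem_orb_iff (he : e = 1 ∨ e = -1) (ha : 0 < a) {g g' : LM M} {j j' : G.ι} {b b' : ℝ}
    (h : ∀ t, fn g t = G.c j (e * a * t + b)) (h' : ∀ t, fn g' t = G.c j' (e * a * t + b')) :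
    g' ∈ orb g ↔ j = j' := by
  have hea : e * a ≠ 0 := by
    rcases he with rfl | rfl <;> simpa using ha.ne'
  have hr : ∀ {g : LM M} {j : G.ι} {b : ℝ}, (∀ t, fn g t = G.c j (e * a * t + b)) →
      range (fn g) = range (G.c j) := by
    intro g j b h
    ext y
    constructor
    · rintro ⟨t, rfl⟩; exact ⟨_, (h t).symm⟩
    · rintro ⟨u, rfl⟩
      refine ⟨(u - b) / (e * a), ?_⟩
      rw [h, mul_div_cancel₀ _ hea, sub_add_cancel]
  constructor
  · rintro ⟨s, rfl⟩
    apply G.inj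
    rw [← hr h, ← hr h']
    ext y
    constructor
    · rintro ⟨t, rfl⟩
      exact ⟨t - s, by rw [fn_rot, sub_add_cancel]⟩
    · rintro ⟨t, rfl⟩
      exact ⟨t + s, by rw [fn_rot]⟩
  · rintro rfl
    refine ⟨(b' - b) / (e * a), ext_fn fun t => ?_⟩
    rw [fn_rot, h, h', mul_add, mul_div_cancel₀ _ hea]
    congr 1
    ring

/-- The critical set is a finite disjoint union of orbits. -/
theorem exists_orbits (he : e = 1 ∨ e = -1) (ha : 0 < a) :
    ∃ R : Set (LM M), R.Finite ∧ R ⊆ G.KK e a ∧ G.KK e a = ⋃ g ∈ R, orb g ∧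
      ∀ g ∈ R, ∀ g' ∈ R, g ≠ g' → Disjoint (orb g) (orb g') := by
  classical
  haveI := G.fin
  let P : G.ι → LM M → Prop := fun j g => ∃ b : ℝ, ∀ t, fn g t = G.c j (e * a * t + b)
  have hex : ∀ j, ∃ S : Set (LM M), S.Finite ∧ (∀ g ∈ S, P j g) ∧ ((∃ g, P j g) → S.Nonempty) ∧
      S.Subsingleton := by
    intro j
    by_cases h : ∃ g, P j g
    · obtain ⟨g, hg⟩ := h
      exact ⟨{g}, finite_singleton g, by rintro _ rfl; exact hg, fun _ => singleton_nonempty g,
        subsingleton_singleton⟩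
    · exact ⟨∅, finite_empty, by simp, fun h' => absurd h' h, subsingleton_empty⟩
  choose S hS1 hS2 hS3 hS4 using hex
  refine ⟨⋃ j, S j, finite_iUnion hS1, ?_, ?_, ?_⟩
  · intro g hg
    obtain ⟨j, hj⟩ := mem_iUnion.1 hg
    exact ⟨j, hS2 j g hj⟩
  · refine Subset.antisymm (fun g hg => ?_) ?_
    · obtain ⟨j, hj⟩ := hg
      obtain ⟨g', hg'⟩ := hS3 j ⟨g, hj⟩
      rw [mem_iUnion₂]
      refine ⟨g', mem_iUnion.2 ⟨j, hg'⟩, ?_⟩
      obtain ⟨b, hb⟩ := hj
      obtain ⟨b', hb'⟩ := hS2 j g' hg'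
      exact (mem_orb_iff he ha hb' hb).2 rfl
    · refine iUnion₂_subset fun g hg => ?_
      obtain ⟨j, hj⟩ := mem_iUnion.1 hg
      exact orb_subset_KK ⟨j, hS2 j g hj⟩
  · intro g hg g' hg' hne
    obtain ⟨j, hj⟩ := mem_iUnion.1 hg
    obtain ⟨j', hj'⟩ := mem_iUnion.1 hg'
    obtain ⟨b, hb⟩ := hS2 j g hj
    obtain ⟨b', hb'⟩ := hS2 j' g' hj'
    have hjj : j ≠ j' := by
      rintro rfl
      exact hne (hS4 j hj hj')
    rw [Set.disjoint_left]
    rintro x ⟨s, rfl⟩ ⟨s', hs'⟩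
    apply hjj
    have h1 : rot (s' - s) g' = g := by
      have := congrArg (rot (-s)) hs'
      simp only [rot_rot, neg_add_cancel, rot_zero] at this
      rw [← this]
      congr 1
      ring
    exact ((mem_orb_iff he ha hb' hb).1 ⟨_, h1⟩).symm

/-- The angle function: a continuous `T` with `T (rot σ g) = σ` on an arc. -/
theorem exists_angle (he : e = 1 ∨ e = -1) (ha : 0 < a) {g : LM M} (hg : g ∈ G.KK e a) {m : ℕ}
    (hm : 1 ≤ m) (hmg : ∀ s s' : ℝ, rot s g = rot s' g ↔ ∃ n : ℤ, s - s' = n / m) {α β : ℝ}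
    (hαβ : α ≤ β) (hlt : β - α < 1 / m) :
    ∃ T : C(LM M, ℝ), (∀ x, T x ∈ Icc α β) ∧ ∀ σ ∈ Icc α β, T (rot σ g) = σ := by
  have hmpos : (0 : ℝ) < m := by exact_mod_cast hm
  let f : Icc α β → LM M := fun σ => rot (σ : ℝ) g
  have hf : Continuous f := (continuous_rot_KK he ha hg).comp continuous_subtype_val
  have hinj : Function.Injective f := by
    intro s s' hs
    obtain ⟨n, hn⟩ := (hmg _ _).1 hs
    have h1 : |(s : ℝ) - s'| < 1 / m := by
      rw [abs_lt]
      have := s.2.1; have := s.2.2; have := s'.2.1; have := s'.2.2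
      constructor <;> linarith
    rw [hn, abs_div, abs_of_pos hmpos, div_lt_div_iff_of_pos_right hmpos] at h1
    have h2 : n = 0 := by
      have : |n| < 1 := by exact_mod_cast h1
      exact Int.abs_lt_one_iff.1 this
    rw [h2] at hn
    simp only [Int.cast_zero, zero_div] at hn
    exact Subtype.ext (by linarith)
  have hemb : IsClosedEmbedding f := hf.isClosedEmbedding hinj
  obtain ⟨T, hT1, hT2⟩ := ContinuousMap.exists_extension_forall_mem_of_isClosedEmbedding
    (⟨fun σ : Icc α β => (σ : ℝ), continuous_subtype_val⟩ : C(Icc α β, ℝ)) (t := Icc α β)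
    (fun σ => σ.2) ⟨α, left_mem_Icc.2 hαβ⟩ hemb
  refine ⟨T, hT1, fun σ hσ => ?_⟩
  have := congrFun hT2 ⟨σ, hσ⟩
  exact this

end Vale.Agent.P216.H494
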