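import Vale.Agent.P216.H494.CritLoop

/-! P216: closed geodesic loops are fixed by the Milnor homotopy and by the curve shortening;
the equality case of sampling. -/

namespace Vale.Agent.P216.H494

open Set Filter Topology L250

set_option linter.all false

variable {M : Type*} [MetricSpace M] {G : GeoList M} {e a : ℝ} {K : ℕ} [NeZero K]

theorem E_eq_en (x : ZMod K → M) : LS.E x = K * en x := rfl

theorem sub_of_E {x : ZMod K → M} {C : ℝ} (h : LS.E x ≤ C) : x ∈ sub M K (C / K) := by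
  have hK := LS.cast_pos_K (K := K)
  show en x ≤ C / K
  rw [le_div_iff₀ hK, mul_comm]
  exact h

section
variable {g : LM M} (he : e = 1 ∨ e = -1) (ha : 0 ≤ a) (hg : g ∈ G.KK e a) {r ρ : ℝ}
  (hr : ∀ j s t, |s - t| ≤ r → dist (G.c j s) (G.c j t) = |s - t|) (hK : a ≤ K * r)
  (hKρ : a < K * ρ)
include he ha hg hr hK

theorem KK_dist_fine {s t : ℝ} (h : K * |s - t| ≤ 1) :
    dist (fn g s) (fn g t) = a * |s - t| := by
  have hK' := LS.cast_pos_K (K := K)
  refine KK_dist_eq he ha hg hr ?_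
  have : a * (K * |s - t|) ≤ K * r * 1 := mul_le_mul hK h (by positivity) (ha.trans hK)
  have h2 : K * (a * |s - t|) ≤ K * r := by linarith
  exact le_of_mul_le_mul_left h2 hK'

variable [CompactSpace M] (h : LS.UniqSeg M ρ)
include hKρ h

theorem Mi_eq_self {τ : ℝ} (hτ : τ ∈ Icc (0 : ℝ) 1) : LS.Mi K τ (fn g) = fn g := by
  have hK' := LS.cast_pos_K (K := K)
  ext t
  obtain ⟨n, u, hu, rfl⟩ := LS.exists_eq_div K t
  rw [LS.Mi_apply (fn g) hτ n hu]
  set m := max u τ with hm
  have hm0 : 0 ≤ m := hu.1.trans (le_max_left _ _)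
  have hm1 : m ≤ 1 := max_le hu.2 hτ.2
  rcases hm0.eq_or_lt with h0 | h0
  · have hu0 : u = 0 := le_antisymm ((le_max_left _ _).trans h0.ge) hu.1
    rw [← h0, hu0]
    simp
  · have e1 : |(n : ℝ) / K - (n + m) / K| = m / K := by
      rw [show (n : ℝ) / K - (n + m) / K = -(m / K) by ring, abs_neg, abs_of_pos (by positivity)]
    have e2 : |(n : ℝ) / K - (n + u) / K| = u / K := by
      have := hu.1
      rw [show (n : ℝ) / K - (n + u) / K = -(u / K) by ring, abs_neg, abs_of_nonneg (by positivity)]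
    have hum : u ≤ m := le_max_left _ _
    have e3 : |((n : ℝ) + u) / K - (n + m) / K| = (m - u) / K := by
      rw [show ((n : ℝ) + u) / K - (n + m) / K = -((m - u) / K) by ring, abs_neg,
        abs_of_nonneg (div_nonneg (by linarith) hK'.le)]
    have f : ∀ y : ℝ, K * (y / K) = y := fun y => mul_div_cancel₀ _ hK'.ne'
    have d1 := KK_dist_fine he ha hg hr hK (s := (n : ℝ) / K) (t := (n + m) / K)
      (by rw [e1, f]; exact hm1)
    have d2 := KK_dist_fine he ha hg hr hK (s := (n : ℝ) / K) (t := (n + u) / K)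
      (by rw [e2, f]; exact hu.2)
    have d3 := KK_dist_fine he ha hg hr hK (s := ((n : ℝ) + u) / K) (t := (n + m) / K)
      (by rw [e3, f]; linarith [hu.1])
    rw [e1] at d1
    rw [e2] at d2
    rw [e3] at d3
    symm
    refine LS.eq_seg h ?_ ⟨div_nonneg hu.1 hm0, (div_le_one h0).2 hum⟩ ?_ ?_
    · rw [d1]
      have : a * (m / K) ≤ a * (1 / K) := by gcongr
      refine this.trans_lt ?_
      rw [mul_one_div, div_lt_iff₀ hK']
      linarith
    · rw [d1, d2]; field_simp
    · rw [d1, d3]; field_simp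

theorem itp_sample_eq_self : LS.itp (LS.sample K (fn g)) = fn g := by
  rw [← LS.Mi_one (fn_periodic g)]
  exact Mi_eq_self he ha hg hr hK hKρ h ⟨zero_le_one, le_rfl⟩

theorem steps_sample (i : ZMod K) :
    dist (LS.sample K (fn g) i) (LS.sample K (fn g) (i + 1)) = a / K := by
  have hK' := LS.cast_pos_K (K := K)
  obtain ⟨n, rfl⟩ : ∃ n : ℤ, (n : ZMod K) = i := ⟨(i.val : ℤ), by simp⟩
  have e0 : ((n : ZMod K) + 1) = ((n + 1 : ℤ) : ZMod K) := by push_cast; rfl
  rw [e0, LS.sample_intCast (fn_periodic g), LS.sample_intCast (fn_periodic g)]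
  have e1 : |((n : ℤ) : ℝ) / K - ((n + 1 : ℤ) : ℝ) / K| = 1 / K := by
    push_cast
    rw [show (n : ℝ) / K - (n + 1) / K = -(1 / K) by ring, abs_neg, abs_of_pos (by positivity)]
  rw [KK_dist_fine he ha hg hr hK (by rw [e1, mul_one_div_cancel hK'.ne']), e1]
  ring

theorem E_sample_eq : LS.E (LS.sample K (fn g)) = a ^ 2 := by
  have hK' := LS.cast_pos_K (K := K)
  unfold LS.E
  rw [Finset.sum_congr rfl fun i _ => by rw [steps_sample he ha hg hr hK hKρ h i]]
  simp only [Finset.sum_const, Finset.card_univ, ZMod.card, nsmul_eq_mul]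
  field_simp

theorem crit_sample (hρ : 0 < ρ) :
    IsCritAt (Segs.ofUniqSeg hρ h) 1 (LS.sample K (fn g)) (a / K) := by
  have hK' := LS.cast_pos_K (K := K)
  intro i
  refine ⟨steps_sample he ha hg hr hK hKρ h i, ?_⟩
  obtain ⟨n, rfl⟩ : ∃ n : ℤ, (n : ZMod K) = i := ⟨(i.val : ℤ), by simp⟩
  have hsm : ∀ i, dist (LS.sample K (fn g) i) (LS.sample K (fn g) (i + 1)) < ρ := fun i => by
    rw [steps_sample he ha hg hr hK hKρ h i, div_lt_iff₀ hK']
    linarith
  have hself := itp_sample_eq_self he ha hg hr hK hKρ h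
  set y := LS.sample K (fn g) with hy
  have e1 : (Segs.ofUniqSeg hρ h).fw 1 y (n : ZMod K) = fn g ((n + 1 / 2) / K) := by
    unfold Segs.fw
    rw [Segs.ofUniqSeg_seg, ← LS.itp_apply y n half_mem, hself]
  have e2 : (Segs.ofUniqSeg hρ h).bw 1 y (n : ZMod K) = fn g ((n - 1 / 2) / K) := by
    unfold Segs.bw
    have h1 := LS.itp_apply y (n - 1) (u := 1 / 2) half_mem
    have h2 := hsm ((n - 1 : ℤ) : ZMod K)
    have e3 : ((n - 1 : ℤ) : ZMod K) + 1 = n := by push_cast; ring
    have e4 : ((n - 1 : ℤ) : ZMod K) = n - 1 := by push_cast; ring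
    rw [e3] at h1 h2
    rw [e4] at h1 h2
    rw [Segs.ofUniqSeg_seg]
    have h3 := LS.seg_symm h h2 (t := 1 / 2) half_mem
    rw [show (1 : ℝ) - 1 / 2 = 1 / 2 by norm_num] at h3
    rw [h3, ← h1, hself]
    congr 1
    push_cast
    ring
  have e5 : |((n : ℝ) - 1 / 2) / K - (n + 1 / 2) / K| = 1 / K := by
    rw [show ((n : ℝ) - 1 / 2) / K - (n + 1 / 2) / K = -(1 / K) by ring, abs_neg,
      abs_of_pos (by positivity)]
  rw [e1, e2, KK_dist_fine he ha hg hr hK (by rw [e5, mul_one_div_cancel hK'.ne']), e5]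
  ring

end

/-- The equality case of sampling. -/
theorem eq_itp_of_energy {ρ : ℝ} (h : LS.UniqSeg M ρ) {g : LM M} {C : ℝ}
    (hC : ∀ C' > C, HasE (fn g) C') (hE : C ≤ LS.E (LS.sample K (fn g)))
    (hst : ∀ i, dist (LS.sample K (fn g) i) (LS.sample K (fn g) (i + 1)) < ρ) :
    fn g = LS.itp (LS.sample K (fn g)) := by
  have hK' := LS.cast_pos_K (K := K)
  ext t
  obtain ⟨n, u, hu, rfl⟩ := LS.exists_eq_div K t
  rw [LS.itp_apply _ n hu]
  set x := LS.sample K (fn g) with hx
  have hx0 : ∀ m : ℤ, x (m : ZMod K) = fn g (m / K) := fun m =>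
    LS.sample_intCast (fn_periodic g) m
  have hx1 : x ((n : ZMod K) + 1) = fn g (((n : ℝ) + 1) / K) := by
    have e0 : ((n : ZMod K) + 1) = ((n + 1 : ℤ) : ZMod K) := by push_cast; rfl
    rw [e0, hx0]; push_cast; rfl
  rcases hu.1.eq_or_lt with h0 | h0
  · rw [← h0, LS.seg_zero, hx0, add_zero]
  rcases hu.2.eq_or_lt with h1 | h1
  · rw [h1, LS.seg_one, hx1]
  set d := dist (x n) (x ((n : ZMod K) + 1)) with hd
  have hd0 : 0 ≤ d := dist_nonneg
  set A := dist (x n) (fn g ((n + u) / K)) with hA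
  set B := dist (fn g ((n + u) / K)) (x ((n : ZMod K) + 1)) with hB
  have htri : d ≤ A + B := dist_triangle _ _ _
  have key : K * A ^ 2 / u + K * B ^ 2 / (1 - u) ≤ K * d ^ 2 := by
    refine le_of_forall_pos_le_add fun η hη => ?_
    obtain ⟨e, he1, he2⟩ := hC (C + η) (by linarith)
    have hinc : ∀ m : ℕ, K * dist (x ((m : ZMod K) + n)) (x ((m : ZMod K) + n + 1)) ^ 2 ≤
        e (((n : ℝ) + (m + 1 : ℕ)) / K) - e (((n : ℝ) + m) / K) := by
      intro m
      have e1 : ((m : ZMod K) + n) = ((n + m : ℤ) : ZMod K) := by push_cast; ring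
      have e2 : ((m : ZMod K) + n + 1) = ((n + m + 1 : ℤ) : ZMod K) := by push_cast; ring
      rw [e2, e1, hx0, hx0]
      have h3 := he1 (((n + m : ℤ) : ℝ) / K) (((n + m + 1 : ℤ) : ℝ) / K) (by
        refine div_le_div_of_nonneg_right ?_ hK'.le
        push_cast; linarith)
      have h4 : ((n + m + 1 : ℤ) : ℝ) / K - ((n + m : ℤ) : ℝ) / K = 1 / K := by
        push_cast; ring
      rw [h4] at h3
      have h5 := mul_le_mul_of_nonneg_left h3 hK'.le
      rw [← mul_assoc, mul_one_div_cancel hK'.ne', one_mul] at h5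
      refine h5.trans (le_of_eq ?_)
      push_cast
      rw [add_assoc]
    have hsum : ∑ m ∈ Finset.range K, (e (((n : ℝ) + (m + 1 : ℕ)) / K) - e (((n : ℝ) + m) / K) -
        K * dist (x ((m : ZMod K) + n)) (x ((m : ZMod K) + n + 1)) ^ 2) ≤ η := by
      rw [Finset.sum_sub_distrib, Finset.sum_range_sub (fun m : ℕ => e (((n : ℝ) + m) / K)),
        ← Finset.mul_sum]
      have h3 : ((n : ℝ) + (K : ℕ)) / K = n / K + 1 := by field_simp
      rw [h3, he2]
      have h4 : K * ∑ m ∈ Finset.range K,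
          dist (x ((m : ZMod K) + n)) (x ((m : ZMod K) + n + 1)) ^ 2 = LS.E x := by
        unfold LS.E
        rw [← LS.sum_zmod (fun i : ZMod K => dist (x (i + n)) (x (i + n + 1)) ^ 2),
          sum_shift (fun i => dist (x i) (x (i + 1)) ^ 2) (n : ZMod K)]
      rw [h4]
      push_cast
      rw [add_zero]
      linarith
    have h0m : (0 : ℕ) ∈ Finset.range K := Finset.mem_range.2 (NeZero.pos K)
    have hterm := (Finset.single_le_sum (f := fun m : ℕ =>
      e (((n : ℝ) + (m + 1 : ℕ)) / K) - e (((n : ℝ) + m) / K) -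
        K * dist (x ((m : ZMod K) + n)) (x ((m : ZMod K) + n + 1)) ^ 2)
      (fun m _ => sub_nonneg.2 (hinc m)) h0m).trans hsum
    simp only [Nat.cast_zero, add_zero, zero_add, Nat.cast_one] at hterm
    rw [← hd] at hterm
    have hA2 : K * A ^ 2 / u ≤ e ((n + u) / K) - e (n / K) := by
      have h3 := he1 (n / K) ((n + u) / K) (by gcongr; linarith)
      rw [← hx0, ← hA, show ((n : ℝ) + u) / K - n / K = u / K by ring] at h3
      rw [div_le_iff₀ h0]
      have h5 := mul_le_mul_of_nonneg_left h3 hK'.le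
      calc K * A ^ 2 ≤ K * (u / K * (e ((n + u) / K) - e (n / K))) := h5
        _ = _ := by field_simp
    have hB2 : K * B ^ 2 / (1 - u) ≤ e ((n + 1) / K) - e ((n + u) / K) := by
      have h3 := he1 ((n + u) / K) ((n + 1) / K) (by gcongr)
      rw [← hx1, ← hB, show ((n : ℝ) + 1) / K - (n + u) / K = (1 - u) / K by ring] at h3
      rw [div_le_iff₀ (by linarith)]
      have h5 := mul_le_mul_of_nonneg_left h3 hK'.le
      calc K * B ^ 2 ≤ K * ((1 - u) / K * (e ((n + 1) / K) - e ((n + u) / K))) := h5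
        _ = _ := by field_simp
    linarith
  have hfin : (A - u * d) ^ 2 / u + (B - (1 - u) * d) ^ 2 / (1 - u) ≤ 0 := by
    have h3 : A ^ 2 / u + B ^ 2 / (1 - u) ≤ d ^ 2 := by
      have : K * (A ^ 2 / u + B ^ 2 / (1 - u)) ≤ K * d ^ 2 := by
        refine le_trans (le_of_eq ?_) key
        ring
      exact le_of_mul_le_mul_left this hK'
    have h4 : (1 : ℝ) - u ≠ 0 := by linarith
    have h5 : (A - u * d) ^ 2 / u + (B - (1 - u) * d) ^ 2 / (1 - u) =
        A ^ 2 / u + B ^ 2 / (1 - u) - 2 * d * (A + B) + d ^ 2 := by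
      field_simp
      ring
    rw [h5]
    nlinarith
  have h6 : 0 ≤ (A - u * d) ^ 2 / u := by positivity
  have h1u : (0 : ℝ) < 1 - u := by linarith
  have h7 : 0 ≤ (B - (1 - u) * d) ^ 2 / (1 - u) := by positivity
  have h8 : A = u * d := by
    have : (A - u * d) ^ 2 / u = 0 := le_antisymm (by linarith) h6
    rw [div_eq_zero_iff] at this
    rcases this with h | h
    · exact sub_eq_zero.1 (pow_eq_zero_iff two_ne_zero |>.1 h)
    · exact absurd h h0.ne'
  have h9 : B = (1 - u) * d := by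
    have : (B - (1 - u) * d) ^ 2 / (1 - u) = 0 := le_antisymm (by linarith) h7
    rw [div_eq_zero_iff] at this
    rcases this with h | h
    · exact sub_eq_zero.1 (pow_eq_zero_iff two_ne_zero |>.1 h)
    · exact absurd h h1u.ne'
  exact LS.eq_seg h (hst n) hu h8 h9

/-- Critical polygons give loops of `KK`. -/
theorem mem_KK_of_crit [CompactSpace M] (G : GeoList M) {ρ : ℝ} (hρ : 0 < ρ)
    (h : LS.UniqSeg M ρ) (ha : 0 < a) {y : ZMod K → M}
    (hst : ∀ i, dist (y i) (y (i + 1)) < ρ) {d : ℝ}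
    (hy : IsCritAt (Segs.ofUniqSeg hρ h) 1 y d) (hE : LS.E y = a ^ 2) {g : LM M}
    (hg : fn g = LS.itp y) : g ∈ G.KK 1 a ∪ G.KK (-1) a := by
  have hK' := LS.cast_pos_K (K := K)
  have hd0 : 0 ≤ d := by
    rw [← (hy 0).1]; exact dist_nonneg
  have hd : K * d = a := by
    have h1 : LS.E y = (K * d) ^ 2 := by
      rw [E_eq_en, hy.en_eq]; ring
    rw [hE] at h1
    exact ((sq_eq_sq₀ ha.le (by positivity)).1 h1).symm
  have hdpos : 0 < d := by
    rcases hd0.eq_or_lt with h0 | h0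
    · rw [← h0, mul_zero] at hd; exact absurd hd ha.ne
    · exact h0
  have hgeo := (hy.isGeodesic hst).normalize hdpos
  have hper : Function.Periodic (fun t => crv (Segs.ofUniqSeg hρ h) y (t / d)) a := by
    intro t
    show crv _ y ((t + a) / d) = crv _ y (t / d)
    rw [add_div, ← hd, mul_div_cancel_right₀ _ hdpos.ne']
    exact crv_periodic _
  obtain ⟨j, e, he, b, hb⟩ := G.all _ hgeo a ha hper
  have key : ∀ t, fn g t = G.c j (e * a * t + b) := by
    intro t
    have h1 := hb (a * t)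
    have h2 : a * t / d = K * t := by
      rw [← hd]; field_simp
    simp only [h2] at h1
    rw [hg, mul_assoc, ← h1]
    rfl
  rcases he with rfl | rfl
  · exact Or.inl ⟨j, b, key⟩
  · exact Or.inr ⟨j, b, key⟩

end Vale.Agent.P216.H494
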