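import Vale.Agent.P216.H494.CovDist
import Vale.Agent.P216.H126.Cover
import Mathlib.Topology.Covering.Basic

/-!
# P216: closed geodesics and coverings (topological hypothesis only)

`infinite_of_localHomeomorph`: `M` a closed Riemannian manifold, `f : X → M` a local
homeomorphism (for example a covering map) from a compact connected Hausdorff space.  If every
Riemannian manifold homeomorphic to `X` has infinitely many closed geodesics, so has `M`.
-/

open Set Topology Bundle Manifold MeasureTheory Metric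
open scoped ContDiff ENNReal

namespace Vale.Agent.P216.H494

section met

variable {X M : Type} [TopologicalSpace X] [TopologicalSpace M] {f : X → M}
  (E : Type) [NormedAddCommGroup E] [NormedSpace ℝ E] [ChartedSpace E M]
  [IsManifold 𝓘(ℝ, E) ∞ M]
  [RiemannianBundle (fun x : M => TangentSpace 𝓘(ℝ, E) x)]
  [IsContMDiffRiemannianBundle 𝓘(ℝ, E) ∞ E (fun x : M => TangentSpace 𝓘(ℝ, E) x)]
  (hf : IsLocalHomeomorph f) [CompactSpace X] [T2Space X] [ConnectedSpace X]

/-- the Riemannian distance on the copy -/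
@[reducible] noncomputable def Cov.metric : MetricSpace (Cov hf) :=
  letI := continuousRiemannian (E := E) (Cov hf)
  letI : EMetricSpace (Cov hf) := EMetricSpace.ofRiemannianMetric 𝓘(ℝ, E) (Cov hf)
  EMetricSpace.toMetricSpace (fun x y => (riemannianEDist_lt_top (E := E) x y).ne)

theorem Cov.edist_eq (x y : Cov hf) :
    (Cov.metric E hf).toPseudoMetricSpace.toPseudoEMetricSpace.edist x y =
      riemannianEDist 𝓘(ℝ, E) x y := rfl

theorem Cov.isRiemannianManifold :
    letI := Cov.metric E hf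
    IsRiemannianManifold 𝓘(ℝ, E) (Cov hf) := by
  let := Cov.metric E hf
  exact ⟨fun x y => rfl⟩

end met

section loc

variable {X M : Type} [TopologicalSpace X] [MetricSpace M] {f : X → M}
  (E : Type) [NormedAddCommGroup E] [NormedSpace ℝ E] [ChartedSpace E M]
  [IsManifold 𝓘(ℝ, E) ∞ M]
  [RiemannianBundle (fun x : M => TangentSpace 𝓘(ℝ, E) x)]
  [IsContMDiffRiemannianBundle 𝓘(ℝ, E) ∞ E (fun x : M => TangentSpace 𝓘(ℝ, E) x)]
  [IsRiemannianManifold 𝓘(ℝ, E) M]
  (hf : IsLocalHomeomorph f) [CompactSpace X] [T2Space X] [ConnectedSpace X]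

theorem Cov.isLocIsom :
    letI := Cov.metric E hf
    H126.IsLocIsom (Cov.p hf) := by
  let := Cov.metric E hf
  have hM : ∀ a b : M, edist a b = riemannianEDist 𝓘(ℝ, E) a b := IsRiemannianManifold.out
  have hX : ∀ a b : Cov hf, edist a b = riemannianEDist 𝓘(ℝ, E) a b := fun a b => rfl
  have hle : ∀ a b : Cov hf, dist (Cov.p hf a) (Cov.p hf b) ≤ dist a b := by
    intro a b
    have h1 := Cov.riemannianEDist_p_le (E := E) hf a b
    rw [← hM, ← hX, edist_dist, edist_dist] at h1
    exact (ENNReal.ofReal_le_ofReal_iff dist_nonneg).1 h1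
  intro x
  have h1 : Cov.p hf x ∈ (Cov.loc hf x).target := by
    have := (Cov.loc hf x).map_source (Cov.mem_loc hf x)
    rwa [Cov.loc_eq] at this
  obtain ⟨R, hR, hRt⟩ := Metric.isOpen_iff.1 (Cov.loc hf x).open_target _ h1
  have h2 : (Cov.loc hf x).source ∩ Cov.p hf ⁻¹' ball (Cov.p hf x) (R / 3) ∈ 𝓝 x :=
    Filter.inter_mem ((Cov.loc hf x).open_source.mem_nhds (Cov.mem_loc hf x))
      ((Cov.continuous_p hf).continuousAt.preimage_mem_nhds (ball_mem_nhds _ (by positivity)))
  obtain ⟨r, hr, hrs⟩ := Metric.mem_nhds_iff.1 h2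
  refine ⟨r, hr, fun y hy z hz => le_antisymm (hle y z) ?_⟩
  obtain ⟨hy1, hy2⟩ := hrs hy
  obtain ⟨hz1, hz2⟩ := hrs hz
  have h3 : dist (Cov.p hf y) (Cov.p hf z) < 2 * (R / 3) := by
    have h4 : dist (Cov.p hf y) (Cov.p hf x) < R / 3 := hy2
    have h5 : dist (Cov.p hf z) (Cov.p hf x) < R / 3 := hz2
    have h6 := dist_triangle_right (Cov.p hf y) (Cov.p hf z) (Cov.p hf x)
    linarith
  refine le_of_forall_gt fun c hc => ?_
  have hc' : dist (Cov.p hf y) (Cov.p hf z) < min c (2 * (R / 3)) := lt_min hc h3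
  have hc0 : 0 < min c (2 * (R / 3)) := dist_nonneg.trans_lt hc'
  have h7 : riemannianEDist 𝓘(ℝ, E) y z < ENNReal.ofReal (min c (2 * (R / 3))) := by
    refine Cov.riemannianEDist_lt hf (Cov.loc_eq hf x) hy1 hz1 ?_ fun m hm => hRt ?_
    · rw [← hM, edist_dist]
      exact (ENNReal.ofReal_lt_ofReal_iff hc0).2 hc'
    · rw [← hM, edist_dist, ENNReal.ofReal_lt_ofReal_iff hc0] at hm
      have h4 : dist (Cov.p hf y) (Cov.p hf x) < R / 3 := hy2
      have h6 := dist_triangle_left m (Cov.p hf x) (Cov.p hf y)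
      have h8 := hm.trans_le (min_le_right _ _)
      rw [mem_ball]
      linarith
  rw [← hX, edist_dist, ENNReal.ofReal_lt_ofReal_iff hc0] at h7
  exact h7.trans_le (min_le_left _ _)

end loc

/-- **Closed geodesics and coverings.** -/
theorem infinite_of_localHomeomorph {E : Type} [NormedAddCommGroup E] [NormedSpace ℝ E]
    [FiniteDimensional ℝ E]
    {M : Type} [MetricSpace M] [CompactSpace M] [ChartedSpace E M] [IsManifold 𝓘(ℝ, E) ∞ M]
    [RiemannianBundle (fun x : M => TangentSpace 𝓘(ℝ, E) x)]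
    [IsContMDiffRiemannianBundle 𝓘(ℝ, E) ∞ E (fun x : M => TangentSpace 𝓘(ℝ, E) x)]
    [IsRiemannianManifold 𝓘(ℝ, E) M]
    {X : Type} [TopologicalSpace X] [CompactSpace X] [T2Space X] [ConnectedSpace X]
    {f : X → M} (hf : IsLocalHomeomorph f)
    (h : ∀ (N : Type) [MetricSpace N] [CompactSpace N] [ChartedSpace E N]
      [IsManifold 𝓘(ℝ, E) ∞ N] [RiemannianBundle (fun x : N => TangentSpace 𝓘(ℝ, E) x)]
      [IsContMDiffRiemannianBundle 𝓘(ℝ, E) ∞ E (fun x : N => TangentSpace 𝓘(ℝ, E) x)]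
      [IsRiemannianManifold 𝓘(ℝ, E) N], Nonempty (N ≃ₜ X) → (primeClosedGeodesicImages N).Infinite) :
    (primeClosedGeodesicImages M).Infinite := by
  let := Cov.metric E hf
  have := Cov.isRiemannianManifold E hf
  exact H126.infinite_of_locIsom (nonBranching_of_riemannian E M) (Cov.isLocIsom E hf)
    (h (Cov hf) ⟨Cov.homeo hf⟩)

end Vale.Agent.P216.H494
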