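import Vale.Agent.P216.H494.DomMain
import Vale.Agent.P216.H609.Glue

/-!
# Closed Riemannian manifolds are dominated by finite simplicial complexes (P216-D, block [TRI])
-/

set_option maxSynthPendingDepth 3
set_option linter.unusedSectionVars false

open Set Filter Topology Bundle Manifold
open scoped ContDiff

namespace Vale.Agent.P216.H494.Dom

/-- Locally bi-Lipschitz to `E`. -/
def LocBil (E M : Type*) [NormedAddCommGroup E] [MetricSpace M] : Prop :=
  ∀ m : M, ∃ (ε C : ℝ) (φ : M → E), 0 < ε ∧ 0 < C ∧ ∀ a, dist a m < ε → ∀ b, dist b m < ε →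
    dist a b ≤ C * ‖φ a - φ b‖ ∧ ‖φ a - φ b‖ ≤ C * dist a b

/-- Packing bound in a finite dimensional normed space. -/
theorem exists_packing (E : Type*) [NormedAddCommGroup E] [NormedSpace ℝ E]
    [FiniteDimensional ℝ E] (R : ℝ) : ∃ K : ℕ, ∀ s : Finset E, (∀ a ∈ s, ‖a‖ ≤ R) →
      (∀ a ∈ s, ∀ b ∈ s, a ≠ b → 1 ≤ ‖a - b‖) → s.card ≤ K := by
  have : ProperSpace E := FiniteDimensional.proper ℝ E
  obtain ⟨t, -, htf, ht⟩ := finite_cover_balls_of_compact
    (isCompact_closedBall (0 : E) R) (half_pos one_pos : (0 : ℝ) < 1 / 2)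
  refine ⟨htf.toFinset.card, fun s hs1 hs2 => ?_⟩
  have hch : ∀ x : E, ∃ c : E, x ∈ s → c ∈ htf.toFinset ∧ dist x c < 1 / 2 := fun x => by
    by_cases hx : x ∈ s
    · obtain ⟨c, hc, hxc⟩ := mem_iUnion₂.1 (ht (mem_closedBall_zero_iff.2 (hs1 x hx)))
      exact ⟨c, fun _ => ⟨htf.mem_toFinset.2 hc, hxc⟩⟩
    · exact ⟨0, fun h => absurd h hx⟩
  choose f hf using hch
  refine Finset.card_le_card_of_injOn f (fun x hx => (hf x hx).1) fun x hx y hy hxy => ?_
  by_contra hne
  have h1 := hs2 x hx y hy hne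
  rw [← dist_eq_norm] at h1
  have h2 := dist_triangle_right x y (f x)
  have h3 := (hf x hx).2
  have h4 := (hf y hy).2
  rw [← hxy] at h4
  linarith

/-- The doubling bound. -/
theorem doubling_of_locBil {E M : Type*} [NormedAddCommGroup E] [NormedSpace ℝ E]
    [FiniteDimensional ℝ E] [MetricSpace M] [CompactSpace M] (h : LocBil E M) : Doubling M := by
  classical
  rcases isEmpty_or_nonempty M with hM | hM
  · exact ⟨1, 0, one_pos, fun δ _ _ s _ _ => by
      rw [Finset.eq_empty_of_isEmpty s, Finset.card_empty]⟩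
  choose ε C φ hε hC hb using h
  -- Lebesgue number and a uniform constant
  obtain ⟨t, -, ht⟩ := (isCompact_univ (X := M)).elim_nhds_subcover
    (fun m => Metric.ball m (ε m / 2)) fun m _ => Metric.ball_mem_nhds m (half_pos (hε m))
  have htne : t.Nonempty := by
    obtain ⟨m⟩ := hM
    obtain ⟨c, hc, -⟩ := mem_iUnion₂.1 (ht (mem_univ m))
    exact ⟨c, hc⟩
  obtain ⟨c₀, hc₀, hmin⟩ := t.exists_min_image ε htne
  obtain ⟨c₁, hc₁, hmax⟩ := t.exists_max_image C htne
  set L := C c₁ with hL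
  have hLpos : 0 < L := hC c₁
  obtain ⟨K, hK⟩ := exists_packing E (4 * L * L)
  refine ⟨ε c₀ / 2, K, half_pos (hε c₀), fun δ hδ hδ₀ s hs1 hs2 => ?_⟩
  rcases s.eq_empty_or_nonempty with rfl | ⟨a₀, ha₀⟩
  · simp
  obtain ⟨m, hm, ham⟩ := mem_iUnion₂.1 (ht (mem_univ a₀))
  have hmε : ε c₀ ≤ ε m := hmin m hm
  have hmC : C m ≤ L := hmax m hm
  have hball : ∀ a ∈ s, dist a m < ε m := fun a ha => by
    have h1 := hs1 a ha a₀ ha₀
    have h2 : dist a₀ m < ε m / 2 := ham
    have h3 := dist_triangle a a₀ m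
    linarith
  -- the rescaled image
  set g : M → E := fun a => (4 * L / δ) • (φ m a - φ m a₀) with hg
  have hgab : ∀ a ∈ s, ∀ b ∈ s, a ≠ b → 1 ≤ ‖g a - g b‖ := by
    intro a ha b hb' hab
    have h1 := (hb m a (hball a ha) b (hball b hb')).1
    have h2 := hs2 a ha b hb' hab
    have e : g a - g b = (4 * L / δ) • (φ m a - φ m b) := by
      rw [hg]
      simp only
      rw [← smul_sub]
      congr 1
      abel
    rw [e, norm_smul, Real.norm_of_nonneg (by positivity)]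
    have h3 : δ / 4 ≤ L * ‖φ m a - φ m b‖ :=
      h2.trans (h1.trans (mul_le_mul_of_nonneg_right hmC (norm_nonneg _)))
    rw [div_mul_eq_mul_div, le_div_iff₀ hδ]
    linarith
  have hinj : Set.InjOn g s := by
    intro a ha b hb' hab
    by_contra hne
    have := hgab a ha b hb' hne
    rw [hab, sub_self, norm_zero] at this
    linarith
  rw [← Finset.card_image_of_injOn hinj]
  refine hK _ (fun x hx => ?_) fun x hx y hy hxy => ?_
  · obtain ⟨a, ha, rfl⟩ := Finset.mem_image.1 hx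
    have h1 := (hb m a (hball a ha) a₀ (hball a₀ ha₀)).2
    have h2 := hs1 a ha a₀ ha₀
    rw [hg]
    simp only
    rw [norm_smul, Real.norm_of_nonneg (by positivity), div_mul_eq_mul_div, div_le_iff₀ hδ]
    have h3 : ‖φ m a - φ m a₀‖ ≤ L * δ :=
      h1.trans (mul_le_mul hmC h2.le dist_nonneg hLpos.le)
    nlinarith
  · obtain ⟨a, ha, rfl⟩ := Finset.mem_image.1 hx
    obtain ⟨b, hb', rfl⟩ := Finset.mem_image.1 hy
    exact hgab a ha b hb' fun h => hxy (by rw [h])

section Riem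

variable {E : Type*} [NormedAddCommGroup E] [NormedSpace ℝ E] [FiniteDimensional ℝ E]
  {M : Type*} [MetricSpace M] [ChartedSpace E M] [IsManifold 𝓘(ℝ, E) ∞ M]
  [RiemannianBundle (fun (x : M) ↦ TangentSpace 𝓘(ℝ, E) x)]
  [IsContMDiffRiemannianBundle 𝓘(ℝ, E) ∞ E (fun (x : M) ↦ TangentSpace 𝓘(ℝ, E) x)]
  [IsRiemannianManifold 𝓘(ℝ, E) M]

variable (E M) in
/-- Charts of a Riemannian manifold are locally bi-Lipschitz. -/
theorem locBil_of_riemannian : LocBil E M := by
  intro m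
  have hy : Chart.phi (E := E) m m ∈ Chart.dom E m :=
    (extChartAt 𝓘(ℝ, E) m).map_source (mem_extChartAt_source m)
  obtain ⟨ρ, C, hB⟩ := (Chart.localMetric (E := E) m).exists_goodBall hy
  obtain ⟨ε, hε, h1⟩ := Chart.nhds_chart m hy hB.rpos
  have e : Chart.psi m (Chart.phi (E := E) m m) = m := Chart.psi_phi m (mem_extChartAt_source m)
  rw [e] at h1
  refine ⟨ε, C, Chart.phi m, hε, hB.cpos, fun a ha b hb => ?_⟩
  obtain ⟨ha1, ha2⟩ := h1 a ha
  obtain ⟨hb1, hb2⟩ := h1 b hb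
  have h2 := hB.up _ ha2 _ hb2
  have h3 := hB.lo _ ha2 _ hb2
  rw [Chart.psi_phi m ha1, Chart.psi_phi m hb1] at h2 h3
  exact ⟨h2, h3⟩

end Riem

/-- **[TRI]** a closed Riemannian manifold is dominated by a finite simplicial complex. -/
theorem exists_dom (E M : Type*) [NormedAddCommGroup E] [NormedSpace ℝ E] [FiniteDimensional ℝ E]
    [MetricSpace M] [ChartedSpace E M] [IsManifold 𝓘(ℝ, E) ∞ M]
    [RiemannianBundle (fun (x : M) ↦ TangentSpace 𝓘(ℝ, E) x)]
    [IsContMDiffRiemannianBundle 𝓘(ℝ, E) ∞ E (fun (x : M) ↦ TangentSpace 𝓘(ℝ, E) x)]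
    [IsRiemannianManifold 𝓘(ℝ, E) M] [CompactSpace M] [Nonempty M] :
    ∃ (N : ℕ) (T : Geometry.SimplicialComplex ℝ (Fin N → ℝ)),
      T.faces.Finite ∧ ∃ (i : C(M, T.space)) (r : C(T.space, M)),
        (r.comp i).Homotopic (ContinuousMap.id M) := by
  obtain ⟨ρ, hρ, hU, -⟩ := Geo.exists_uniqSeg E M
  exact exists_dom_of_doubling hρ (H609.uniqSeg_LS hU)
    (doubling_of_locBil (locBil_of_riemannian E M))

end Vale.Agent.P216.H494.Dom
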