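import Vale.Agent.P216.H494.EGlue
import Vale.Agent.P216.E539.Signs
import Vale.Agent.P216.Spine.Main

/-!
# P216-E: the theorem on simply connected manifolds, degree two
-/

open Set Topology Bundle Manifold
open scoped ContDiff ComplexConjugate
open Vale.Agent.P216.H288 Vale.Agent.P216.H494 Vale.Agent.P216.L250 Vale.Agent.P216.H826

namespace Vale.Agent.P216.H494E

theorem signStmt (M : Type) [MetricSpace M] : SignStmt M := by
  intro c ε hε hc b v r₁ hv hr e s sig hsig he ht hs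
  refine E539.exL_of_signs c hε hc b v hv hr e s sig hsig he ht fun η hη => ?_
  obtain ⟨d, hd, h⟩ := hs η hη
  refine ⟨d, hd, fun x y hxy => ?_⟩
  have h1 := h x y hxy
  have h2 : H923F.ex (e x y) = Complex.exp (2 * Real.pi * Complex.I * e x y) := by
    rw [H923F.ex]
    congr 1
    push_cast
    ring
  rwa [h2] at h1

/-- **The theorem on simply connected manifolds with rational cohomology generated by one class of
degree two.** -/
def EGoal : Prop :=
  ∀ {E : Type} [NormedAddCommGroup E] [NormedSpace ℝ E] [FiniteDimensional ℝ E]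
    {N : Type} [MetricSpace N] [CompactSpace N] [ChartedSpace E N] [IsManifold 𝓘(ℝ, E) ∞ N]
    [RiemannianBundle (fun x : N => TangentSpace 𝓘(ℝ, E) x)]
    [IsContMDiffRiemannianBundle 𝓘(ℝ, E) ∞ E (fun x : N => TangentSpace 𝓘(ℝ, E) x)]
    [IsRiemannianManifold 𝓘(ℝ, E) N] [SimplyConnectedSpace N] {h : ℕ},
    1 ≤ h → ASCoh.Monogenic N ℚ 2 h → (primeClosedGeodesicImages N).Infinite

/-- The block E4 (helper707). -/
def HolStmt : Prop :=
  ∀ {E : Type} [NormedAddCommGroup E] [NormedSpace ℝ E] [FiniteDimensional ℝ E]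
    {N : Type} [MetricSpace N] [CompactSpace N] [ChartedSpace E N] [IsManifold 𝓘(ℝ, E) ∞ N]
    [RiemannianBundle (fun x : N => TangentSpace 𝓘(ℝ, E) x)]
    [IsContMDiffRiemannianBundle 𝓘(ℝ, E) ∞ E (fun x : N => TangentSpace 𝓘(ℝ, E) x)]
    [IsRiemannianManifold 𝓘(ℝ, E) N] [SimplyConnectedSpace N] {h : ℕ},
    1 ≤ h → ASCoh.Monogenic N ℚ 2 h → ∀ H : Hol N, (∀ x₀ : N, ∃ b w μ, IsSweep H x₀ b w μ) →
    (primeClosedGeodesicImages N).Infinite

theorem eGoal_of (hR : ∀ (N : Type) [MetricSpace N] [CompactSpace N] [SimplyConnectedSpace N]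
    (ρ : ℝ), 0 < ρ → LS.UniqSeg N ρ → RootStmt N) (hH : HolStmt) : EGoal := by
  intro E _ _ _ N _ _ _ _ _ _ _ _ h hh hQ
  obtain ⟨ρ, hρ, hs, _⟩ := Geo.exists_uniqSeg E N
  obtain ⟨H, hsw⟩ := exists_sweeps hρ hs (hR N ρ hρ hs) (signStmt N) hh hQ
  exact hH (E := E) hh hQ H hsw

end Vale.Agent.P216.H494E
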