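import Vale.Agent.P216.L250.ToHol
import Vale.Agent.P216.L250.SweepAll
import Vale.Agent.P216.H250.Pi0
import Vale.Agent.P216.H787.Cls

/-!
# P216-E: interfaces (intrinsic Theorem A, degree two)

`κ` is the kernel of a line bundle, `c` an integral list cocycle of degree two.
`LineData` : the kernel is `exp (2 π i θ)` up to a gauge and `δ θ` is close to `c ∘ j`.
`IsSec` : a square root of the holonomy on the Moore loops at a point.
`Roots` : approximate square roots of the kernel with trivial triangles.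
-/

open Set Filter Topology
open scoped ComplexConjugate

namespace Vale.Agent.P216.H494E

open Vale.Agent.P216.L250 Vale.Agent.P216.LS Vale.Agent.P216.H288 Vale.Agent.P216.H826
open Vale.Agent.P216.H250 (PF)
open PS

variable {M : Type} [MetricSpace M]

/-- Integral cocycle of degree `2` on the lists of size `< ε`, normalised. -/
structure Coc2 (c : List M → ℤ) (ε : ℝ) : Prop where
  pos : 0 < ε
  nrm : ∀ l, ¬ l.IsChain (· ≠ ·) → c l = 0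
  dl : ∀ x y z w : M, SmL univ ε [x, y, z, w] → c [y, z, w] - c [x, z, w] + c [x, y, w] - c [x, y, z] = 0

/-- The kernel `κ` in terms of `c`: the phase `θ x y` and the gauge `a`. -/
structure LineData (κ : M → M → ℂ) (c : List M → ℤ) (j : M → M) (θ : M → M → ℝ) (a : M → ℂ) :
    Prop where
  norm_a : ∀ x, ‖a x‖ = 1
  ker : ∀ ε > 0, ∃ δ > 0, ∀ x y, dist x y < δ →
    ‖κ x y - a x * Complex.exp (2 * Real.pi * Complex.I * θ x y) * conj (a y)‖ ≤ ε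
  tri : ∀ ε > 0, ∃ δ > 0, ∀ x y z, dist x y < δ → dist y z < δ →
    |θ x y + θ y z - θ x z - (c [j x, j y, j z] : ℝ)| ≤ ε

/-- **E2.** -/
def E2Stmt (M : Type) [MetricSpace M] [CompactSpace M] : Prop :=
  ∀ (c : List M → ℤ) (ε : ℝ), Coc2 c ε → ∀ η > 0, ∃ (κ : M → M → ℂ) (A r : ℝ) (_ : Ker κ A r)
    (j : M → M) (θ : M → M → ℝ) (a : M → ℂ), (∀ x, dist x (j x) ≤ η) ∧ LineData κ c j θ a

/-- A square root of the holonomy on the Moore loops at `x₀`. -/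
structure IsSec (κ : M → M → ℂ) (x₀ : M) (s : (ℝ → M) → ℂ) : Prop where
  cst : s (fun _ => x₀) = 1
  move : ∀ (t : ℝ) (γ : ℝ → ℝ → M) (μ : ℝ → ℂ), 0 ≤ t → ContinuousOn γ (Icc 0 1) →
    (∀ τ ∈ Icc (0 : ℝ) 1, γ τ ∈ PF x₀ x₀ t) → ContinuousOn μ (Icc 0 1) →
    (∀ τ ∈ Icc (0 : ℝ) 1, μ τ ^ 2 = U κ (γ τ) 0 t) → s (γ 1) * μ 0 = s (γ 0) * μ 1

/-- **E3a.** -/
def E3aStmt (M : Type) [MetricSpace M] [CompactSpace M] [SimplyConnectedSpace M] : Prop :=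
  ∀ (ρ : ℝ), 0 < ρ → UniqSeg M ρ → ∀ (κ : M → M → ℂ) (A r : ℝ) (hκ : Ker κ A r) (x₀ : M),
    (∀ b w lam, 0 ≤ b → ¬ WeakSweep hκ.toHol x₀ b w lam) → ∃ s, IsSec κ x₀ s

/-- Approximate square roots of the kernel, with trivial triangles. -/
structure Roots (κ : M → M → ℂ) (σ : M → M → ℂ) (T : M → ℂ) : Prop where
  norm_T : ∀ x, ‖T x‖ = 1
  sq : ∀ ε > 0, ∃ δ > 0, ∀ x y, dist x y < δ → ‖σ x y ^ 2 - T x * κ x y * conj (T y)‖ ≤ ε
  tri : ∀ ε > 0, ∃ δ > 0, ∀ x y z, dist x y < δ → dist y z < δ → ‖σ x y * σ y z - σ x z‖ ≤ ε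

/-- **E3b.** -/
def E3bStmt (M : Type) [MetricSpace M] [CompactSpace M] [SimplyConnectedSpace M] : Prop :=
  ∀ (ρ : ℝ), 0 < ρ → UniqSeg M ρ → ∀ (κ : M → M → ℂ) (A r : ℝ), Ker κ A r → ∀ (x₀ : M)
    (s : (ℝ → M) → ℂ), IsSec κ x₀ s → ∃ σ T, Roots κ σ T

/-- **E3c.** -/
def E3cStmt (M : Type) [MetricSpace M] : Prop :=
  ∀ (κ : M → M → ℂ) (c : List M → ℤ) (j : M → M) (θ : M → M → ℝ) (a : M → ℂ) (σ : M → M → ℂ)
    (T : M → ℂ), LineData κ c j θ a → Roots κ σ T →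
    Sl.ExL univ 2 (fun l : List M => ((c (l.map j) : ℤ) : ZMod 2))

/-- **E3d.** -/
def E3dStmt (M : Type) [MetricSpace M] [CompactSpace M] : Prop :=
  ∀ (c : List M → ℤ) (ε : ℝ), Coc2 c ε → ∃ η > 0, ∀ j : M → M, (∀ x, dist x (j x) ≤ η) →
    Sl.ExL univ 2 (fun l : List M => ((c (l.map j) : ℤ) : ZMod 2)) →
    Sl.ExL univ 2 (fun l : List M => ((c l : ℤ) : ZMod 2))

/-- **E3**, assembled: a sweep exists if `c mod 2` is not exact. -/
theorem exists_hol_sweep [CompactSpace M] [SimplyConnectedSpace M] (h2 : E2Stmt M) (h3a : E3aStmt M)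
    (h3b : E3bStmt M) (h3c : E3cStmt M) (h3d : E3dStmt M) {ρ : ℝ} (hρ : 0 < ρ) (hU : UniqSeg M ρ)
    {c : List M → ℤ} {ε : ℝ} (hc : Coc2 c ε)
    (hne : ¬ Sl.ExL univ 2 (fun l : List M => ((c l : ℤ) : ZMod 2))) :
    ∃ H : Hol M, ∀ x₀ : M, ∃ b w μ, IsSweep H x₀ b w μ := by
  obtain ⟨η, hη, hd⟩ := h3d c ε hc
  obtain ⟨κ, A, r, hκ, j, θ, a, hj, hL⟩ := h2 c ε hc η hη
  refine ⟨hκ.toHol, ?_⟩
  by_contra hno
  obtain ⟨x₀, -⟩ := not_forall.1 hno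
  have hw : ∀ b w lam, 0 ≤ b → ¬ WeakSweep hκ.toHol x₀ b w lam := fun b w lam hb h =>
    hno fun x => h.exists_sweep_all hρ hU hb x
  obtain ⟨s, hs⟩ := h3a ρ hρ hU κ A r hκ x₀ hw
  obtain ⟨σ, T, hR⟩ := h3b ρ hρ hU κ A r hκ x₀ s hs
  exact hne (hd j hj (h3c κ c j θ a σ T hL hR))

end Vale.Agent.P216.H494E
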