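import Vale.Agent.P216.H651.RtFin
import Vale.Agent.P216.E707.HolE
import Vale.Agent.P216.H494.EGoal

/-!
# P216-E: closed simply connected manifolds with rational cohomology generated by a class of
degree two
-/

open Set Topology Bundle Manifold
open scoped ContDiff

namespace Vale.Agent.P216.H494E

/-- **P216-E.** Every closed simply connected Riemannian manifold whose rational cohomology ring
is `ℚ[x]/(x ^ (h + 1))` with `x` of degree two, `1 ≤ h`, has infinitely many prime closed
geodesics. -/
theorem eGoal : EGoal :=
  @eGoal_of (fun _ _ _ _ _ hρ hU => H651.Rt.rootStmt hρ hU) @E707.holStmt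

end Vale.Agent.P216.H494E
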