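import Vale.Agent.P216.LS.Maps
import Vale.Agent.P216.H494.CritLoop2
import Vale.Agent.P216.H494.Orbit

/-! P216, [LOCARC]: near a critical loop (polygon) the only critical loops (polygons) are its small
rotations. -/

namespace Vale.Agent.P216.H494

open Set Filter Topology L250

set_option linter.all false

variable {M : Type*} [MetricSpace M] {G : GeoList M} {e a : ℝ}

theorem speed_unique {e' a' : ℝ} (he : e = 1 ∨ e = -1) (he' : e' = 1 ∨ e' = -1) (ha : 0 < a)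
    (ha' : 0 < a') {g : LM M} (hg : g ∈ G.KK e a) (hg' : g ∈ G.KK e' a') : a = a' := by
  obtain ⟨r, hr, H⟩ := exists_scale G
  set δ := min (r / a) (r / a') with hδ
  have hδ0 : 0 < δ := lt_min (div_pos hr ha) (div_pos hr ha')
  have e1 : |δ - 0| = δ := by rw [sub_zero, abs_of_pos hδ0]
  have h1 := KK_dist_eq he ha.le hg H (s := δ) (t := 0) (by
    rw [e1]
    have : δ ≤ r / a := min_le_left _ _
    rw [le_div_iff₀ ha] at this
    linarith)
  have h2 := KK_dist_eq he' ha'.le hg' H (s := δ) (t := 0) (by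
    rw [e1]
    have : δ ≤ r / a' := min_le_right _ _
    rw [le_div_iff₀ ha'] at this
    linarith)
  rw [h1, e1] at h2
  exact mul_right_cancel₀ hδ0.ne' h2

/-- Critical loops near a critical loop. -/
theorem exists_isolated (he : e = 1 ∨ e = -1) (ha : 0 < a) {g₀ : LM M} (hg₀ : g₀ ∈ G.KK e a)
    (A : ℝ) {d : ℝ} (hd : 0 < d) :
    ∃ r > 0, ∀ e' a' g, (e' = 1 ∨ e' = -1) → 0 < a' → a' ≤ A → g ∈ G.KK e' a' →
      dist g g₀ ≤ r → a' = a ∧ e' = e ∧ ∃ θ : ℝ, |θ| ≤ d ∧ g = rot θ g₀ := by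
  classical
  obtain ⟨R, hRf, hRs, hRu, -⟩ := exists_orbits (G := G) he ha
  obtain ⟨m, hm, hmg⟩ := exists_mult he ha hg₀
  have hmpos : (0 : ℝ) < m := by exact_mod_cast hm
  -- the three bad sets
  set B1 : Set (LM M) := ⋃ p ∈ {p : ℝ × ℝ | (p.1 ∈ ({1, -1} : Set ℝ) ∧ p.2 ∈ G.Crit ∩ Iic A) ∧
    p ≠ (e, a)}, G.KK p.1 p.2 with hB1
  set B2 : Set (LM M) := ⋃ g' ∈ {g' ∈ R | g₀ ∉ orb g'}, orb g' with hB2
  set J : Set ℝ := {θ | |θ| ≤ 1 / (2 * m) ∧ d ≤ |θ|} with hJ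
  set B3 : Set (LM M) := (fun θ : ℝ => rot θ g₀) '' J with hB3
  have hfin1 : {p : ℝ × ℝ | (p.1 ∈ ({1, -1} : Set ℝ) ∧ p.2 ∈ G.Crit ∩ Iic A) ∧
      p ≠ (e, a)}.Finite := by
    have h1 : ((({1, -1} : Set ℝ)) ×ˢ (G.Crit ∩ Iic A)).Finite := by
      refine Set.Finite.prod (by simp) ?_
      haveI := G.fin
      have h2 : G.Crit ∩ Iic A ⊆ ⋃ j : G.ι, (fun m : ℕ => (m : ℝ) * G.ℓ j) '' Iic ⌊A / G.ℓ j⌋₊ := by
        rintro x ⟨⟨j, m, hm, rfl⟩, hx⟩
        refine mem_iUnion.2 ⟨j, m, ?_, rfl⟩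
        rw [mem_Iic]
        refine Nat.le_floor ?_
        rw [le_div_iff₀ (G.ℓ_pos j)]
        exact hx
      exact (finite_iUnion fun j => (finite_Iic _).image _).subset h2
    exact h1.subset fun p hp => hp.1
  have hc1 : IsCompact B1 := by
    refine hfin1.isCompact_biUnion fun p hp => ?_
    obtain ⟨⟨h1, h2⟩, -⟩ := hp
    refine isCompact_KK (by simpa using h1) ?_
    obtain ⟨j, n, hn, h3⟩ := h2.1
    rw [h3]
    have : (0 : ℝ) < n := by exact_mod_cast hn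
    exact mul_pos this (G.ℓ_pos j)
  have hc2 : IsCompact B2 :=
    (hRf.subset (sep_subset _ _)).isCompact_biUnion fun g' hg' => isCompact_orb_KK he ha (hRs hg'.1)
  have hJc : IsCompact J := by
    have h1 : J = Icc (-(1 / (2 * (m : ℝ)))) (1 / (2 * (m : ℝ))) ∩ {θ : ℝ | d ≤ |θ|} := by
      ext θ
      simp only [hJ, mem_setOf_eq, mem_inter_iff, mem_Icc, abs_le]
    rw [h1]
    exact isCompact_Icc.inter_right (isClosed_le continuous_const continuous_abs)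
  have hc3 : IsCompact B3 := hJc.image (continuous_rot_KK he ha hg₀)
  have hclosed : IsClosed (B1 ∪ B2 ∪ B3) := ((hc1.union hc2).union hc3).isClosed
  have hn1 : g₀ ∉ B1 := by
    intro h
    simp only [hB1, mem_iUnion] at h
    obtain ⟨⟨e', a'⟩, ⟨⟨h1, h2⟩, h3⟩, h4⟩ := h
    have he' : e' = 1 ∨ e' = -1 := by simpa using h1
    have ha' : 0 < a' := by
      obtain ⟨j, n, hn, h5⟩ := h2.1
      simp only at h5
      rw [h5]
      have : (0 : ℝ) < n := by exact_mod_cast hn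
      exact mul_pos this (G.ℓ_pos j)
    have haa := speed_unique he he' ha ha' hg₀ h4
    subst haa
    apply h3
    rw [Prod.mk.injEq]
    refine ⟨?_, rfl⟩
    have hdis := Set.disjoint_left.1 (disjoint_KK (G := G) ha)
    rcases he with rfl | rfl <;> rcases he' with rfl | rfl
    · rfl
    · exact absurd h4 (hdis hg₀)
    · exact absurd hg₀ (hdis h4)
    · rfl
  have hn2 : g₀ ∉ B2 := by
    intro h
    simp only [hB2, mem_iUnion] at h
    obtain ⟨g', ⟨-, h2⟩, h3⟩ := h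
    exact h2 h3
  have hn3 : g₀ ∉ B3 := by
    rintro ⟨θ, ⟨h1, h2⟩, h3⟩
    have h4 : rot θ g₀ = rot 0 g₀ := by rw [rot_zero]; exact h3
    obtain ⟨n, hn⟩ := (hmg θ 0).1 h4
    rw [sub_zero] at hn
    rw [hn, abs_div, abs_of_pos hmpos] at h1
    have h5 : |(n : ℝ)| ≤ 1 / 2 := by
      rw [div_le_iff₀ hmpos] at h1
      refine h1.trans (le_of_eq ?_)
      field_simp
    have h6 : n = 0 := by
      have : |(n : ℝ)| < 1 := by linarith
      have : |n| < 1 := by exact_mod_cast this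
      exact Int.abs_lt_one_iff.1 this
    rw [hn, h6] at h2
    simp at h2
    linarith
  have hnB : g₀ ∈ (B1 ∪ B2 ∪ B3)ᶜ := by
    rintro ((h | h) | h)
    · exact hn1 h
    · exact hn2 h
    · exact hn3 h
  obtain ⟨r, hr, hball⟩ := Metric.isOpen_iff.1 hclosed.isOpen_compl g₀ hnB
  refine ⟨r / 2, by positivity, fun e' a' g he' ha' haA hg hdist => ?_⟩
  have hgB : g ∈ (B1 ∪ B2 ∪ B3)ᶜ := hball (by rw [Metric.mem_ball]; linarith)
  simp only [mem_compl_iff, mem_union, not_or] at hgB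
  obtain ⟨⟨hg1, hg2⟩, hg3⟩ := hgB
  have hea : (e', a') = (e, a) := by
    by_contra hne
    apply hg1
    simp only [hB1, mem_iUnion]
    exact ⟨(e', a'), ⟨⟨by simpa using he', mem_Crit_of_mem_KK he' ha' hg, haA⟩, hne⟩, hg⟩
  rw [Prod.mk.injEq] at hea
  obtain ⟨rfl, rfl⟩ := hea
  refine ⟨rfl, rfl, ?_⟩
  rw [hRu] at hg
  simp only [mem_iUnion] at hg
  obtain ⟨g', hg'R, hg'⟩ := hg
  have hg0' : g₀ ∈ orb g' := by
    by_contra hcon
    apply hg2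
    simp only [hB2, mem_iUnion]
    exact ⟨g', ⟨hg'R, hcon⟩, hg'⟩
  obtain ⟨s0, hs0⟩ := hg0'
  obtain ⟨s1, hs1⟩ := hg'
  have hgs : g = rot (s1 - s0) g₀ := by
    simp only at hs0 hs1
    rw [← hs0, ← hs1, rot_rot]
    congr 1
    ring
  set s := s1 - s0 with hs
  set n := round (s * m) with hn
  have habs : |s - n / m| ≤ 1 / (2 * m) := by
    have h1 := abs_sub_round (s * m)
    rw [← hn] at h1
    have h2 : s - n / m = (s * m - n) / m := by field_simp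
    rw [h2, abs_div, abs_of_pos hmpos, div_le_iff₀ hmpos]
    refine h1.trans (le_of_eq ?_)
    field_simp
  have hrot : rot (s - n / m) g₀ = g := by
    rw [hgs]
    exact (hmg _ _).2 ⟨-n, by push_cast; ring⟩
  refine ⟨s - n / m, ?_, hrot.symm⟩
  by_contra hcon
  push Not at hcon
  exact hg3 ⟨s - n / m, ⟨habs, hcon.le⟩, hrot⟩

/-- **LOCARC**: critical polygons near a critical polygon. -/
theorem locArc [CompactSpace M] (G : GeoList M) {ρ : ℝ} (hρ : 0 < ρ) (h : LS.UniqSeg M ρ)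
    {K : ℕ} [NeZero K] {x₀ : ZMod K → M} {d₀ : ℝ}
    (hx₀ : IsCritAt (Segs.ofUniqSeg hρ h) 1 x₀ d₀) (h0 : 0 < LS.E x₀) (h1 : LS.E x₀ < K * ρ ^ 2)
    {d : ℝ} (hd : 0 < d) :
    ∃ r₀ > 0, ∀ (y : ZMod K → M) (d' : ℝ), IsCritAt (Segs.ofUniqSeg hρ h) 1 y d' →
      dist y x₀ ≤ r₀ → LS.E y = LS.E x₀ ∧ ∃ θ : ℝ, |θ| ≤ d ∧ LS.itpL y = rot θ (LS.itpL x₀) := by
  have key : ∀ (y : ZMod K → M) (d' : ℝ), IsCritAt (Segs.ofUniqSeg hρ h) 1 y d' → 0 < LS.E y →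
      LS.E y < K * ρ ^ 2 → LS.itpL y ∈ G.KK 1 (√(LS.E y)) ∪ G.KK (-1) (√(LS.E y)) := by
    intro y d' hy hy0 hy1
    refine mem_KK_of_crit G hρ h (Real.sqrt_pos.2 hy0) (fun i => LS.step_lt hρ hy1 i) hy
      (Real.sq_sqrt hy0.le).symm (funext fun t => LS.fn_itpL h hρ hy1 t)
  obtain ⟨s, hs1, hs2⟩ := exists_between h1
  have hs0 : 0 < s := h0.trans hs1
  have hsq : (√s) ^ 2 = s := Real.sq_sqrt hs0.le
  have hcont := LS.continuousOn_itpL (K := K) h hρ (Real.sqrt_nonneg s) (by rw [hsq]; exact hs2)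
  obtain ⟨e, he, hg₀⟩ : ∃ e : ℝ, (e = 1 ∨ e = -1) ∧ LS.itpL x₀ ∈ G.KK e (√(LS.E x₀)) := by
    rcases key x₀ d₀ hx₀ h0 h1 with h2 | h2
    · exact ⟨1, Or.inl rfl, h2⟩
    · exact ⟨-1, Or.inr rfl, h2⟩
  obtain ⟨r, hr, H⟩ := exists_isolated he (Real.sqrt_pos.2 h0) hg₀ (√s) hd
  -- neighbourhoods
  have hopen : IsOpen {y : ZMod K → M | 0 < LS.E y ∧ LS.E y < s} :=
    (isOpen_lt continuous_const LS.continuous_E).inter (isOpen_lt LS.continuous_E continuous_const)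
  have hmem : x₀ ∈ {y : ZMod K → M | 0 < LS.E y ∧ LS.E y < s} := ⟨h0, hs1⟩
  have hx₀Pl : x₀ ∈ LS.Pl M K (√s) := by
    show LS.E x₀ ≤ (√s) ^ 2
    rw [hsq]; exact hs1.le
  have hev : ∀ᶠ y in 𝓝 x₀, (0 < LS.E y ∧ LS.E y < s) ∧ dist (LS.itpL y) (LS.itpL x₀) ≤ r := by
    have h3 : ∀ᶠ y in 𝓝[LS.Pl M K (√s)] x₀, dist (LS.itpL y) (LS.itpL x₀) < r :=
      (hcont x₀ hx₀Pl).eventually (Metric.ball_mem_nhds _ hr)
    rw [eventually_nhdsWithin_iff] at h3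
    filter_upwards [hopen.mem_nhds hmem, h3] with y hy1 hy2
    refine ⟨hy1, (hy2 ?_).le⟩
    show LS.E y ≤ (√s) ^ 2
    rw [hsq]; exact hy1.2.le
  obtain ⟨r₀, hr₀, hb⟩ := Metric.eventually_nhds_iff.1 hev
  refine ⟨r₀ / 2, by positivity, fun y d' hy hdist => ?_⟩
  obtain ⟨⟨hy0, hy1⟩, hy2⟩ := hb (lt_of_le_of_lt hdist (by linarith))
  have hk := key y d' hy hy0 (hy1.trans hs2)
  obtain ⟨e', he', hk'⟩ : ∃ e' : ℝ, (e' = 1 ∨ e' = -1) ∧ LS.itpL y ∈ G.KK e' (√(LS.E y)) := by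
    rcases hk with h2 | h2
    · exact ⟨1, Or.inl rfl, h2⟩
    · exact ⟨-1, Or.inr rfl, h2⟩
  obtain ⟨h4, -, h5⟩ := H e' _ _ he' (Real.sqrt_pos.2 hy0) (Real.sqrt_le_sqrt hy1.le) hk' hy2
  refine ⟨?_, h5⟩
  have := congrArg (fun x => x ^ 2) h4
  simp only [Real.sq_sqrt hy0.le, Real.sq_sqrt h0.le] at this
  exact this

end Vale.Agent.P216.H494
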