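import Mathlib.Topology.MetricSpace.HausdorffDistance
import Vale.Agent.P216.Spine.Contract

/-! P216: neighbourhoods of the critical sets adapted to the descent (geometric part of CROSS). -/

open Set Topology Filter

namespace Vale.Agent.P216.H494

set_option linter.all false

variable {Λ : Type} [MetricSpace Λ]

/-- The properties of the neighbourhoods used at a critical level. `V` is `X T`. -/
structure CrossNbhd (S : GSys Λ) (p : ℕ) (a T : ℝ) (D1 : Λ → Λ) where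
  N1 : Set Λ
  N2 : Set Λ
  U1 : Set Λ
  U2 : Set Λ
  δ : ℝ
  ε : ℝ
  δ_pos : 0 < δ
  ε_pos : 0 < ε
  le_T : a + ε ≤ T
  N1_sub : N1 ⊆ S.X T
  N2_sub : N2 ⊆ S.X T
  K1_sub : S.K1 a ⊆ U1
  K2_sub : S.K2 a ⊆ U2
  U1_sub : U1 ⊆ N1
  U2_sub : U2 ⊆ N2
  dist_N : ∀ x ∈ N1, ∀ y ∈ N2, δ ≤ dist x y
  margin1 : ∀ x ∈ U1, ∀ y ∈ S.X T, dist x y < δ → y ∈ N1
  margin2 : ∀ x ∈ U2, ∀ y ∈ S.X T, dist x y < δ → y ∈ N2
  D_N1 : ∀ x ∈ N1, D1 x ∉ N2
  D_N2 : ∀ x ∈ N2, D1 x ∉ N1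
  τ_N1 : ∀ x ∈ S.X T, (S.τ x ∈ N1 ↔ x ∈ N1)
  τ_N2 : ∀ x ∈ S.X T, (S.τ x ∈ N2 ↔ x ∈ N2)
  rot_N1 : ∀ x ∈ S.X T, (S.rot p x ∈ N1 ↔ x ∈ N1)
  rot_N2 : ∀ x ∈ S.X T, (S.rot p x ∈ N2 ↔ x ∈ N2)
  θ_N1 : ∀ x ∈ S.X T, (S.θ x ∈ N2 ↔ x ∈ N1)
  θ_N2 : ∀ x ∈ S.X T, (S.θ x ∈ N1 ↔ x ∈ N2)
  τ_U1 : ∀ x ∈ S.X T, (S.τ x ∈ U1 ↔ x ∈ U1)
  τ_U2 : ∀ x ∈ S.X T, (S.τ x ∈ U2 ↔ x ∈ U2)
  rot_U1 : ∀ x ∈ S.X T, (S.rot p x ∈ U1 ↔ x ∈ U1)
  rot_U2 : ∀ x ∈ S.X T, (S.rot p x ∈ U2 ↔ x ∈ U2)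
  θ_U1 : ∀ x ∈ S.X T, (S.θ x ∈ U2 ↔ x ∈ U1)
  θ_U2 : ∀ x ∈ S.X T, (S.θ x ∈ U1 ↔ x ∈ U2)
  open_U : ∃ O : Set Λ, IsOpen O ∧ O ∩ S.X T = U1 ∪ U2
  cross : ∀ ε', 0 < ε' → ε' ≤ ε → ∀ x ∈ S.X (a + ε'), x ∉ U1 ∪ U2 → D1 x ∈ S.X (a - ε')

section
variable (S : GSys Λ) {p : ℕ}

/-- The symmetrised distance to `K1`. -/
noncomputable def phi (p : ℕ) (K : Set Λ) (x : Λ) : ℝ :=
  ∑ j ∈ Finset.range p,
    (Metric.infDist ((S.rot p)^[j] x) K + Metric.infDist ((S.rot p)^[j] (S.τ x)) K)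

theorem iter_rot_mem {T : ℝ} {x : Λ} (hx : x ∈ S.X T) (j : ℕ) : (S.rot p)^[j] x ∈ S.X T := by
  induction j with
  | zero => exact hx
  | succ j ih => rw [Function.iterate_succ_apply']; exact S.rot_mem p T ih

theorem continuousOn_iter_rot (T : ℝ) (j : ℕ) : ContinuousOn ((S.rot p)^[j]) (S.X T) := by
  induction j with
  | zero => exact continuousOn_id
  | succ j ih =>
    rw [Function.iterate_succ']
    exact (S.cont_rot p T).comp ih fun x hx => iter_rot_mem S hx j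

theorem phi_continuousOn (K : Set Λ) (T : ℝ) : ContinuousOn (phi S p K) (S.X T) := by
  unfold phi
  refine continuousOn_finset_sum _ fun j _ => ContinuousOn.add ?_ ?_
  · exact (Metric.continuous_infDist_pt K).comp_continuousOn (continuousOn_iter_rot S T j)
  · exact (Metric.continuous_infDist_pt K).comp_continuousOn
      ((continuousOn_iter_rot S T j).comp (S.cont_τ T) (S.τ_mem T))

theorem phi_nonneg (K : Set Λ) (x : Λ) : 0 ≤ phi S p K x :=
  Finset.sum_nonneg fun _ _ => add_nonneg Metric.infDist_nonneg Metric.infDist_nonneg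

theorem phi_τ (K : Set Λ) (x : Λ) : phi S p K (S.τ x) = phi S p K x := by
  unfold phi
  refine Finset.sum_congr rfl fun j _ => ?_
  rw [S.τ_τ, add_comm]

theorem sum_cyc (hp : 0 < p) (f : ℕ → ℝ) (hf : f p = f 0) :
    ∑ j ∈ Finset.range p, f (j + 1) = ∑ j ∈ Finset.range p, f j := by
  have h1 := Finset.sum_range_succ' f p
  have h2 := Finset.sum_range_succ f p
  linarith

theorem phi_rot (hp : 0 < p) (K : Set Λ) (x : Λ) : phi S p K (S.rot p x) = phi S p K x := by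
  unfold phi
  have h := sum_cyc hp (fun j => Metric.infDist ((S.rot p)^[j] x) K +
    Metric.infDist ((S.rot p)^[j] (S.τ x)) K) (by
      simp only [S.rot_pow p hp, Function.iterate_zero, id])
  rw [← h]
  refine Finset.sum_congr rfl fun j _ => ?_
  simp only [Function.iterate_succ_apply, S.τ_rot]

theorem phi_iter_rot (hp : 0 < p) (K : Set Λ) (x : Λ) (j : ℕ) :
    phi S p K ((S.rot p)^[j] x) = phi S p K x := by
  induction j with
  | zero => rfl
  | succ j ih => rw [Function.iterate_succ_apply', phi_rot S hp, ih]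

theorem θ_rot_eq (hp : 0 < p) (x : Λ) : S.θ (S.rot p x) = (S.rot p)^[p - 1] (S.θ x) := by
  have h1 := S.θ_rot p x
  have h2 : (S.rot p)^[p] (S.θ (S.rot p x)) = S.θ (S.rot p x) := S.rot_pow p hp _
  obtain ⟨q, rfl⟩ : ∃ q, p = q + 1 := ⟨p - 1, by omega⟩
  rw [Function.iterate_succ_apply, h1] at h2
  rw [Nat.add_sub_cancel]
  exact h2.symm

theorem phi_θ_rot (hp : 0 < p) (K : Set Λ) (x : Λ) :
    phi S p K (S.θ (S.rot p x)) = phi S p K (S.θ x) := by
  rw [θ_rot_eq S hp, phi_iter_rot S hp]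

theorem phi_θ_τ (K : Set Λ) (x : Λ) : phi S p K (S.θ (S.τ x)) = phi S p K (S.θ x) := by
  rw [← S.τ_θ, phi_τ]

theorem phi_eq_zero (hp : 0 < p) {K : Set Λ} (hK : IsClosed K) (hne : K.Nonempty) {x : Λ}
    (h : phi S p K x = 0) : x ∈ K := by
  have h1 := (Finset.sum_eq_zero_iff_of_nonneg fun j _ => add_nonneg
    (Metric.infDist_nonneg (x := (S.rot p)^[j] x) (s := K))
    (Metric.infDist_nonneg (x := (S.rot p)^[j] (S.τ x)) (s := K))).1 h 0
    (Finset.mem_range.2 hp)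
  simp only [Function.iterate_zero, id] at h1
  have h2 : Metric.infDist x K = 0 := by
    have e1 := Metric.infDist_nonneg (x := x) (s := K)
    have e2 := Metric.infDist_nonneg (x := S.τ x) (s := K)
    linarith
  exact (hK.mem_iff_infDist_zero hne).2 h2

theorem phi_of_mem {K : Set Λ} (hτ : MapsTo S.τ K K) (hr : MapsTo (S.rot p) K K) {x : Λ}
    (hx : x ∈ K) : phi S p K x = 0 := by
  have hj : ∀ (j : ℕ) {y : Λ}, y ∈ K → (S.rot p)^[j] y ∈ K := by
    intro j y hy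
    induction j with
    | zero => exact hy
    | succ j ih => rw [Function.iterate_succ_apply']; exact hr ih
  unfold phi
  refine Finset.sum_eq_zero fun j _ => ?_
  rw [Metric.infDist_zero_of_mem (hj j hx), Metric.infDist_zero_of_mem (hj j (hτ hx)), add_zero]

end

theorem exists_crossNbhd (S : GSys Λ) {p : ℕ} (hp : 0 < p) {a T : ℝ} (ha : 0 < a) (haT : a < T)
    {D1 : Λ → Λ} (hD : ContinuousOn D1 (S.X T)) (hDm : MapsTo D1 (S.X T) (S.X T))
    (hD1 : MapsTo D1 (S.K1 a) (S.K1 a)) (hD2 : MapsTo D1 (S.K2 a) (S.K2 a))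
    (hcr : ∀ U : Set Λ, IsOpen U → S.K1 a ∪ S.K2 a ⊆ U →
      ∃ ε > 0, ∀ x ∈ S.X (a + ε), x ∉ U → D1 x ∈ S.X (a - ε)) :
    Nonempty (CrossNbhd S p a T D1) := by
  have hcross : ∀ O : Set Λ, IsOpen O → S.K1 a ∪ S.K2 a ⊆ O → ∃ ε > 0, a + ε ≤ T ∧
      ∀ ε', 0 < ε' → ε' ≤ ε → ∀ x ∈ S.X (a + ε'), x ∉ O → D1 x ∈ S.X (a - ε') := by
    intro O hO hK
    obtain ⟨ε, hε, H⟩ := hcr O hO hK
    refine ⟨min ε (T - a), lt_min hε (by linarith), ?_, ?_⟩
    · have := min_le_right ε (T - a)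
      linarith
    · intro ε' hε' hle x hx hxO
      have h1 : ε' ≤ ε := hle.trans (min_le_left _ _)
      exact S.mono _ _ (by linarith) (H x (S.mono _ _ (by linarith) hx) hxO)
  rcases (S.K1 a).eq_empty_or_nonempty with hemp | hne
  · have hemp2 : S.K2 a = ∅ := by
      rw [eq_empty_iff_forall_notMem]
      intro x hx
      have := S.K2_θ a hx
      rw [hemp] at this
      exact this
    obtain ⟨ε, hε, hle, H⟩ := hcross ∅ isOpen_empty (by rw [hemp, hemp2]; simp)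
    exact ⟨{
      N1 := ∅, N2 := ∅, U1 := ∅, U2 := ∅, δ := 1, ε := ε, δ_pos := one_pos, ε_pos := hε,
      le_T := hle, N1_sub := empty_subset _, N2_sub := empty_subset _, K1_sub := hemp.subset,
      K2_sub := hemp2.subset, U1_sub := le_rfl, U2_sub := le_rfl,
      dist_N := fun x hx => absurd hx (notMem_empty x),
      margin1 := fun x hx => absurd hx (notMem_empty x),
      margin2 := fun x hx => absurd hx (notMem_empty x),
      D_N1 := fun x hx => absurd hx (notMem_empty x),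
      D_N2 := fun x hx => absurd hx (notMem_empty x),
      τ_N1 := fun _ _ => Iff.rfl, τ_N2 := fun _ _ => Iff.rfl, rot_N1 := fun _ _ => Iff.rfl,
      rot_N2 := fun _ _ => Iff.rfl, θ_N1 := fun _ _ => Iff.rfl, θ_N2 := fun _ _ => Iff.rfl,
      τ_U1 := fun _ _ => Iff.rfl, τ_U2 := fun _ _ => Iff.rfl, rot_U1 := fun _ _ => Iff.rfl,
      rot_U2 := fun _ _ => Iff.rfl, θ_U1 := fun _ _ => Iff.rfl, θ_U2 := fun _ _ => Iff.rfl,
      open_U := ⟨∅, isOpen_empty, by simp⟩,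
      cross := fun ε' h1 h2 x hx hxU => H ε' h1 h2 x hx (by simpa using hxU) }⟩
  · set K := S.K1 a with hK
    have hKc : IsClosed K := (S.K1_compact a ha).isClosed
    have hKT : K ⊆ S.X T := (S.K1_sub a ha).trans (S.mono _ _ haT.le)
    have hK2T : S.K2 a ⊆ S.X T := (S.K2_sub a ha).trans (S.mono _ _ haT.le)
    set φ : Λ → ℝ := phi S p K with hφ
    set ψ : Λ → ℝ := fun x => phi S p K (S.θ x) with hψ
    have hφc : ContinuousOn φ (S.X T) := phi_continuousOn S K T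
    have hψc : ContinuousOn ψ (S.X T) := hφc.comp (S.cont_θ T) (S.θ_mem T)
    have hφ0 : ∀ x, φ x = 0 ↔ x ∈ K := fun x =>
      ⟨phi_eq_zero S hp hKc hne, phi_of_mem S (S.K1_τ a) (S.K1_rot p a)⟩
    have hψ0 : ∀ x, ψ x = 0 ↔ x ∈ S.K2 a := by
      intro x
      refine (hφ0 (S.θ x)).trans ⟨fun h => ?_, fun h => S.K2_θ a h⟩
      have := S.K1_θ a h
      rwa [S.θ_θ] at this
    have hdis : ∀ x, x ∈ K → x ∈ S.K2 a → False := fun x h1 h2 =>
      Set.disjoint_left.1 (S.K_disj a ha) h1 h2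
    -- the positive function
    set m : Λ → ℝ := fun x => min (max (φ x) (ψ x)) (min (max (φ x) (ψ (D1 x)))
      (max (ψ x) (φ (D1 x)))) with hm
    have hmc : ContinuousOn m (S.X T) :=
      (hφc.sup hψc).inf ((hφc.sup (hψc.comp hD hDm)).inf (hψc.sup (hφc.comp hD hDm)))
    have hφn : ∀ x, 0 ≤ φ x := fun x => phi_nonneg S K x
    have hψn : ∀ x, 0 ≤ ψ x := fun x => phi_nonneg S K _
    have hpos2 : ∀ u v : ℝ, 0 ≤ u → 0 ≤ v → ¬ (u = 0 ∧ v = 0) → 0 < max u v := by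
      intro u v hu hv h
      by_contra hcon
      push Not at hcon
      have h1 := (le_max_left u v).trans hcon
      have h2 := (le_max_right u v).trans hcon
      exact h ⟨le_antisymm h1 hu, le_antisymm h2 hv⟩
    have hmpos : ∀ x ∈ S.X T, 0 < m x := by
      intro x hx
      refine lt_min (hpos2 _ _ (hφn _) (hψn _) ?_) (lt_min (hpos2 _ _ (hφn _) (hψn _) ?_)
        (hpos2 _ _ (hψn _) (hφn _) ?_))
      · rintro ⟨h1, h2⟩
        exact hdis x ((hφ0 x).1 h1) ((hψ0 x).1 h2)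
      · rintro ⟨h1, h2⟩
        exact hdis _ (hD1 ((hφ0 x).1 h1)) ((hψ0 _).1 h2)
      · rintro ⟨h1, h2⟩
        exact hdis _ ((hφ0 _).1 h2) (hD2 ((hψ0 x).1 h1))
    obtain ⟨x₀, hx₀, hmin⟩ := (S.compact T).exists_isMinOn (hne.mono hKT) hmc
    set c := m x₀ / 2 with hc
    have hc0 : 0 < c := half_pos (hmpos x₀ hx₀)
    have hmge : ∀ x ∈ S.X T, 2 * c ≤ m x := fun x hx => by
      have := hmin hx
      simp only [mem_setOf_eq] at this
      rw [hc]; linarith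
    -- uniform continuity
    have hunif : ∃ δ > 0, ∀ x ∈ S.X T, ∀ y ∈ S.X T, dist x y < δ →
        |φ x - φ y| < c / 2 ∧ |ψ x - ψ y| < c / 2 := by
      have h1 := Metric.uniformContinuousOn_iff.1
        ((S.compact T).uniformContinuousOn_of_continuous hφc) (c / 2) (by positivity)
      have h2 := Metric.uniformContinuousOn_iff.1
        ((S.compact T).uniformContinuousOn_of_continuous hψc) (c / 2) (by positivity)
      obtain ⟨δ1, hδ1, H1⟩ := h1
      obtain ⟨δ2, hδ2, H2⟩ := h2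
      refine ⟨min δ1 δ2, lt_min hδ1 hδ2, fun x hx y hy h => ⟨?_, ?_⟩⟩
      · have := H1 x hx y hy (h.trans_le (min_le_left _ _))
        rwa [Real.dist_eq] at this
      · have := H2 x hx y hy (h.trans_le (min_le_right _ _))
        rwa [Real.dist_eq] at this
    obtain ⟨δ, hδ, Hδ⟩ := hunif
    -- the open set
    have hopen : ∃ O : Set Λ, IsOpen O ∧ O ∩ S.X T =
        {x | x ∈ S.X T ∧ φ x < c / 2} ∪ {x | x ∈ S.X T ∧ ψ x < c / 2} := by
      obtain ⟨O1, hO1, e1⟩ := continuousOn_iff'.1 hφc (Iio (c / 2)) isOpen_Iio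
      obtain ⟨O2, hO2, e2⟩ := continuousOn_iff'.1 hψc (Iio (c / 2)) isOpen_Iio
      refine ⟨O1 ∪ O2, hO1.union hO2, ?_⟩
      rw [union_inter_distrib_right, ← e1, ← e2]
      ext x
      simp only [mem_union, mem_inter_iff, mem_preimage, mem_Iio, mem_setOf_eq]
      tauto
    obtain ⟨O, hO, hOe⟩ := hopen
    have hKO : S.K1 a ∪ S.K2 a ⊆ O := by
      rintro x (hx | hx)
      · have : x ∈ O ∩ S.X T := by
          rw [hOe]
          exact Or.inl ⟨hKT hx, by rw [(hφ0 x).2 hx]; positivity⟩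
        exact this.1
      · have : x ∈ O ∩ S.X T := by
          rw [hOe]
          exact Or.inr ⟨hK2T hx, by rw [(hψ0 x).2 hx]; positivity⟩
        exact this.1
    obtain ⟨ε, hε, hle, H⟩ := hcross O hO hKO
    have hθ : ∀ x, φ (S.θ x) = ψ x := fun x => rfl
    have hθ' : ∀ x, ψ (S.θ x) = φ x := fun x => by
      show phi S p K (S.θ (S.θ x)) = _
      rw [S.θ_θ]
    have hφτ : ∀ x, φ (S.τ x) = φ x := fun x => phi_τ S K x
    have hψτ : ∀ x, ψ (S.τ x) = ψ x := fun x => phi_θ_τ S K x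
    have hφr : ∀ x, φ (S.rot p x) = φ x := fun x => phi_rot S hp K x
    have hψr : ∀ x, ψ (S.rot p x) = ψ x := fun x => phi_θ_rot S hp K x
    have mτ : ∀ x ∈ S.X T, (S.τ x ∈ S.X T ↔ x ∈ S.X T) := fun x hx =>
      ⟨fun _ => hx, fun _ => S.τ_mem T hx⟩
    have mr : ∀ x ∈ S.X T, (S.rot p x ∈ S.X T ↔ x ∈ S.X T) := fun x hx =>
      ⟨fun _ => hx, fun _ => S.rot_mem p T hx⟩
    have mθ : ∀ x ∈ S.X T, (S.θ x ∈ S.X T ↔ x ∈ S.X T) := fun x hx =>
      ⟨fun _ => hx, fun _ => S.θ_mem T hx⟩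
    refine ⟨{
      N1 := {x | x ∈ S.X T ∧ φ x < c}
      N2 := {x | x ∈ S.X T ∧ ψ x < c}
      U1 := {x | x ∈ S.X T ∧ φ x < c / 2}
      U2 := {x | x ∈ S.X T ∧ ψ x < c / 2}
      δ := δ
      ε := ε
      δ_pos := hδ
      ε_pos := hε
      le_T := hle
      N1_sub := fun x hx => hx.1
      N2_sub := fun x hx => hx.1
      K1_sub := fun x hx => ⟨hKT hx, by rw [(hφ0 x).2 hx]; positivity⟩
      K2_sub := fun x hx => ⟨hK2T hx, by rw [(hψ0 x).2 hx]; positivity⟩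
      U1_sub := fun x hx => ⟨hx.1, hx.2.trans (by linarith)⟩
      U2_sub := fun x hx => ⟨hx.1, hx.2.trans (by linarith)⟩
      dist_N := ?_
      margin1 := ?_
      margin2 := ?_
      D_N1 := ?_
      D_N2 := ?_
      τ_N1 := fun x hx => by simp only [mem_setOf_eq, hφτ, mτ x hx]
      τ_N2 := fun x hx => by simp only [mem_setOf_eq, hψτ, mτ x hx]
      rot_N1 := fun x hx => by simp only [mem_setOf_eq, hφr, mr x hx]
      rot_N2 := fun x hx => by simp only [mem_setOf_eq, hψr, mr x hx]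
      θ_N1 := fun x hx => by simp only [mem_setOf_eq, hθ', mθ x hx]
      θ_N2 := fun x hx => by simp only [mem_setOf_eq, hθ, mθ x hx]
      τ_U1 := fun x hx => by simp only [mem_setOf_eq, hφτ, mτ x hx]
      τ_U2 := fun x hx => by simp only [mem_setOf_eq, hψτ, mτ x hx]
      rot_U1 := fun x hx => by simp only [mem_setOf_eq, hφr, mr x hx]
      rot_U2 := fun x hx => by simp only [mem_setOf_eq, hψr, mr x hx]
      θ_U1 := fun x hx => by simp only [mem_setOf_eq, hθ', mθ x hx]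
      θ_U2 := fun x hx => by simp only [mem_setOf_eq, hθ, mθ x hx]
      open_U := ⟨O, hO, hOe⟩
      cross := ?_ }⟩
    · rintro x ⟨hx, hx1⟩ y ⟨hy, hy1⟩
      by_contra hcon
      push Not at hcon
      have h1 := (Hδ x hx y hy hcon).2
      rw [abs_lt] at h1
      have h2 := (hmge x hx).trans (min_le_left _ _)
      rcases le_max_iff.1 h2 with h3 | h3 <;> linarith
    · rintro x ⟨hx, hx1⟩ y hy hxy
      have h1 := (Hδ x hx y hy hxy).1
      rw [abs_lt] at h1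
      exact ⟨hy, by linarith⟩
    · rintro x ⟨hx, hx1⟩ y hy hxy
      have h1 := (Hδ x hx y hy hxy).2
      rw [abs_lt] at h1
      exact ⟨hy, by linarith⟩
    · rintro x ⟨hx, hx1⟩ ⟨-, hx2⟩
      have h2 := ((hmge x hx).trans (min_le_right _ _)).trans (min_le_left _ _)
      rcases le_max_iff.1 h2 with h3 | h3 <;> linarith
    · rintro x ⟨hx, hx1⟩ ⟨-, hx2⟩
      have h2 := ((hmge x hx).trans (min_le_right _ _)).trans (min_le_right _ _)
      rcases le_max_iff.1 h2 with h3 | h3 <;> linarith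
    · intro ε' h1 h2 x hx hxU
      refine H ε' h1 h2 x hx fun hxO => hxU ?_
      rw [← hOe]
      exact ⟨hxO, S.mono _ _ (by linarith) hx⟩

end Vale.Agent.P216.H494
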