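import Mathlib.Geometry.Manifold.Riemannian.Basic

/-!
# P216: pulling back a smooth structure along a local homeomorphism

`Cov hf` is a copy of `X` for a local homeomorphism `f : X → M`; it gets the charts
`e.trans c`, `e` a local inverse branch of `f`, `c` a chart of `M`.
-/

open Set Topology Bundle Manifold
open scoped ContDiff

namespace Vale.Agent.P216.H494

variable {X M : Type} [TopologicalSpace X] [TopologicalSpace M] {f : X → M}

/-- A copy of `X`. -/
def Cov (_ : IsLocalHomeomorph f) : Type := X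

section basic

variable (hf : IsLocalHomeomorph f)

instance instTopCov : TopologicalSpace (Cov hf) := inferInstanceAs (TopologicalSpace X)

instance [T2Space X] : T2Space (Cov hf) := inferInstanceAs (T2Space X)

instance [CompactSpace X] : CompactSpace (Cov hf) := inferInstanceAs (CompactSpace X)

instance [ConnectedSpace X] : ConnectedSpace (Cov hf) := inferInstanceAs (ConnectedSpace X)

/-- the map -/
def Cov.p (x : Cov hf) : M := f x

/-- the identification -/
def Cov.homeo : Cov hf ≃ₜ X := Homeomorph.refl X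

theorem Cov.isLocalHomeomorph : IsLocalHomeomorph (Cov.p hf) := hf

theorem Cov.continuous_p : Continuous (Cov.p hf) := hf.continuous

/-- a local branch of `f` at `x` -/
noncomputable def Cov.loc (x : Cov hf) : OpenPartialHomeomorph (Cov hf) M := (hf x).choose

theorem Cov.mem_loc (x : Cov hf) : x ∈ (Cov.loc hf x).source := (hf x).choose_spec.1

theorem Cov.loc_eq (x : Cov hf) : (Cov.loc hf x : Cov hf → M) = Cov.p hf :=
  (hf x).choose_spec.2.symm

end basic

section charted

variable {E : Type} [TopologicalSpace E] [ChartedSpace E M] (hf : IsLocalHomeomorph f)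

/-- the charts of the copy -/
noncomputable instance instChartedCov : ChartedSpace E (Cov hf) where
  atlas := {φ | ∃ (e : OpenPartialHomeomorph (Cov hf) M) (c : OpenPartialHomeomorph M E),
    (e : Cov hf → M) = Cov.p hf ∧ c ∈ atlas E M ∧ φ = e.trans c}
  chartAt x := (Cov.loc hf x).trans (chartAt E (Cov.p hf x))
  mem_chart_source x := by
    rw [OpenPartialHomeomorph.trans_source]
    refine ⟨Cov.mem_loc hf x, ?_⟩
    rw [mem_preimage, Cov.loc_eq]
    exact mem_chart_source E _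
  chart_mem_atlas x := ⟨_, _, Cov.loc_eq hf x, chart_mem_atlas E _, rfl⟩

theorem Cov.chartAt_eq (x : Cov hf) :
    chartAt E x = (Cov.loc hf x).trans (chartAt E (Cov.p hf x)) := rfl

theorem Cov.hasGroupoid (G : StructureGroupoid E) [HasGroupoid M G] [ClosedUnderRestriction G] :
    HasGroupoid (Cov hf) G := by
  refine ⟨?_⟩
  rintro _ _ ⟨e, c, he, hc, rfl⟩ ⟨e', c', he', hc', rfl⟩
  have hG : c.symm ≫ₕ c' ∈ G := HasGroupoid.compatible hc hc'
  have key : ∀ y ∈ ((e.trans c).symm ≫ₕ (e'.trans c')).source,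
      y ∈ c.target ∧ c.symm y ∈ e.target ∧ c.symm y ∈ c'.source := by
    intro y hy
    rw [OpenPartialHomeomorph.trans_source] at hy
    obtain ⟨h1, h2⟩ := hy
    rw [OpenPartialHomeomorph.symm_source, OpenPartialHomeomorph.trans_target] at h1
    refine ⟨h1.1, h1.2, ?_⟩
    rw [mem_preimage, OpenPartialHomeomorph.trans_source] at h2
    have h3 := h2.2
    rw [mem_preimage, he', ← he] at h3
    rwa [OpenPartialHomeomorph.coe_trans_symm, Function.comp_apply, e.right_inv h1.2] at h3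
  have h1 := G.restr_mem_of_eqOn (e := c.symm ≫ₕ c')
    (e' := (e.trans c).symm ≫ₕ (e'.trans c')) (s := ((e.trans c).symm ≫ₕ (e'.trans c')).source) hG
    (OpenPartialHomeomorph.open_source _) (fun y hy => ?_) (fun y hy => ?_)
  · rwa [OpenPartialHomeomorph.restr_eq_of_source_subset subset_rfl] at h1
  · obtain ⟨-, h2, -⟩ := key y hy
    change c' (c.symm y) = c' (e' (e.symm (c.symm y)))
    rw [he', ← he, e.right_inv h2]
  · obtain ⟨h1, -, h3⟩ := key y hy.2
    rw [OpenPartialHomeomorph.trans_source]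
    exact ⟨h1, h3⟩

end charted

section smooth

variable {E : Type} [NormedAddCommGroup E] [NormedSpace ℝ E] [ChartedSpace E M]
  (hf : IsLocalHomeomorph f)

instance instManifoldCov [IsManifold 𝓘(ℝ, E) ∞ M] : IsManifold 𝓘(ℝ, E) ∞ (Cov hf) :=
  have := Cov.hasGroupoid hf (contDiffGroupoid ∞ 𝓘(ℝ, E))
  IsManifold.mk' 𝓘(ℝ, E) ∞ (Cov hf)

/-- `p` read in the charts is the identity -/
theorem Cov.writtenInExtChartAt (x : Cov hf) :
    ∀ᶠ y in 𝓝 (extChartAt 𝓘(ℝ, E) x x),
      writtenInExtChartAt 𝓘(ℝ, E) 𝓘(ℝ, E) x (Cov.p hf) y = y := by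
  have h1 : (extChartAt 𝓘(ℝ, E) x).target ∈ 𝓝 (extChartAt 𝓘(ℝ, E) x x) :=
    extChartAt_target_mem_nhds x
  filter_upwards [h1] with y hy
  have h2 : y ∈ (chartAt E (Cov.p hf x)).target ∧
      (chartAt E (Cov.p hf x)).symm y ∈ (Cov.loc hf x).target := by
    simpa [extChartAt, Cov.chartAt_eq] using hy
  have h3 : Cov.p hf ((Cov.loc hf x).symm ((chartAt E (Cov.p hf x)).symm y)) =
      (chartAt E (Cov.p hf x)).symm y := by
    have := OpenPartialHomeomorph.right_inv _ h2.2
    rwa [Cov.loc_eq] at this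
  change chartAt E (Cov.p hf x) (Cov.p hf ((Cov.loc hf x).symm
    ((chartAt E (Cov.p hf x)).symm y))) = y
  rw [h3, OpenPartialHomeomorph.right_inv _ h2.1]

theorem Cov.hasMFDerivAt (x : Cov hf) :
    HasMFDerivAt 𝓘(ℝ, E) 𝓘(ℝ, E) (Cov.p hf) x (ContinuousLinearMap.id ℝ E) := by
  refine ⟨(Cov.continuous_p hf).continuousAt, ?_⟩
  have h1 : HasFDerivWithinAt (fun y : E => y) (ContinuousLinearMap.id ℝ E)
      (range 𝓘(ℝ, E)) (extChartAt 𝓘(ℝ, E) x x) := hasFDerivWithinAt_id _ _
  refine h1.congr_of_eventuallyEq ?_ ?_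
  · exact (Cov.writtenInExtChartAt hf x).filter_mono nhdsWithin_le_nhds
  · exact (Cov.writtenInExtChartAt hf x).self_of_nhds

theorem Cov.contMDiff_p : ContMDiff 𝓘(ℝ, E) 𝓘(ℝ, E) ∞ (Cov.p hf) := by
  intro x
  rw [contMDiffAt_iff]
  refine ⟨(Cov.continuous_p hf).continuousAt, ?_⟩
  have h1 : ContDiffWithinAt ℝ ∞ (fun y : E => y) (range 𝓘(ℝ, E)) (extChartAt 𝓘(ℝ, E) x x) :=
    contDiffWithinAt_id
  refine h1.congr_of_eventuallyEq ?_ ?_
  · exact (Cov.writtenInExtChartAt hf x).filter_mono nhdsWithin_le_nhds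
  · exact (Cov.writtenInExtChartAt hf x).self_of_nhds

/-- local inverses of `p` are smooth -/
theorem Cov.contMDiffOn_symm {e : OpenPartialHomeomorph (Cov hf) M}
    (he : (e : Cov hf → M) = Cov.p hf) : ContMDiffOn 𝓘(ℝ, E) 𝓘(ℝ, E) ∞ e.symm e.target := by
  intro z hz
  refine ContMDiffAt.contMDiffWithinAt ?_
  rw [contMDiffAt_iff]
  refine ⟨e.symm.continuousAt hz, ?_⟩
  have hpz : Cov.p hf (e.symm z) = z := by rw [← he, e.right_inv hz]
  have h1 : ContDiffWithinAt ℝ ∞ (fun y : E => y) (range 𝓘(ℝ, E)) (extChartAt 𝓘(ℝ, E) z z) :=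
    contDiffWithinAt_id
  have h2 : ∀ᶠ y in 𝓝 (extChartAt 𝓘(ℝ, E) z z),
      (extChartAt 𝓘(ℝ, E) (e.symm z) ∘ e.symm ∘ (extChartAt 𝓘(ℝ, E) z).symm) y = y := by
    have h3 : (extChartAt 𝓘(ℝ, E) z).target ∈ 𝓝 (extChartAt 𝓘(ℝ, E) z z) :=
      extChartAt_target_mem_nhds z
    have h4 : (extChartAt 𝓘(ℝ, E) z).symm ⁻¹' e.target ∈ 𝓝 (extChartAt 𝓘(ℝ, E) z z) :=
      extChartAt_preimage_mem_nhds (e.open_target.mem_nhds hz)
    filter_upwards [h3, h4] with y hy hy'
    change chartAt E (Cov.p hf (e.symm z)) ((Cov.loc hf (e.symm z)) (e.symm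
      ((extChartAt 𝓘(ℝ, E) z).symm y))) = y
    rw [Cov.loc_eq, ← he, e.right_inv hy', e.right_inv hz]
    exact (extChartAt 𝓘(ℝ, E) z).right_inv hy
  refine h1.congr_of_eventuallyEq ?_ ?_
  · exact h2.filter_mono nhdsWithin_le_nhds
  · exact h2.self_of_nhds

end smooth

end Vale.Agent.P216.H494
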