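import Vale.Agent.P216.H494.CovMet

/-!
# P216: the distance of the pulled back Riemannian metric
-/

open Set Topology Bundle Manifold MeasureTheory
open scoped ContDiff ENNReal

namespace Vale.Agent.P216.H494

variable {X M : Type} [TopologicalSpace X] [TopologicalSpace M] {f : X → M}
  {E : Type} [NormedAddCommGroup E] [NormedSpace ℝ E] [ChartedSpace E M]
  [IsManifold 𝓘(ℝ, E) ∞ M]
  [RiemannianBundle (fun x : M => TangentSpace 𝓘(ℝ, E) x)]
  (hf : IsLocalHomeomorph f)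

omit [IsManifold 𝓘(ℝ, E) ∞ M] in
theorem Cov.pathELength_comp {γ : ℝ → Cov hf} {a b : ℝ} (hab : a < b)
    (hγ : ContMDiffOn 𝓘(ℝ, ℝ) 𝓘(ℝ, E) 1 γ (Icc a b)) :
    pathELength 𝓘(ℝ, E) (Cov.p hf ∘ γ) a b = pathELength 𝓘(ℝ, E) γ a b := by
  rw [pathELength_eq_lintegral_mfderivWithin_Icc, pathELength_eq_lintegral_mfderivWithin_Icc]
  refine setLIntegral_congr_fun measurableSet_Icc fun t ht => ?_
  have h1 : mfderivWithin 𝓘(ℝ, ℝ) 𝓘(ℝ, E) (Cov.p hf ∘ γ) (Icc a b) t =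
      (mfderiv 𝓘(ℝ, E) 𝓘(ℝ, E) (Cov.p hf) (γ t)).comp
        (mfderivWithin 𝓘(ℝ, ℝ) 𝓘(ℝ, E) γ (Icc a b) t) := by
    apply mfderiv_comp_mfderivWithin
    · exact (Cov.hasMFDerivAt hf (γ t)).mdifferentiableAt
    · exact hγ.mdifferentiableOn one_ne_zero t ht
    · rw [uniqueMDiffWithinAt_iff_uniqueDiffWithinAt]
      exact uniqueDiffOn_Icc hab t ht
  have h2 : mfderiv 𝓘(ℝ, E) 𝓘(ℝ, E) (Cov.p hf) (γ t) = ContinuousLinearMap.id ℝ E :=
    (Cov.hasMFDerivAt hf (γ t)).mfderiv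
  have h3 : (mfderivWithin 𝓘(ℝ, ℝ) 𝓘(ℝ, E) (Cov.p hf ∘ γ) (Icc a b) t 1 : E) =
      (mfderivWithin 𝓘(ℝ, ℝ) 𝓘(ℝ, E) γ (Icc a b) t 1 : E) := by
    have h4 := DFunLike.congr_fun h1 1
    refine h4.trans ?_
    exact DFunLike.congr_fun h2 _
  rw [Cov.enorm_eq hf]
  exact congrArg (fun v : TangentSpace 𝓘(ℝ, E) (Cov.p hf (γ t)) => ‖v‖ₑ) h3

omit [IsManifold 𝓘(ℝ, E) ∞ M] in
theorem Cov.riemannianEDist_p_le (x y : Cov hf) :
    riemannianEDist 𝓘(ℝ, E) (Cov.p hf x) (Cov.p hf y) ≤ riemannianEDist 𝓘(ℝ, E) x y := by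
  refine le_of_forall_gt fun r hr => ?_
  obtain ⟨γ, h0, h1, hγ, hr⟩ := exists_lt_of_riemannianEDist_lt hr
  have h2 : ContMDiffOn 𝓘(ℝ, ℝ) 𝓘(ℝ, E) 1 (Cov.p hf ∘ γ) (Icc 0 1) :=
    ((Cov.contMDiff_p hf).of_le (by norm_num)).comp_contMDiffOn hγ
  refine (riemannianEDist_le_pathELength h2 ?_ ?_ zero_le_one).trans_lt ?_
  · rw [Function.comp_apply, h0]
  · rw [Function.comp_apply, h1]
  · rwa [Cov.pathELength_comp hf zero_lt_one hγ]

omit [IsManifold 𝓘(ℝ, E) ∞ M] in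
theorem Cov.riemannianEDist_lt {e : OpenPartialHomeomorph (Cov hf) M}
    (he : (e : Cov hf → M) = Cov.p hf) {y z : Cov hf} (hy : y ∈ e.source) (hz : z ∈ e.source)
    {r : ℝ≥0∞} (hr : riemannianEDist 𝓘(ℝ, E) (Cov.p hf y) (Cov.p hf z) < r)
    (hball : ∀ m : M, riemannianEDist 𝓘(ℝ, E) (Cov.p hf y) m < r → m ∈ e.target) :
    riemannianEDist 𝓘(ℝ, E) y z < r := by
  obtain ⟨η, h0, h1, hη, hr⟩ := exists_lt_of_riemannianEDist_lt hr
  have h2 : ∀ t ∈ Icc (0 : ℝ) 1, η t ∈ e.target := by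
    intro t ht
    refine hball _ (lt_of_le_of_lt ?_ hr)
    refine (riemannianEDist_le_pathELength (hη.mono (Icc_subset_Icc_right ht.2)) h0 rfl
      ht.1).trans ?_
    exact pathELength_mono le_rfl ht.2
  have h3 : ContMDiffOn 𝓘(ℝ, ℝ) 𝓘(ℝ, E) 1 (e.symm ∘ η) (Icc 0 1) :=
    ((Cov.contMDiffOn_symm hf he).of_le (by norm_num)).comp hη h2
  refine (riemannianEDist_le_pathELength h3 ?_ ?_ zero_le_one).trans_lt ?_
  · rw [Function.comp_apply, h0, ← he, e.left_inv hy]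
  · rw [Function.comp_apply, h1, ← he, e.left_inv hz]
  · rw [← Cov.pathELength_comp hf zero_lt_one h3]
    rwa [pathELength_congr (γ' := η)]
    intro t ht
    rw [Function.comp_apply, Function.comp_apply, ← he, e.right_inv (h2 t ht)]

theorem continuousRiemannian (N : Type) [TopologicalSpace N] [ChartedSpace E N]
    [IsManifold 𝓘(ℝ, E) ∞ N] [RiemannianBundle (fun x : N => TangentSpace 𝓘(ℝ, E) x)]
    [h : IsContMDiffRiemannianBundle 𝓘(ℝ, E) ∞ E (fun x : N => TangentSpace 𝓘(ℝ, E) x)] :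
    IsContinuousRiemannianBundle E (fun x : N => TangentSpace 𝓘(ℝ, E) x) := by
  obtain ⟨g, hg, hg'⟩ := h.exists_contMDiff
  exact ⟨g, hg.continuous, hg'⟩

/-- In a connected Riemannian manifold the distance is finite. -/
theorem riemannianEDist_lt_top {N : Type} [TopologicalSpace N] [ChartedSpace E N]
    [IsManifold 𝓘(ℝ, E) ∞ N] [RiemannianBundle (fun x : N => TangentSpace 𝓘(ℝ, E) x)]
    [IsContMDiffRiemannianBundle 𝓘(ℝ, E) ∞ E (fun x : N => TangentSpace 𝓘(ℝ, E) x)]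
    [PreconnectedSpace N] (x y : N) : riemannianEDist 𝓘(ℝ, E) x y < ⊤ := by
  have := continuousRiemannian (E := E) N
  have h1 : IsOpen {y : N | riemannianEDist 𝓘(ℝ, E) x y < ⊤} := by
    rw [isOpen_iff_mem_nhds]
    intro y hy
    filter_upwards [eventually_riemannianEDist_lt 𝓘(ℝ, E) y (c := 1) one_pos] with z hz
    exact riemannianEDist_triangle.trans_lt (ENNReal.add_lt_top.2 ⟨hy, hz.trans ENNReal.one_lt_top⟩)
  have h2 : IsClosed {y : N | riemannianEDist 𝓘(ℝ, E) x y < ⊤} := by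
    rw [← isOpen_compl_iff, isOpen_iff_mem_nhds]
    intro y hy
    filter_upwards [eventually_riemannianEDist_lt 𝓘(ℝ, E) y (c := 1) one_pos] with z hz hz'
    refine hy (riemannianEDist_triangle.trans_lt (ENNReal.add_lt_top.2 ⟨hz', ?_⟩))
    rw [riemannianEDist_comm]
    exact hz.trans ENNReal.one_lt_top
  have h3 := IsClopen.eq_univ ⟨h2, h1⟩ ⟨x, by
    rw [mem_ofPred_eq, riemannianEDist_self]
    exact ENNReal.zero_lt_top⟩
  exact h3.symm.subset (mem_univ y)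

end Vale.Agent.P216.H494
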