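import Vale.Agent.P216.H494.CovDef

/-!
# P216: pulling back a smooth Riemannian metric along a local homeomorphism
-/

open Set Topology Bundle Manifold
open scoped ContDiff

namespace Vale.Agent.P216.H494

variable {X M : Type} [TopologicalSpace X] [TopologicalSpace M] {f : X → M}
  {E : Type} [NormedAddCommGroup E] [NormedSpace ℝ E] [ChartedSpace E M]

section core

variable [IsManifold 𝓘(ℝ, E) ∞ M] (hf : IsLocalHomeomorph f)

omit [NormedSpace ℝ E] [IsManifold 𝓘(ℝ, E) ∞ M] in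
theorem Cov.mem_chart_source_iff {x₀ x : Cov hf} : x ∈ (chartAt E x₀).source ↔
    x ∈ (Cov.loc hf x₀).source ∧ Cov.p hf x ∈ (chartAt E (Cov.p hf x₀)).source := by
  rw [Cov.chartAt_eq, OpenPartialHomeomorph.trans_source, mem_inter_iff, mem_preimage,
    Cov.loc_eq]

omit [IsManifold 𝓘(ℝ, E) ∞ M] in
theorem Cov.extChartAt_apply (x₀ x : Cov hf) :
    extChartAt 𝓘(ℝ, E) x₀ x = extChartAt 𝓘(ℝ, E) (Cov.p hf x₀) (Cov.p hf x) := by
  change chartAt E (Cov.p hf x₀) (Cov.loc hf x₀ x) = chartAt E (Cov.p hf x₀) (Cov.p hf x)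
  rw [Cov.loc_eq]

/-- the coordinate changes of the copy are those of `M` -/
theorem Cov.coordChange {x₀ x : Cov hf} (hx : x ∈ (chartAt E x₀).source) :
    ((tangentBundleCore 𝓘(ℝ, E) (Cov hf)).coordChange (achart E x₀) (achart E x) x : E →L[ℝ] E) =
      (tangentBundleCore 𝓘(ℝ, E) M).coordChange (achart E (Cov.p hf x₀)) (achart E (Cov.p hf x))
        (Cov.p hf x) := by
  rw [tangentBundleCore_coordChange_achart, tangentBundleCore_coordChange_achart]
  have h0 := (Cov.mem_chart_source_iff hf).1 hx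
  have h1 : extChartAt 𝓘(ℝ, E) x₀ x ∈ (extChartAt 𝓘(ℝ, E) x₀).target :=
    (extChartAt 𝓘(ℝ, E) x₀).map_source (by rwa [extChartAt_source])
  have h2 : (extChartAt 𝓘(ℝ, E) x₀).target ∈ 𝓝 (extChartAt 𝓘(ℝ, E) x₀ x) :=
    (isOpen_extChartAt_target x₀).mem_nhds h1
  have h3 : ∀ᶠ y in 𝓝 (extChartAt 𝓘(ℝ, E) x₀ x),
      (extChartAt 𝓘(ℝ, E) x ∘ (extChartAt 𝓘(ℝ, E) x₀).symm) y =
        (extChartAt 𝓘(ℝ, E) (Cov.p hf x) ∘ (extChartAt 𝓘(ℝ, E) (Cov.p hf x₀)).symm) y := by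
    filter_upwards [h2] with y hy
    have h4 : y ∈ (chartAt E (Cov.p hf x₀)).target ∧
        (chartAt E (Cov.p hf x₀)).symm y ∈ (Cov.loc hf x₀).target := by
      simpa [extChartAt, Cov.chartAt_eq] using hy
    rw [Function.comp_apply, Function.comp_apply, Cov.extChartAt_apply]
    congr 1
    change Cov.p hf ((Cov.loc hf x₀).symm ((chartAt E (Cov.p hf x₀)).symm y)) =
      (chartAt E (Cov.p hf x₀)).symm y
    have := OpenPartialHomeomorph.right_inv _ h4.2
    rwa [Cov.loc_eq] at this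
  have h5 : extChartAt 𝓘(ℝ, E) x₀ x = extChartAt 𝓘(ℝ, E) (Cov.p hf x₀) (Cov.p hf x) :=
    Cov.extChartAt_apply hf x₀ x
  rw [← h5]
  refine Filter.EventuallyEq.fderivWithin_eq ?_ ?_
  · exact h3.filter_mono nhdsWithin_le_nhds
  · exact h3.self_of_nhds

end core

section metric

variable [RiemannianBundle (fun x : M => TangentSpace 𝓘(ℝ, E) x)] (hf : IsLocalHomeomorph f)

/-- the pulled back Riemannian metric -/
noncomputable instance instRiemannianCov :
    RiemannianBundle (fun x : Cov hf => TangentSpace 𝓘(ℝ, E) x) where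
  g :=
    { inner := fun x => (RiemannianBundle.g (E := fun x : M => TangentSpace 𝓘(ℝ, E) x)).inner
        (Cov.p hf x)
      symm := fun x => (RiemannianBundle.g (E := fun x : M => TangentSpace 𝓘(ℝ, E) x)).symm
        (Cov.p hf x)
      pos := fun x => (RiemannianBundle.g (E := fun x : M => TangentSpace 𝓘(ℝ, E) x)).pos
        (Cov.p hf x)
      continuousAt := fun x =>
        (RiemannianBundle.g (E := fun x : M => TangentSpace 𝓘(ℝ, E) x)).continuousAt (Cov.p hf x)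
      isVonNBounded := fun x =>
        (RiemannianBundle.g (E := fun x : M => TangentSpace 𝓘(ℝ, E) x)).isVonNBounded
          (Cov.p hf x) }

theorem Cov.inner_eq (x : Cov hf) (v w : TangentSpace 𝓘(ℝ, E) x) :
    inner ℝ v w = inner ℝ (show TangentSpace 𝓘(ℝ, E) (Cov.p hf x) from v)
      (show TangentSpace 𝓘(ℝ, E) (Cov.p hf x) from w) := rfl

theorem Cov.norm_eq (x : Cov hf) (v : TangentSpace 𝓘(ℝ, E) x) :
    ‖v‖ = ‖(show TangentSpace 𝓘(ℝ, E) (Cov.p hf x) from v)‖ := rfl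

theorem Cov.enorm_eq (x : Cov hf) (v : TangentSpace 𝓘(ℝ, E) x) :
    ‖v‖ₑ = ‖(show TangentSpace 𝓘(ℝ, E) (Cov.p hf x) from v)‖ₑ := rfl

end metric

section smooth

variable [IsManifold 𝓘(ℝ, E) ∞ M] (hf : IsLocalHomeomorph f)

theorem Cov.symm_eq {x₀ x : Cov hf} (hx : x ∈ (chartAt E x₀).source) (v : E) :
    ((trivializationAt E (TangentSpace 𝓘(ℝ, E)) x₀).symm x v : E) =
      (trivializationAt E (TangentSpace 𝓘(ℝ, E)) (Cov.p hf x₀)).symm (Cov.p hf x) v := by
  have h0 := ((Cov.mem_chart_source_iff hf).1 hx).2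
  have h1 := TangentBundle.symmL_trivializationAt_eq_core (I := 𝓘(ℝ, E)) hx
  have h2 := TangentBundle.symmL_trivializationAt_eq_core (I := 𝓘(ℝ, E)) h0
  have h3 := DFunLike.congr_fun h1 v
  have h4 := DFunLike.congr_fun h2 v
  have h5 := (Trivialization.symmL_apply (R := ℝ) (trivializationAt E (TangentSpace 𝓘(ℝ, E)) x₀)
    (b := x) hx v).symm.trans h3
  have h6 := (Trivialization.symmL_apply (R := ℝ)
    (trivializationAt E (TangentSpace 𝓘(ℝ, E)) (Cov.p hf x₀)) (b := Cov.p hf x) h0 v).symm.trans h4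
  rw [h5, h6]
  exact DFunLike.congr_fun (Cov.coordChange hf hx) v

variable [RiemannianBundle (fun x : M => TangentSpace 𝓘(ℝ, E) x)]
  [h : IsContMDiffRiemannianBundle 𝓘(ℝ, E) ∞ E (fun x : M => TangentSpace 𝓘(ℝ, E) x)]

set_option backward.isDefEq.respectTransparency false in
instance instContMDiffRiemannianCov :
    IsContMDiffRiemannianBundle 𝓘(ℝ, E) ∞ E (fun x : Cov hf => TangentSpace 𝓘(ℝ, E) x) := by
  obtain ⟨g, hg, hg'⟩ := h.exists_contMDiff
  refine ⟨fun x => g (Cov.p hf x), ?_, fun x v w => hg' (Cov.p hf x) v w⟩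
  intro x₀
  rw [contMDiffAt_section]
  have h1 := (hg (Cov.p hf x₀))
  rw [contMDiffAt_section] at h1
  have h2 := h1.comp x₀ (Cov.contMDiff_p hf x₀)
  refine h2.congr_of_eventuallyEq ?_
  filter_upwards [chart_source_mem_nhds E x₀] with x hx
  have h0 := ((Cov.mem_chart_source_iff hf).1 hx).2
  rw [Function.comp_apply, hom_trivializationAt_apply, hom_trivializationAt_apply]
  ext v w
  have e1 := inCoordinates_apply_eq₂ (𝕜 := ℝ) (F₁ := E) (F₂ := E) (F₃ := ℝ)
    (E₁ := fun x : Cov hf => TangentSpace 𝓘(ℝ, E) x)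
    (E₂ := fun x : Cov hf => TangentSpace 𝓘(ℝ, E) x) (E₃ := fun _ : Cov hf => ℝ)
    (x₀ := x₀) (x := x) (ϕ := g (Cov.p hf x)) (v := v) (w := w) hx hx (mem_univ _)
  have e2 := inCoordinates_apply_eq₂ (𝕜 := ℝ) (F₁ := E) (F₂ := E) (F₃ := ℝ)
    (E₁ := fun x : M => TangentSpace 𝓘(ℝ, E) x)
    (E₂ := fun x : M => TangentSpace 𝓘(ℝ, E) x) (E₃ := fun _ : M => ℝ)
    (x₀ := Cov.p hf x₀) (x := Cov.p hf x) (ϕ := g (Cov.p hf x)) (v := v) (w := w) h0 h0
    (mem_univ _)
  refine e1.trans (Eq.trans ?_ e2.symm)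
  have h3 := Cov.symm_eq hf hx v
  have h4 := Cov.symm_eq hf hx w
  have h5 : (trivializationAt ℝ (fun _ : Cov hf => ℝ) x₀).linearMapAt ℝ x = LinearMap.id := by
    ext; simp
  have h6 : (trivializationAt ℝ (fun _ : M => ℝ) (Cov.p hf x₀)).linearMapAt ℝ (Cov.p hf x) =
      LinearMap.id := by
    ext; simp
  rw [h5, h6, LinearMap.id_apply, LinearMap.id_apply]
  exact congrArg₂ (fun a b : E => (g (Cov.p hf x) : E →L[ℝ] E →L[ℝ] ℝ) a b) h3 h4

end smooth

end Vale.Agent.P216.H494
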