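import Mathlib.Analysis.Convex.SimplicialComplex.AffineIndependentUnion
import Mathlib.Analysis.Convex.StdSimplex
import Mathlib.Topology.MetricSpace.Basic
import Mathlib.Tactic

/-!
# The Rips complex of a finite family of points (P216-D, block [TRI])

`rips p δ` : the simplicial complex in `Fin N → ℝ` whose simplices are the sets of basis vectors
of index sets `s` with `dist (p a) (p b) < δ` for `a, b ∈ s`.
-/

open Set Finset

namespace Vale.Agent.P216.H494.Dom

variable {M : Type*} [MetricSpace M] {N : ℕ}

/-- The abstract complex. -/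
def ripsA (p : Fin N → M) (δ : ℝ) : PreAbstractSimplicialComplex (Fin N) where
  faces := {s | s.Nonempty ∧ ∀ a ∈ s, ∀ b ∈ s, dist (p a) (p b) < δ}
  isRelLowerSet_faces := fun {_} hs => ⟨hs.1, fun _ ht htn =>
    ⟨htn, fun a ha b hb => hs.2 a (ht ha) b (ht hb)⟩⟩

/-- The basis vector. -/
noncomputable def bv (i : Fin N) : Fin N → ℝ := Pi.single i (1 : ℝ)

theorem bv_injective : Function.Injective (bv : Fin N → Fin N → ℝ) := by
  intro i j h
  by_contra hne
  have := congrFun h i
  rw [bv, bv, Pi.single_eq_same, Pi.single_eq_of_ne hne] at this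
  exact one_ne_zero this

theorem affineIndependent_bv :
    AffineIndependent ℝ (Subtype.val : Set.range (bv : Fin N → Fin N → ℝ) → Fin N → ℝ) := by
  have h : LinearIndependent ℝ (bv : Fin N → Fin N → ℝ) := by
    have := (Pi.basisFun ℝ (Fin N)).linearIndependent
    convert this using 1
    ext i j
    rw [Pi.basisFun_apply]
    rfl
  exact h.affineIndependent.range

open Classical in
/-- The geometric complex. -/
noncomputable def rips (p : Fin N → M) (δ : ℝ) : Geometry.SimplicialComplex ℝ (Fin N → ℝ) :=
  Geometry.SimplicialComplex.ofAffineIndependent ((ripsA p δ).map bv) (by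
    refine affineIndependent_bv.mono fun x hx => ?_
    simp only [Set.mem_iUnion, Finset.mem_coe] at hx
    obtain ⟨s, ⟨t, _, rfl⟩, hx⟩ := hx
    obtain ⟨i, _, rfl⟩ := Finset.mem_image.1 hx
    exact ⟨i, rfl⟩)

theorem rips_finite (p : Fin N → M) (δ : ℝ) : (rips p δ).faces.Finite := by
  classical
  have : (rips p δ).faces ⊆ (fun s : Finset (Fin N) => s.image bv) '' (Set.univ) := by
    rintro _ ⟨t, _, rfl⟩
    exact ⟨t, trivial, rfl⟩
  exact (Set.finite_univ.image _).subset this

theorem sum_bv (w : Fin N → ℝ) : ∑ i, w i • (bv i : Fin N → ℝ) = w := by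
  funext j
  rw [Finset.sum_apply, Finset.sum_eq_single j]
  · simp [bv]
  · intro i _ hij
    rw [Pi.smul_apply, bv, Pi.single_eq_of_ne (Ne.symm hij), smul_zero]
  · intro h
    exact absurd (Finset.mem_univ _) h

/-- The points of the space of the complex. -/
theorem mem_rips {p : Fin N → M} {δ : ℝ} {w : Fin N → ℝ} :
    w ∈ (rips p δ).space ↔ (∀ i, 0 ≤ w i) ∧ ∑ i, w i = 1 ∧
      ∀ a b, w a ≠ 0 → w b ≠ 0 → dist (p a) (p b) < δ := by
  classical
  rw [Geometry.SimplicialComplex.mem_space_iff]
  constructor
  · rintro ⟨s, ⟨t, ht, rfl⟩, hw⟩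
    simp only at hw
    rw [Finset.coe_image] at hw
    have h1 : convexHull ℝ ((bv : Fin N → Fin N → ℝ) '' (t : Set (Fin N))) ⊆
        {w | (∀ i, 0 ≤ w i) ∧ ∑ i, w i = 1 ∧ ∀ a, w a ≠ 0 → a ∈ t} := by
      refine convexHull_min ?_ ?_
      · rintro _ ⟨i, hi, rfl⟩
        refine ⟨fun j => ?_, ?_, fun a ha => ?_⟩
        · rw [bv]
          rcases eq_or_ne i j with rfl | hij
          · simp
          · rw [Pi.single_eq_of_ne (Ne.symm hij)]
        · rw [bv, Finset.sum_pi_single']
          simp
        · by_contra hat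
          apply ha
          rw [bv, Pi.single_eq_of_ne]
          rintro rfl
          exact hat hi
      · intro x hx y hy α β hα hβ hαβ
        refine ⟨fun i => ?_, ?_, fun a ha => ?_⟩
        · simp only [Pi.add_apply, Pi.smul_apply, smul_eq_mul]
          exact add_nonneg (mul_nonneg hα (hx.1 i)) (mul_nonneg hβ (hy.1 i))
        · simp only [Pi.add_apply, Pi.smul_apply, smul_eq_mul, Finset.sum_add_distrib,
            ← Finset.mul_sum]
          rw [hx.2.1, hy.2.1, mul_one, mul_one, hαβ]
        · by_contra hat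
          apply ha
          have h1 : x a = 0 := by
            by_contra h
            exact hat (hx.2.2 a h)
          have h2 : y a = 0 := by
            by_contra h
            exact hat (hy.2.2 a h)
          simp [h1, h2]
    have h2 := h1 hw
    exact ⟨h2.1, h2.2.1, fun a b ha hb => ht.2 a (h2.2.2 a ha) b (h2.2.2 b hb)⟩
  · rintro ⟨h0, h1, h2⟩
    set t : Finset (Fin N) := Finset.univ.filter fun i => w i ≠ 0 with ht
    have htn : t.Nonempty := by
      by_contra hne
      rw [Finset.not_nonempty_iff_eq_empty] at hne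
      have : ∑ i, w i = 0 := Finset.sum_eq_zero fun i _ => by
        by_contra h
        have : i ∈ t := Finset.mem_filter.2 ⟨Finset.mem_univ _, h⟩
        rw [hne] at this
        exact absurd this (Finset.notMem_empty _)
      rw [this] at h1
      exact zero_ne_one h1
    refine ⟨t.image bv, ⟨t, ⟨htn, fun a ha b hb => h2 a b (Finset.mem_filter.1 ha).2
      (Finset.mem_filter.1 hb).2⟩, rfl⟩, ?_⟩
    rw [← sum_bv w]
    have hsum : ∑ i, w i • (bv i : Fin N → ℝ) = ∑ i ∈ t, w i • (bv i : Fin N → ℝ) := by
      rw [ht, Finset.sum_filter]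
      refine Finset.sum_congr rfl fun i _ => ?_
      by_cases h : w i = 0
      · rw [if_neg (not_not.2 h), h, zero_smul]
      · rw [if_pos h]
    have hsum' : ∑ i ∈ t, w i = 1 := by
      rw [← h1, ht, Finset.sum_filter]
      refine Finset.sum_congr rfl fun i _ => ?_
      by_cases h : w i = 0
      · rw [if_neg (not_not.2 h), h]
      · rw [if_pos h]
    rw [hsum]
    exact (convex_convexHull ℝ _).sum_mem (fun i _ => h0 i) hsum' fun i hi =>
      subset_convexHull ℝ _ (Finset.mem_coe.2 (Finset.mem_image_of_mem _ hi))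

end Vale.Agent.P216.H494.Dom
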