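import Vale.Agent.P216.LS.Seg
import Vale.Agent.P216.H494.DomCx
import Mathlib.Topology.Homotopy.Basic

/-!
# The iterated geodesic join (P216-D, block [TRI])

`av m₀ p w j` : the running weighted average of the points `p i` with the weights `w i`, `i < j`.
-/

open Set Filter Topology

namespace Vale.Agent.P216.H494.Dom

open LS

variable {M : Type*} [MetricSpace M] {N : ℕ} {ρ δ : ℝ}

/-- `dist x (seg x y t) ≤ t * dist x y` for all `t ∈ [0, 1]`. -/
theorem dist_seg_le_mul (x y : M) {t : ℝ} (ht : 0 ≤ t) :
    dist x (seg x y t) ≤ t * dist x y := by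
  classical
  rw [seg]
  split_ifs with h
  · exact h.choose_spec.1.le
  · rw [dist_self]
    positivity

/-- The weight as a function on `ℕ`. -/
def wt (w : Fin N → ℝ) (j : ℕ) : ℝ := if h : j < N then w ⟨j, h⟩ else 0

/-- The partial sums of the weights. -/
def ps (w : Fin N → ℝ) (j : ℕ) : ℝ := ∑ i ∈ Finset.range j, wt w i

/-- The points as a function on `ℕ`. -/
def pt (m₀ : M) (p : Fin N → M) (j : ℕ) : M := if h : j < N then p ⟨j, h⟩ else m₀

/-- The running average. -/
noncomputable def av (m₀ : M) (p : Fin N → M) (w : Fin N → ℝ) : ℕ → M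
  | 0 => m₀
  | j + 1 => seg (av m₀ p w j) (pt m₀ p j) (wt w j / ps w (j + 1))

/-- The number of indices `< j` with positive weight. -/
noncomputable def cnt (w : Fin N → ℝ) (j : ℕ) : ℕ := by
  classical exact ((Finset.range j).filter fun i => wt w i ≠ 0).card

theorem ps_succ (w : Fin N → ℝ) (j : ℕ) : ps w (j + 1) = ps w j + wt w j :=
  Finset.sum_range_succ _ _

theorem ps_N (w : Fin N → ℝ) : ps w N = ∑ i, w i := by
  rw [ps, Finset.sum_range]
  exact Finset.sum_congr rfl fun i _ => by rw [wt, dif_pos i.2]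

theorem wt_nonneg {w : Fin N → ℝ} (hw : ∀ i, 0 ≤ w i) (j : ℕ) : 0 ≤ wt w j := by
  rw [wt]
  split_ifs
  · exact hw _
  · exact le_rfl

theorem ps_nonneg {w : Fin N → ℝ} (hw : ∀ i, 0 ≤ w i) (j : ℕ) : 0 ≤ ps w j :=
  Finset.sum_nonneg fun i _ => wt_nonneg hw i

theorem continuous_wt (j : ℕ) : Continuous fun w : Fin N → ℝ => wt w j := by
  unfold wt
  split_ifs
  · exact continuous_apply _
  · exact continuous_const

theorem continuous_ps (j : ℕ) : Continuous fun w : Fin N → ℝ => ps w j :=
  continuous_finsetSum _ fun i _ => continuous_wt i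

theorem cnt_succ (w : Fin N → ℝ) (j : ℕ) :
    cnt w (j + 1) = cnt w j + if wt w j = 0 then 0 else 1 := by
  classical
  unfold cnt
  rw [Finset.range_add_one, Finset.filter_insert]
  by_cases h : wt w j = 0
  · rw [if_neg (not_not.2 h), if_pos h, add_zero]
  · rw [if_pos h, if_neg h, Finset.card_insert_of_notMem]
    simp

/-- The weights of the space of the Rips complex. -/
theorem close_of_wt {m₀ : M} {p : Fin N → M} {w : Fin N → ℝ} (hw : w ∈ (rips p δ).space) {i j : ℕ}
    (hi : wt w i ≠ 0) (hj : wt w j ≠ 0) : dist (pt m₀ p i) (pt m₀ p j) < δ := by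
  obtain ⟨_, _, h⟩ := mem_rips.1 hw
  have h1 : i < N := by
    by_contra hc
    rw [wt, dif_neg hc] at hi
    exact hi rfl
  have h2 : j < N := by
    by_contra hc
    rw [wt, dif_neg hc] at hj
    exact hj rfl
  rw [wt, dif_pos h1] at hi
  rw [wt, dif_pos h2] at hj
  rw [pt, pt, dif_pos h1, dif_pos h2]
  exact h _ _ hi hj

theorem frac_mem {w : Fin N → ℝ} (hw : ∀ i, 0 ≤ w i) (j : ℕ) :
    wt w j / ps w (j + 1) ∈ Icc (0 : ℝ) 1 := by
  have h1 := wt_nonneg hw j
  have h2 := ps_nonneg hw j
  rw [ps_succ]
  exact ⟨div_nonneg h1 (by linarith), div_le_one_of_le₀ (by linarith) (by linarith)⟩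

/-- The distance of the running average to the points of the support. -/
theorem dist_av_lt (h : UniqSeg M ρ) (hδ : 0 < δ) {m₀ : M} {p : Fin N → M} {w : Fin N → ℝ}
    (hw : w ∈ (rips p δ).space) (hc : (cnt w N : ℝ) * δ ≤ ρ) (j : ℕ) (hj : j ≤ N)
    (hp : 0 < ps w j) (i : ℕ) (hi : wt w i ≠ 0) :
    dist (av m₀ p w j) (pt m₀ p i) < cnt w j * δ := by
  have h0 := (mem_rips.1 hw).1
  have mono : ∀ a b : ℕ, a ≤ b → cnt w a ≤ cnt w b := by
    intro a b hab
    induction b, hab using Nat.le_induction with
    | base => exact le_rfl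
    | succ b _ ih =>
      rw [cnt_succ]
      exact ih.trans (Nat.le_add_right _ _)
  induction j generalizing i with
  | zero => simp [ps] at hp
  | succ j ih =>
    have h1 := wt_nonneg h0 j
    have h2 := ps_nonneg h0 j
    have hf := frac_mem h0 j
    rw [av]
    by_cases hz : wt w j = 0
    · rw [ps_succ, hz, add_zero] at hp
      rw [hz, zero_div, seg_zero, cnt_succ, if_pos hz, add_zero]
      exact ih (by omega) hp i hi
    · have hzp : 0 < wt w j := lt_of_le_of_ne h1 (Ne.symm hz)
      rw [cnt_succ, if_neg hz]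
      push_cast
      have h3 := close_of_wt (m₀ := m₀) hw hz hi
      rcases h2.eq_or_lt with h4 | h4
      · rw [ps_succ, ← h4, zero_add, div_self hz, seg_one]
        refine h3.trans_le ?_
        have : (0 : ℝ) ≤ cnt w j := Nat.cast_nonneg _
        nlinarith
      · have h5 := ih (by omega) h4 j hz
        have h6 : (cnt w j : ℝ) * δ ≤ ρ := by
          refine le_trans ?_ hc
          exact mul_le_mul_of_nonneg_right (by exact_mod_cast mono j N (by omega)) hδ.le
        have h7 := dist_seg_right h (h5.trans_le h6) hf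
        have h8 : (1 - wt w j / ps w (j + 1)) * dist (av m₀ p w j) (pt m₀ p j) ≤
            dist (av m₀ p w j) (pt m₀ p j) := by
          have := hf.1
          nlinarith [dist_nonneg (x := av m₀ p w j) (y := pt m₀ p j)]
        calc dist (seg (av m₀ p w j) (pt m₀ p j) (wt w j / ps w (j + 1))) (pt m₀ p i)
            ≤ dist (seg (av m₀ p w j) (pt m₀ p j) (wt w j / ps w (j + 1))) (pt m₀ p j) +
              dist (pt m₀ p j) (pt m₀ p i) := dist_triangle _ _ _
          _ < cnt w j * δ + δ := by
              rw [h7]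
              exact add_lt_add (h8.trans_lt h5) h3
          _ = (cnt w j + 1) * δ := by ring

/-- Continuity of the running average. -/
theorem continuousWithinAt_av [CompactSpace M] (h : UniqSeg M ρ) (hδ : 0 < δ) {m₀ : M}
    {p : Fin N → M} (hc : ∀ w ∈ (rips p δ).space, (cnt w N : ℝ) * δ ≤ ρ)
    {w₀ : Fin N → ℝ} (hw₀ : w₀ ∈ (rips p δ).space) (j : ℕ) (hj : j ≤ N) (hp : 0 < ps w₀ j) :
    ContinuousWithinAt (fun w => av m₀ p w j) (rips p δ).space w₀ := by
  induction j with
  | zero => simp [ps] at hp
  | succ j ih =>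
    have h0 := (mem_rips.1 hw₀).1
    have h1 := wt_nonneg h0 j
    have h2 := ps_nonneg h0 j
    have hf := frac_mem h0 j
    have mono : ∀ w : Fin N → ℝ, (cnt w j : ℝ) * δ ≤ cnt w N * δ := fun w => by
      refine mul_le_mul_of_nonneg_right ?_ hδ.le
      have : cnt w j ≤ cnt w N := by
        classical
        refine Finset.card_le_card (Finset.filter_subset_filter _ ?_)
        intro i hi
        rw [Finset.mem_range] at hi ⊢
        omega
      exact_mod_cast this
    -- the fraction
    have ht : Tendsto (fun w : Fin N → ℝ => wt w j / ps w (j + 1)) (𝓝[(rips p δ).space] w₀)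
        (𝓝 (wt w₀ j / ps w₀ (j + 1))) :=
      (((continuous_wt j).tendsto w₀).div ((continuous_ps (j + 1)).tendsto w₀)
        hp.ne').mono_left nhdsWithin_le_nhds
    have hmem : ∀ᶠ w in 𝓝[(rips p δ).space] w₀, w ∈ (rips p δ).space := self_mem_nhdsWithin
    have hD : ∀ x y : M, dist x y ≤ Metric.diam (univ : Set M) := fun x y =>
      Metric.dist_le_diam_of_mem isCompact_univ.isBounded trivial trivial
    by_cases hz : wt w₀ j = 0
    · -- the new weight vanishes
      have hp' : 0 < ps w₀ j := by rwa [ps_succ, hz, add_zero] at hp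
      have hA := ih (by omega) hp'
      have e0 : av m₀ p w₀ (j + 1) = av m₀ p w₀ j := by rw [av, hz, zero_div, seg_zero]
      rw [ContinuousWithinAt, e0, tendsto_iff_dist_tendsto_zero]
      rw [hz, zero_div] at ht
      have hA' := tendsto_iff_dist_tendsto_zero.1 hA
      have hB : Tendsto (fun w : Fin N → ℝ => wt w j / ps w (j + 1) *
          Metric.diam (univ : Set M) + dist (av m₀ p w j) (av m₀ p w₀ j))
          (𝓝[(rips p δ).space] w₀) (𝓝 0) := by
        have := (ht.mul_const (Metric.diam (univ : Set M))).add hA'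
        rwa [zero_mul, add_zero] at this
      refine squeeze_zero' (Eventually.of_forall fun w => dist_nonneg) ?_ hB
      filter_upwards [hmem] with w hw
      have hfw := frac_mem (mem_rips.1 hw).1 j
      have h3 := dist_seg_le_mul (av m₀ p w j) (pt m₀ p j) hfw.1
      calc dist (av m₀ p w (j + 1)) (av m₀ p w₀ j)
          ≤ dist (av m₀ p w (j + 1)) (av m₀ p w j) + dist (av m₀ p w j) (av m₀ p w₀ j) :=
            dist_triangle _ _ _
        _ ≤ _ := by
            refine add_le_add_left ?_ _
            rw [dist_comm, av]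
            exact h3.trans (mul_le_mul_of_nonneg_left (hD _ _) hfw.1)
    · have hzp : 0 < wt w₀ j := lt_of_le_of_ne h1 (Ne.symm hz)
      have hev : ∀ᶠ w in 𝓝[(rips p δ).space] w₀, 0 < wt w j :=
        (((continuous_wt j).tendsto w₀).mono_left nhdsWithin_le_nhds).eventually_const_lt hzp
      rcases h2.eq_or_lt with h4 | h4
      · -- the fraction tends to one
        have e1 : wt w₀ j / ps w₀ (j + 1) = 1 := by rw [ps_succ, ← h4, zero_add, div_self hz]
        have e0 : av m₀ p w₀ (j + 1) = pt m₀ p j := by rw [av, e1, seg_one]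
        rw [ContinuousWithinAt, e0, tendsto_iff_dist_tendsto_zero]
        rw [e1] at ht
        have hB : Tendsto (fun w : Fin N → ℝ => (1 - wt w j / ps w (j + 1)) * ρ)
            (𝓝[(rips p δ).space] w₀) (𝓝 0) := by
          have := (tendsto_const_nhds (x := (1 : ℝ))).sub ht
          have := this.mul_const ρ
          rwa [sub_self, zero_mul] at this
        refine squeeze_zero' (Eventually.of_forall fun w => dist_nonneg) ?_ hB
        filter_upwards [hmem, hev] with w hw hwj
        have hfw := frac_mem (mem_rips.1 hw).1 j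
        rw [av]
        rcases (ps_nonneg (mem_rips.1 hw).1 j).eq_or_lt with h5 | h5
        · rw [ps_succ, ← h5, zero_add, div_self hwj.ne', seg_one, dist_self, sub_self, zero_mul]
        · have h6 := (dist_av_lt h hδ (m₀ := m₀) hw (hc w hw) j (by omega) h5 j hwj.ne').trans_le
            ((mono w).trans (hc w hw))
          rw [dist_seg_right h h6 hfw]
          exact mul_le_mul_of_nonneg_left h6.le (by linarith [hfw.2])
      · -- the regular case
        have hA := ih (by omega) h4
        have h6 := (dist_av_lt h hδ (m₀ := m₀) hw₀ (hc w₀ hw₀) j (by omega) h4 j hz).trans_le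
          ((mono w₀).trans (hc w₀ hw₀))
        have hcs := (continuousOn_seg h (M := M)) (av m₀ p w₀ j, pt m₀ p j,
          wt w₀ j / ps w₀ (j + 1)) ⟨h6, hf⟩
        have hev2 : ∀ᶠ w in 𝓝[(rips p δ).space] w₀, 0 < ps w j :=
          (((continuous_ps j).tendsto w₀).mono_left nhdsWithin_le_nhds).eventually_const_lt h4
        have hT : Tendsto (fun w : Fin N → ℝ => (av m₀ p w j, pt m₀ p j, wt w j / ps w (j + 1)))
            (𝓝[(rips p δ).space] w₀) (𝓝[{q : M × M × ℝ | dist q.1 q.2.1 < ρ ∧
              q.2.2 ∈ Icc (0 : ℝ) 1}] (av m₀ p w₀ j, pt m₀ p j, wt w₀ j / ps w₀ (j + 1))) := by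
          refine tendsto_nhdsWithin_iff.2 ⟨hA.prodMk_nhds (tendsto_const_nhds.prodMk_nhds ht), ?_⟩
          filter_upwards [hmem, hev, hev2] with w hw hwj hwp
          exact ⟨(dist_av_lt h hδ (m₀ := m₀) hw (hc w hw) j (by omega) hwp j hwj.ne').trans_le
            ((mono w).trans (hc w hw)), frac_mem (mem_rips.1 hw).1 j⟩
        exact Filter.Tendsto.comp hcs hT

/-- The iterated join on the space of the Rips complex. -/
theorem continuousOn_av [CompactSpace M] (h : UniqSeg M ρ) (hδ : 0 < δ) {m₀ : M}
    {p : Fin N → M} (hc : ∀ w ∈ (rips p δ).space, (cnt w N : ℝ) * δ ≤ ρ) :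
    ContinuousOn (fun w => av m₀ p w N) (rips p δ).space := fun w hw =>
  continuousWithinAt_av h hδ hc hw N le_rfl (by
    rw [ps_N, (mem_rips.1 hw).2.1]
    exact one_pos)

end Vale.Agent.P216.H494.Dom
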