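import Vale.Agent.P216.H494.DomAv

/-!
# Domination by a finite simplicial complex (P216-D, block [TRI])

`exists_dom_of_doubling` : a compact metric space with unique short segments and a doubling bound
is dominated by a finite simplicial complex.
-/

open Set Filter Topology

namespace Vale.Agent.P216.H494.Dom

open LS

/-- A doubling bound at small scales. -/
def Doubling (M : Type*) [MetricSpace M] : Prop :=
  ∃ (δ₀ : ℝ) (K : ℕ), 0 < δ₀ ∧ ∀ δ : ℝ, 0 < δ → δ ≤ δ₀ → ∀ s : Finset M,
    (∀ a ∈ s, ∀ b ∈ s, dist a b < δ) → (∀ a ∈ s, ∀ b ∈ s, a ≠ b → δ / 4 ≤ dist a b) →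
    s.card ≤ K

variable {M : Type*} [MetricSpace M]

/-- A finite net. -/
theorem exists_net [CompactSpace M] {r : ℝ} (hr : 0 < r) :
    ∃ (N : ℕ) (p : Fin N → M), (∀ i j, i ≠ j → r ≤ dist (p i) (p j)) ∧
      ∀ x, ∃ i, dist x (p i) < r := by
  classical
  obtain ⟨t, -, htf, ht⟩ := finite_cover_balls_of_compact (isCompact_univ (X := M)) (half_pos hr)
  -- a bound for the number of points
  have hbd : ∀ s : Finset M, (∀ a ∈ s, ∀ b ∈ s, a ≠ b → r ≤ dist a b) →
      s.card ≤ htf.toFinset.card := by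
    intro s hs
    have hch : ∀ x : M, ∃ c ∈ htf.toFinset, dist x c < r / 2 := fun x => by
      obtain ⟨c, hc, hx⟩ := mem_iUnion₂.1 (ht (mem_univ x))
      exact ⟨c, htf.mem_toFinset.2 hc, hx⟩
    choose f hf hf' using hch
    refine Finset.card_le_card_of_injOn f (fun x _ => hf x) fun x hx y hy hxy => ?_
    by_contra hne
    have h1 := hs x hx y hy hne
    have h2 := dist_triangle_right x y (f x)
    have h3 := hf' x
    have h4 := hf' y
    rw [← hxy] at h4
    linarith
  -- a maximal separated set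
  obtain ⟨s, hs, hmax⟩ : ∃ s : Finset M, (∀ a ∈ s, ∀ b ∈ s, a ≠ b → r ≤ dist a b) ∧
      ∀ s' : Finset M, (∀ a ∈ s', ∀ b ∈ s', a ≠ b → r ≤ dist a b) → s'.card ≤ s.card := by
    let P : ℕ → Prop := fun n => ∃ s : Finset M, (∀ a ∈ s, ∀ b ∈ s, a ≠ b → r ≤ dist a b) ∧
      s.card = n
    have hP : P 0 := ⟨∅, by simp, rfl⟩
    have hB : ∀ n, P n → n ≤ htf.toFinset.card := by
      rintro n ⟨s, hs, rfl⟩
      exact hbd s hs
    obtain ⟨s, hs, hc⟩ := Nat.findGreatest_spec (P := P) (Nat.zero_le htf.toFinset.card) hP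
    refine ⟨s, hs, fun s' hs' => ?_⟩
    rw [hc]
    exact Nat.le_findGreatest (hbd s' hs') ⟨s', hs', rfl⟩
  have hcov : ∀ x, ∃ a ∈ s, dist x a < r := by
    intro x
    by_contra hx
    push Not at hx
    have hxs : x ∉ s := fun h => by
      have := hx x h
      rw [dist_self] at this
      linarith
    have h1 := hmax (insert x s) (by
      intro a ha b hb hab
      rcases Finset.mem_insert.1 ha with ha1 | ha1
      · rcases Finset.mem_insert.1 hb with hb1 | hb1
        · exact absurd (ha1.trans hb1.symm) hab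
        · rw [ha1]
          exact hx b hb1
      · rcases Finset.mem_insert.1 hb with hb1 | hb1
        · rw [hb1, dist_comm]
          exact hx a ha1
        · exact hs a ha1 b hb1 hab)
    rw [Finset.card_insert_of_notMem hxs] at h1
    omega
  refine ⟨s.card, fun i => (s.equivFin.symm i : M), fun i j hij => ?_, fun x => ?_⟩
  · refine hs _ (s.equivFin.symm i).2 _ (s.equivFin.symm j).2 fun h => hij ?_
    exact s.equivFin.symm.injective (Subtype.ext h)
  · obtain ⟨a, ha, h⟩ := hcov x
    exact ⟨s.equivFin ⟨a, ha⟩, by simpa using h⟩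

variable {N : ℕ} {p : Fin N → M} {δ ρ : ℝ}

/-- The bump function. -/
noncomputable def bump (p : Fin N → M) (δ : ℝ) (i : Fin N) (x : M) : ℝ :=
  max 0 (δ / 2 - dist x (p i))

/-- The partition of unity. -/
noncomputable def pou (p : Fin N → M) (δ : ℝ) (x : M) (i : Fin N) : ℝ :=
  bump p δ i x / ∑ j, bump p δ j x

theorem bump_nonneg (i : Fin N) (x : M) : 0 ≤ bump p δ i x := le_max_left _ _

theorem continuous_bump (i : Fin N) : Continuous (bump p δ i) :=
  continuous_const.max (continuous_const.sub (continuous_id.dist continuous_const))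

theorem sum_bump_pos (hp : ∀ x, ∃ i, dist x (p i) < δ / 2) (x : M) :
    0 < ∑ j, bump p δ j x := by
  obtain ⟨i, hi⟩ := hp x
  refine Finset.sum_pos' (fun j _ => bump_nonneg j x) ⟨i, Finset.mem_univ _, ?_⟩
  exact lt_max_of_lt_right (by linarith)

theorem continuous_pou (hp : ∀ x, ∃ i, dist x (p i) < δ / 2) : Continuous (pou p δ) := by
  refine continuous_pi fun i => ?_
  exact (continuous_bump i).div (continuous_finsetSum _ fun j _ => continuous_bump j)
    fun x => (sum_bump_pos hp x).ne'

theorem dist_lt_of_pou {x : M} {i : Fin N} (h : pou p δ x i ≠ 0) : dist x (p i) < δ / 2 := by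
  by_contra hc
  push Not at hc
  apply h
  rw [pou, bump, max_eq_left (by linarith), zero_div]

theorem pou_mem (hp : ∀ x, ∃ i, dist x (p i) < δ / 2) (x : M) :
    pou p δ x ∈ (rips p δ).space := by
  refine mem_rips.2 ⟨fun i => div_nonneg (bump_nonneg i x) (sum_bump_pos hp x).le, ?_,
    fun a b ha hb => ?_⟩
  · simp only [pou]
    rw [← Finset.sum_div]
    exact div_self (sum_bump_pos hp x).ne'
  · have h1 := dist_lt_of_pou ha
    have h2 := dist_lt_of_pou hb
    have h3 := dist_triangle_left (p a) (p b) x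
    linarith

/-- **Domination by a finite simplicial complex.** -/
theorem exists_dom_of_doubling [CompactSpace M] [Nonempty M] (hρ : 0 < ρ) (h : UniqSeg M ρ)
    (hd : Doubling M) : ∃ (N : ℕ) (T : Geometry.SimplicialComplex ℝ (Fin N → ℝ)),
      T.faces.Finite ∧ ∃ (i : C(M, T.space)) (r : C(T.space, M)),
        (r.comp i).Homotopic (ContinuousMap.id M) := by
  classical
  obtain ⟨δ₀, K, hδ₀, hK⟩ := hd
  set δ : ℝ := min δ₀ (ρ / (K + 2)) with hδdef
  have hK2 : (0 : ℝ) < K + 2 := by positivity
  have hδ : 0 < δ := lt_min hδ₀ (by positivity)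
  have hδρ : (K + 2) * δ ≤ ρ := by
    have h1 : δ ≤ ρ / (K + 2) := min_le_right _ _
    rwa [le_div_iff₀ hK2, mul_comm] at h1
  obtain ⟨N, p, hsep, hcov⟩ := exists_net (M := M) (r := δ / 4) (by linarith)
  obtain ⟨m₀⟩ := (inferInstance : Nonempty M)
  have hcov' : ∀ x, ∃ i, dist x (p i) < δ / 2 := fun x => by
    obtain ⟨i, hi⟩ := hcov x
    exact ⟨i, by linarith⟩
  have hinj : Function.Injective p := by
    intro i j hij
    by_contra hne
    have := hsep i j hne
    rw [hij, dist_self] at this
    linarith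
  have hcard : ∀ w ∈ (rips p δ).space, cnt w N ≤ K := by
    intro w hw
    obtain ⟨_, _, h3⟩ := mem_rips.1 hw
    set s : Finset (Fin N) := Finset.univ.filter fun i => w i ≠ 0 with hs
    have e : cnt w N ≤ (s.image p).card := by
      rw [Finset.card_image_of_injective _ hinj, cnt]
      refine Finset.card_le_card_of_injOn (fun i => if hi : i < N then (⟨i, hi⟩ : Fin N) else
        (Classical.choice (by
          obtain ⟨i, _⟩ := hcov m₀
          exact ⟨i⟩))) (fun i hi => ?_) fun i hi j hj hij => ?_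
      · obtain ⟨h4, h5⟩ := Finset.mem_filter.1 hi
        rw [Finset.mem_range] at h4
        rw [wt, dif_pos h4] at h5
        simp only [dif_pos h4]
        exact Finset.mem_coe.2 (Finset.mem_filter.2 ⟨Finset.mem_univ _, h5⟩)
      · have h4 := Finset.mem_range.1 (Finset.mem_filter.1 (Finset.mem_coe.1 hi)).1
        have h5 := Finset.mem_range.1 (Finset.mem_filter.1 (Finset.mem_coe.1 hj)).1
        simp only [dif_pos h4, dif_pos h5] at hij
        exact congrArg Fin.val hij
    refine e.trans (hK δ hδ (min_le_left _ _) _ ?_ ?_)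
    · intro a ha b hb
      obtain ⟨i, hi, rfl⟩ := Finset.mem_image.1 ha
      obtain ⟨j, hj, rfl⟩ := Finset.mem_image.1 hb
      exact h3 i j (Finset.mem_filter.1 hi).2 (Finset.mem_filter.1 hj).2
    · intro a ha b hb hab
      obtain ⟨i, hi, rfl⟩ := Finset.mem_image.1 ha
      obtain ⟨j, hj, rfl⟩ := Finset.mem_image.1 hb
      exact hsep i j fun h => hab (by rw [h])
  have hc : ∀ w ∈ (rips p δ).space, (cnt w N : ℝ) * δ ≤ ρ := fun w hw => by
    have h1 : (cnt w N : ℝ) ≤ K := by exact_mod_cast hcard w hw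
    nlinarith
  have hcont := continuousOn_av h hδ (m₀ := m₀) hc
  set T := rips p δ with hT
  let i : C(M, T.space) := ⟨fun x => ⟨pou p δ x, pou_mem hcov' x⟩,
    (continuous_pou hcov').subtype_mk _⟩
  let r : C(T.space, M) := ⟨fun w => av m₀ p w.1 N, continuousOn_iff_continuous_domRestrict.1 hcont⟩
  -- the composition is close to the identity
  have hclose : ∀ x, dist x (r (i x)) < ρ := by
    intro x
    obtain ⟨j, hj⟩ : ∃ j, pou p δ x j ≠ 0 := by
      by_contra hn
      push Not at hn
      have h1 := (mem_rips.1 (pou_mem hcov' x)).2.1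
      rw [Finset.sum_eq_zero fun j _ => hn j] at h1
      exact zero_ne_one h1
    have hw : wt (pou p δ x) j ≠ 0 := by
      rw [wt, dif_pos j.2]
      exact hj
    have h1 := dist_av_lt h hδ (m₀ := m₀) (pou_mem hcov' x) (hc _ (pou_mem hcov' x)) N le_rfl
      (by rw [ps_N, (mem_rips.1 (pou_mem hcov' x)).2.1]; exact one_pos) j hw
    rw [pt, dif_pos j.2] at h1
    have h2 := dist_lt_of_pou hj
    have h3 : (cnt (pou p δ x) N : ℝ) ≤ K := by exact_mod_cast hcard _ (pou_mem hcov' x)
    have h4 := dist_triangle_right x (av m₀ p (pou p δ x) N) (p j)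
    have h5 : (cnt (pou p δ x) N : ℝ) * δ ≤ K * δ := mul_le_mul_of_nonneg_right h3 hδ.le
    change dist x (av m₀ p (pou p δ x) N) < ρ
    nlinarith
  refine ⟨N, T, rips_finite p δ, i, r, ⟨ContinuousMap.Homotopy.symm ⟨⟨fun q =>
    seg q.2 (r (i q.2)) (q.1 : ℝ), ?_⟩, fun x => ?_, fun x => ?_⟩⟩⟩
  · rw [← continuousOn_univ]
    exact ContinuousOn.seg h continuous_snd.continuousOn
      ((r.continuous.comp i.continuous).comp continuous_snd).continuousOn
      (continuous_subtype_val.comp continuous_fst).continuousOn (fun q _ => hclose q.2)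
      fun q _ => q.1.2
  · simp
  · simp

end Vale.Agent.P216.H494.Dom
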