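import Vale.Agent.P216.L250.ToHol
import Vale.Agent.P216.L250.SweepAll
import Vale.Agent.P216.H923F.Alt
import Vale.Agent.P216.D773.IntC
import Mathlib.AlgebraicTopology.FundamentalGroupoid.SimplyConnected

/-!
# P216-E: sweeps from an integral cocycle which is not exact modulo two
-/

open Set Filter Topology
open scoped ComplexConjugate

namespace Vale.Agent.P216.H494E

open Vale.Agent.P216.L250 Vale.Agent.P216.LS Vale.Agent.P216.H288 Vale.Agent.P216.H826
open Vale.Agent.P216.H923F

/-- The block E3a + E3b (helper651): approximate square roots of the kernel if there is no sweep. -/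
def RootStmt (M : Type) [MetricSpace M] : Prop :=
  ∀ (κ : M → M → ℂ) (A r : ℝ) (h : Ker κ A r) (x₀ : M),
    (¬ ∃ b w μ, IsSweep h.toHol x₀ b w μ) →
    ∃ η > 0, ∃ (s : M → M → ℂ) (t : M → ℂ), (∀ x, ‖t x‖ = 1) ∧
      (∀ x y, dist x y < η → s x y ^ 2 = t x * κ x y * conj (t y)) ∧
      ∀ x y z, dist x y < η → dist y z < η → dist x z < η →
        ‖s x y * s y z - s x z‖ ≤ A * dist x y * dist y z

/-- The block E3c (helper539). -/
def SignStmt (M : Type) [MetricSpace M] : Prop :=
  ∀ (c : List M → ℤ) (ε : ℝ), 0 < ε →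
    (∀ x y z w : M, dist x y < ε → dist x z < ε → dist x w < ε → dist y z < ε → dist y w < ε →
      dist z w < ε → c [y, z, w] - c [x, z, w] + c [x, y, w] - c [x, y, z] = 0) →
    ∀ (b : M → M → ℤ) (v : M → M) (r₁ : ℝ), (∀ x, dist x (v x) ≤ r₁) → 3 * r₁ < ε →
    ∀ (e : M → M → ℝ) (s : M → M → ℂ) (sig : M → ℂ), (∀ x, ‖sig x‖ = 1) →
    (∀ η > 0, ∃ d > 0, ∀ x y z, dist x y < d → dist y z < d → dist x z < d →
      |e x y + e y z + e z x + ((c [v x, v y, v z] + (b (v y) (v z) - b (v x) (v z) +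
        b (v x) (v y)) : ℤ) : ℝ)| ≤ η) →
    (∀ η > 0, ∃ d > 0, ∀ x y z, dist x y < d → dist y z < d → dist x z < d →
      ‖s x y * s y z * s z x - 1‖ ≤ η) →
    (∀ η > 0, ∃ d > 0, ∀ x y, dist x y < d →
      ‖s x y ^ 2 - ex (e x y) * sig y ^ 2 * conj (sig x) ^ 2‖ ≤ η) →
    Sl.ExL (univ : Set M) 2 (fun l => ((c l : ℤ) : ZMod 2))

theorem exists_small {A η : ℝ} (hA : 0 ≤ A) (hη : 0 < η) : ∃ d > 0, d < 1 ∧ A * d ≤ η := by
  refine ⟨min (1 / 2) (η / (A + 1)), by positivity, ?_, ?_⟩
  · exact (min_le_left _ _).trans_lt (by norm_num)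
  · calc A * min (1 / 2) (η / (A + 1)) ≤ (A + 1) * (η / (A + 1)) := by
          gcongr
          · linarith
          · exact min_le_right _ _
      _ = η := by field_simp

/-- **E1 + E2 + E3**: sweeps at all points. -/
theorem exists_sweeps {M : Type} [MetricSpace M] [CompactSpace M] [Nonempty M] {ρ : ℝ} (hρ : 0 < ρ)
    (hU : UniqSeg M ρ) [PreconnectedSpace M] (hR : RootStmt M) (hS : SignStmt M) {h : ℕ}
    (hh : 1 ≤ h) (hQ : ASCoh.Monogenic M ℚ 2 h) :
    ∃ H : Hol M, ∀ x₀ : M, ∃ b w μ, IsSweep H x₀ b w μ := by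
  obtain ⟨c, hn, ⟨ε, hε, hc⟩, hne⟩ := D773.int_two hρ hU hh hQ 2
  obtain ⟨b, κ, e, j, A, r, hr, hK⟩ := exists_kerL c hε hn hc
  refine ⟨hK.ker.toHol, ?_⟩
  by_contra hno
  obtain ⟨x₀, hx₀⟩ := not_forall.1 hno
  obtain ⟨η, hη, s, t, ht, hsq, htri⟩ := hR κ _ r hK.ker x₀ hx₀
  set A' : ℝ := 2 * Real.pi * A with hA'
  have hA0 : 0 ≤ A' := hK.ker.A_nonneg
  have hs1 : ∀ x y, dist x y < η → ‖s x y‖ = 1 := fun x y hxy => by
    have h1 : ‖s x y‖ ^ 2 = 1 := by
      rw [← norm_pow, hsq x y hxy, norm_mul, norm_mul, ht, hK.ker.norm_one, RCLike.norm_conj, ht]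
      norm_num
    exact (pow_eq_one_iff_of_nonneg (norm_nonneg _) two_ne_zero).1 h1
  have hxx : ∀ x, s x x = 1 := fun x => by
    have h0 : dist x x < η := by rwa [dist_self]
    have h1 := htri x x x h0 h0 h0
    simp only [dist_self, mul_zero] at h1
    have h2 : s x x * s x x = s x x := sub_eq_zero.1 (norm_le_zero_iff.1 h1)
    have h3 : s x x ≠ 0 := by
      intro h4
      have := hs1 x x h0
      rw [h4, norm_zero] at this
      exact zero_ne_one this
    exact mul_left_cancel₀ h3 (by rw [h2, mul_one])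
  have hroot : ∀ x, ∃ z : ℂ, z ^ 2 = conj (t x) := fun x =>
    ⟨_, Complex.cpow_nat_inv_pow (conj (t x)) two_ne_zero⟩
  choose sig hsig using hroot
  have hsig1 : ∀ x, ‖sig x‖ = 1 := fun x => by
    have h1 : ‖sig x‖ ^ 2 = 1 := by rw [← norm_pow, hsig, RCLike.norm_conj, ht]
    exact (pow_eq_one_iff_of_nonneg (norm_nonneg _) two_ne_zero).1 h1
  have h16 := hK.hr
  refine hne (hS c ε hε hc b j (2 * r) (fun x => (hK.hj x).le) (by linarith) e s sig hsig1
    ?_ ?_ ?_)
  · intro δ hδ
    obtain ⟨d, hd, hd1, hdA⟩ := exists_small hK.A_nn hδ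
    refine ⟨min d r, lt_min hd hr, fun x y z h1 h2 h3 => ?_⟩
    refine (hK.tri x y z (h1.trans_le (min_le_right _ _)) (h2.trans_le (min_le_right _ _))).trans ?_
    have e1 : dist x y ≤ d := (h1.trans_le (min_le_left _ _)).le
    have e2 : dist y z ≤ 1 := ((h2.trans_le (min_le_left _ _)).trans hd1).le
    calc A * dist x y * dist y z ≤ A * d * 1 := by
          have := hK.A_nn
          gcongr
      _ ≤ δ := by rw [mul_one]; exact hdA
  · intro δ hδ
    obtain ⟨d, hd, hd1, hdA⟩ := exists_small (A := 2 * A') (by positivity) hδ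
    refine ⟨min d η, lt_min hd hη, fun x y z h1 h2 h3 => ?_⟩
    have k1 : dist x y < η := h1.trans_le (min_le_right _ _)
    have k2 : dist y z < η := h2.trans_le (min_le_right _ _)
    have k3 : dist x z < η := h3.trans_le (min_le_right _ _)
    have k3' : dist z x < η := by rwa [dist_comm]
    have e1 : dist x y ≤ d := (h1.trans_le (min_le_left _ _)).le
    have e2 : dist y z ≤ 1 := ((h2.trans_le (min_le_left _ _)).trans hd1).le
    have e3 : dist x z ≤ d := (h3.trans_le (min_le_left _ _)).le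
    have e3' : dist z x ≤ 1 := by
      rw [dist_comm]
      exact ((h3.trans_le (min_le_left _ _)).trans hd1).le
    have a1 := htri x y z k1 k2 k3
    have a2 := htri x z x k3 k3' (by rw [dist_self]; exact hη)
    rw [hxx] at a2
    have a3 : s x y * s y z * s z x - 1 =
        (s x y * s y z - s x z) * s z x + (s x z * s z x - 1) := by ring
    rw [a3]
    refine (norm_add_le _ _).trans ?_
    rw [norm_mul, hs1 z x k3', mul_one]
    have b1 : A' * dist x y * dist y z ≤ A' * d := by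
      calc A' * dist x y * dist y z ≤ A' * d * 1 := by gcongr
        _ = A' * d := mul_one _
    have b2 : A' * dist x z * dist z x ≤ A' * d := by
      calc A' * dist x z * dist z x ≤ A' * d * 1 := by gcongr
        _ = A' * d := mul_one _
    linarith
  · intro δ hδ
    refine ⟨min η (2 * r), lt_min hη (by linarith), fun x y hxy => ?_⟩
    have k1 : dist x y < η := hxy.trans_le (min_le_left _ _)
    have k2 : dist x y < 2 * r := hxy.trans_le (min_le_right _ _)
    have h3 : conj (sig x) ^ 2 = t x := by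
      rw [← map_pow, hsig, Complex.conj_conj]
    rw [hsq x y k1, hK.eq x y k2, hsig, h3]
    have h4 : t x * ex (e x y) * conj (t y) - ex (e x y) * conj (t y) * t x = 0 := by ring
    rw [h4, norm_zero]
    exact hδ.le

end Vale.Agent.P216.H494E
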