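import Vale.Agent.P216.H41.MV

/-! P216: ranks over a finite union of separated pieces. -/

open Set

namespace Vale.Agent.P216.H494

open Vale.Agent.P265.AS Vale.Agent.P216.H41

set_option linter.all false

section Alg

variable {k F : Type} [Field k] [AddCommGroup F] [Module k F]

theorem qr_iInf_le {ι : Type} (R : Finset ι) (Z : Submodule k F) (B : ι → Submodule k F)
    (B₀ : Submodule k F) (h : ∀ c ∈ Z, (∀ i ∈ R, c ∈ B i) → c ∈ B₀) :
    qr Z B₀ ≤ ∑ i ∈ R, qr Z (B i) := by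
  classical
  induction R using Finset.induction_on generalizing B₀ Z with
  | empty =>
    rw [Finset.sum_empty]
    exact le_of_eq (qr_eq_zero_iff.2 fun c hc => h c hc (by simp))
  | insert i R hi ih =>
    rw [Finset.sum_insert hi]
    refine (qr_split Z B₀ (B i)).trans (add_le_add le_rfl ?_)
    refine (ih (Z ⊓ B i) B₀ fun c hc hcR => h c hc.1 fun j hj => ?_).trans ?_
    · rcases Finset.mem_insert.1 hj with rfl | hj
      · exact hc.2
      · exact hcR j hj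
    · exact Finset.sum_le_sum fun j _ => qr_mono inf_le_left le_rfl

end Alg

variable {E : Type} [PseudoMetricSpace E] {k : Type} [Field k]

theorem Bs_of_pieces {ι : Type} (R : Finset ι) {g : E → E} {χ : k} {W : ι → Set E} {X A : Set E}
    (hW : ∀ i ∈ R, Inv g (W i ∩ X)) {δ₀ : ℝ} (hδ₀ : 0 < δ₀)
    (hsep : ∀ i ∈ R, ∀ j ∈ R, i ≠ j → ∀ x ∈ W i, ∀ y ∈ W j, δ₀ ≤ dist x y) {q : ℕ}
    {f : (Fin (q + 1) → E) → k}
    (hf : ∀ i ∈ R, f ∈ Bs g χ (W i ∩ X) (W i ∩ A) q) :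
    f ∈ Bs g χ ((⋃ i ∈ R, W i) ∩ X) ((⋃ i ∈ R, W i) ∩ A) q := by
  classical
  have hf' : ∀ i, ∃ b : (Fin q → E) → k, ∃ ε > 0, i ∈ R → Eqv g χ (W i ∩ X) b ∧
      (∀ x, Sm (W i ∩ X) ε x → f x = d b x) ∧ ∀ x, Sm (W i ∩ A) ε x → b x = 0 := by
    intro i
    by_cases hi : i ∈ R
    · obtain ⟨b, hb, ε, hε, h1, h2⟩ := hf i hi
      exact ⟨b, ε, hε, fun _ => ⟨hb, h1, h2⟩⟩
    · exact ⟨0, 1, one_pos, fun h => absurd h hi⟩
  choose b ε hε H using hf'
  obtain ⟨δ, hδ, hδ₁, hδε⟩ : ∃ δ > 0, δ ≤ δ₀ ∧ ∀ i ∈ R, δ ≤ ε i := by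
    rcases R.eq_empty_or_nonempty with rfl | hne
    · exact ⟨δ₀, hδ₀, le_rfl, by simp⟩
    · obtain ⟨i₀, hi₀, hmin⟩ := R.exists_min_image ε hne
      exact ⟨min δ₀ (ε i₀), lt_min hδ₀ (hε i₀), min_le_left _ _, fun i hi =>
        (min_le_right _ _).trans (hmin i hi)⟩
  have hempty : q = 0 → ∀ i ∈ R, ∀ y : Fin q → E, b i y = 0 := by
    rintro rfl i hi y
    exact (H i hi).2.2 y ⟨fun j => j.elim0, fun j => j.elim0⟩
  set B : (Fin q → E) → k := fun x => ∑ i ∈ R, if ∀ j, x j ∈ W i ∩ X then b i x else 0 with hB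
  -- on tuples of one piece
  have hone : ∀ i ∈ R, ∀ y : Fin q → E, (∀ j, y j ∈ W i ∩ X) → B y = b i y := by
    intro i hi y hy
    rcases Nat.eq_zero_or_pos q with hq | hq
    · rw [hempty hq i hi y, hB]
      refine Finset.sum_eq_zero fun j hj => ?_
      rw [hempty hq j hj y, ite_self]
    · show ∑ j ∈ R, (if ∀ l, y l ∈ W j ∩ X then b j y else 0) = b i y
      rw [Finset.sum_eq_single i, if_pos hy]
      · intro j hj hji
        rw [if_neg]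
        intro h
        have := hsep j hj i hi hji (y ⟨0, hq⟩) (h ⟨0, hq⟩).1 (y ⟨0, hq⟩) (hy ⟨0, hq⟩).1
        rw [dist_self] at this
        linarith
      · intro h; exact absurd hi h
  have hpiece : ∀ {Y : Set E} {n : ℕ} (x : Fin (n + 1) → E), Sm ((⋃ i ∈ R, W i) ∩ Y) δ x →
      ∃ i ∈ R, ∀ j, x j ∈ W i ∩ Y := by
    intro Y n x hx
    obtain ⟨i, hi, h0⟩ := mem_iUnion₂.1 (hx.1 0).1
    refine ⟨i, hi, fun j => ⟨?_, (hx.1 j).2⟩⟩
    obtain ⟨i', hi', h1⟩ := mem_iUnion₂.1 (hx.1 j).1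
    by_cases h : i = i'
    · rw [h]; exact h1
    · have h2 := hsep i hi i' hi' h _ h0 _ h1
      have h3 := hx.2 0 j
      linarith
  refine ⟨B, ?_, δ, hδ, fun x hx => ?_, fun x hx => ?_⟩
  · intro x hx
    show ∑ i ∈ R, (if ∀ j, (g ∘ x) j ∈ W i ∩ X then b i (g ∘ x) else 0) =
      χ * ∑ i ∈ R, if ∀ j, x j ∈ W i ∩ X then b i x else 0
    rw [Finset.mul_sum]
    refine Finset.sum_congr rfl fun i hi => ?_
    by_cases h : ∀ j, x j ∈ W i ∩ X
    · have h' : ∀ j, (g ∘ x) j ∈ W i ∩ X := fun j => (hW i hi _).2 (h j)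
      rw [if_pos h, if_pos h', (H i hi).1 x h]
    · have h' : ¬ ∀ j, (g ∘ x) j ∈ W i ∩ X := fun h'' => h fun j => (hW i hi _).1 (h'' j)
      rw [if_neg h, if_neg h', mul_zero]
  · obtain ⟨i, hi, hxi⟩ := hpiece x hx
    have hsm : Sm (W i ∩ X) (ε i) x := ⟨hxi, fun j l => (hx.2 j l).trans_le (hδε i hi)⟩
    rw [(H i hi).2.1 x hsm]
    refine d_congr fun y hy => ?_
    exact (hone i hi y fun j => by
      obtain ⟨l, hl⟩ := hy j
      rw [hl]; exact hxi l).symm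
  · rcases q with _ | q
    · show ∑ i ∈ R, (if ∀ j, x j ∈ W i ∩ X then b i x else 0) = 0
      exact Finset.sum_eq_zero fun i hi => by rw [hempty rfl i hi x, ite_self]
    · obtain ⟨i, hi, hxi⟩ := hpiece x hx
      have hsm : Sm (W i ∩ A) (ε i) x := ⟨hxi, fun j l => (hx.2 j l).trans_le (hδε i hi)⟩
      by_cases h : ∀ j, x j ∈ W i ∩ X
      · rw [hone i hi x h]
        exact (H i hi).2.2 x hsm
      · show ∑ j ∈ R, (if ∀ l, x l ∈ W j ∩ X then b j x else 0) = 0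
        refine Finset.sum_eq_zero fun j hj => ?_
        by_cases hji : j = i
        · rw [hji, if_neg h]
        · rw [if_neg]
          intro h'
          have := hsep j hj i hi hji (x 0) (h' 0).1 (x 0) (hxi 0).1
          rw [dist_self] at this
          linarith

/-- **Ranks over separated pieces.** `X₄, A₄ ⊆` union of separated invariant pieces `W i`. -/
theorem rk_le_sum {ι : Type} (R : Finset ι) {g : E → E} {χ : k} {W W' : ι → Set E}
    {X A X' A' : Set E} (hW : ∀ i ∈ R, Inv g (W i ∩ X)) (hWW : ∀ i ∈ R, W i ⊆ W' i)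
    {δ₀ : ℝ} (hδ₀ : 0 < δ₀)
    (hsep : ∀ i ∈ R, ∀ j ∈ R, i ≠ j → ∀ x ∈ W i, ∀ y ∈ W j, δ₀ ≤ dist x y) (q : ℕ) :
    rk g χ ((⋃ i ∈ R, W' i) ∩ X') ((⋃ i ∈ R, W' i) ∩ A') ((⋃ i ∈ R, W i) ∩ X)
      ((⋃ i ∈ R, W i) ∩ A) q ≤
      ∑ i ∈ R, rk g χ (W' i ∩ X') (W' i ∩ A') (W i ∩ X) (W i ∩ A) q := by
  classical
  have h1 := qr_iInf_le R (Zs g χ ((⋃ i ∈ R, W' i) ∩ X') ((⋃ i ∈ R, W' i) ∩ A') q)
    (fun i => Bs g χ (W i ∩ X) (W i ∩ A) q)
    (Bs g χ ((⋃ i ∈ R, W i) ∩ X) ((⋃ i ∈ R, W i) ∩ A) q)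
    fun c _ hcR => Bs_of_pieces R hW hδ₀ hsep hcR
  refine h1.trans (Finset.sum_le_sum fun i hi => qr_mono ?_ le_rfl)
  exact Zs_restrict (inter_subset_inter_left _ (subset_biUnion_of_mem (u := W') hi))
    (inter_subset_inter_left _ (subset_biUnion_of_mem (u := W') hi))

end Vale.Agent.P216.H494
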