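import Vale.Agent.P216.H651.Rt1
import Mathlib.Topology.Connected.PathConnected

/-!
# P216-E: chains of bounded length (block NUM)
-/

open Set Filter Topology

namespace Vale.Agent.P216.H494E

open Vale.Agent.P216.H651.Rt

variable {M : Type*} [MetricSpace M] {δ : ℝ} {x₀ : M}

theorem ch_const (hδ : 0 < δ) (x₀ : M) : Ch x₀ x₀ 0 δ (fun _ => x₀) where
  zero := rfl
  last _ _ := rfl
  step _ := by rwa [dist_self]

/-- One more step. -/
theorem ch_succ {x y : M} {n : ℕ} {P : ℕ → M} (h : Ch x₀ x n δ P) (hxy : dist x y < δ) :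
    ∃ Q, Ch x₀ y (n + 1) δ Q := by
  have hδ : 0 < δ := dist_nonneg.trans_lt hxy
  have h1 : Ch x y 1 δ (fun i => if i = 0 then x else y) := by
    refine ⟨if_pos rfl, fun i hi => if_neg (by omega), fun i => ?_⟩
    rcases Nat.eq_zero_or_pos i with rfl | hi
    · simpa using hxy
    · simp only [if_neg hi.ne', if_neg (Nat.succ_ne_zero i), dist_self]
      exact hδ
  exact ⟨_, h.ct h1⟩

theorem exists_ch [PreconnectedSpace M] (hδ : 0 < δ) (x₀ x : M) : ∃ n P, Ch x₀ x n δ P := by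
  let S : Set M := {x | ∃ n P, Ch x₀ x n δ P}
  have hS : ∀ x y : M, dist x y < δ → x ∈ S → y ∈ S := by
    rintro x y hxy ⟨n, P, h⟩
    obtain ⟨Q, hQ⟩ := ch_succ h hxy
    exact ⟨n + 1, Q, hQ⟩
  have hopen : IsOpen S := by
    rw [Metric.isOpen_iff]
    exact fun y hy => ⟨δ, hδ, fun x hx => hS y x (by rwa [dist_comm]) hy⟩
  have hclosed : IsClosed S := by
    rw [← isOpen_compl_iff, Metric.isOpen_iff]
    exact fun x hx => ⟨δ, hδ, fun y hy hyS => hx (hS y x hy hyS)⟩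
  have huniv : S = univ :=
    IsClopen.eq_univ ⟨hclosed, hopen⟩ ⟨x₀, 0, _, ch_const hδ x₀⟩
  have : x ∈ S := huniv ▸ mem_univ x
  exact this

/-- **NUM.** -/
theorem exists_chain_uniform [CompactSpace M] [PreconnectedSpace M] (x₀ : M) (hδ : 0 < δ) :
    ∃ n, ∀ x, ∃ P, Ch x₀ x n δ P := by
  choose n P hP using exists_ch (M := M) hδ x₀
  obtain ⟨t, ht⟩ := isCompact_univ.elim_finite_subcover (fun x : M => Metric.ball x δ)
    (fun x => Metric.isOpen_ball) fun x _ => mem_iUnion.2 ⟨x, Metric.mem_ball_self hδ⟩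
  refine ⟨t.sup n + 1, fun y => ?_⟩
  obtain ⟨x, hx, hy⟩ := mem_iUnion₂.1 (ht (mem_univ y))
  have h1 := (hP x).mono (Finset.le_sup (f := n) hx) le_rfl
  exact ch_succ h1 (by rw [dist_comm]; exact hy)

end Vale.Agent.P216.H494E
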