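import Vale.Agent.P216.B633.T12

set_option linter.unusedSectionVars false

/-!
# P216: equality in the tightness inequality, full consequences (any field, any prime)

`tight_full`: as `B633.propT12`, and in the equality case a class `x` of parity `q` all of whose
localisation components are global is itself global.  (So the torsion is global, the quotient by
the global classes is torsion free, and it localises to the quotient by the global classes at the
level `t / p`.)
-/

open Module LinearMap

namespace Vale.Agent.P216.H494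

open Vale.Agent.P216.AS (USeq)
open Vale.Agent.P216.T695
open Vale.Agent.P216.Tight923
open Vale.Agent.P216.B633

/-- the full statement -/
def PropTight : Prop := ∀ (k : Type) [Field k] (Hi Fi H F H' : ℕ → Type)
    [∀ n, AddCommGroup (Hi n)] [∀ n, Module k (Hi n)]
    [∀ n, AddCommGroup (Fi n)] [∀ n, Module k (Fi n)]
    [∀ n, AddCommGroup (H n)] [∀ n, Module k (H n)]
    [∀ n, AddCommGroup (F n)] [∀ n, Module k (F n)]
    [∀ n, AddCommGroup (H' n)] [∀ n, Module k (H' n)]
    [∀ n, FiniteDimensional k (H n)] [∀ n, FiniteDimensional k (F n)]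
    [∀ n, FiniteDimensional k (H' n)]
    (ui : ∀ n, Fi n →ₗ[k] Fi (n + 2)) (πi : ∀ n, Fi n →ₗ[k] Hi n)
    (G : USeq k F H) (L : Loc k F H' G.u)
    (rH : ∀ n, Hi n →ₗ[k] H n) (rF : ∀ n, Fi n →ₗ[k] F n) (rH' : ∀ n, Hi n →ₗ[k] H' n)
    (_ : ∀ n x, rF (n + 2) (ui n x) = G.u n (rF n x))
    (_ : ∀ n x, G.π n (rF n x) = rH n (πi n x))
    (_ : ∀ e j x, L.ℓ e j (rF e x) ∈ LinearMap.range (rH' j))
    (_ : ∃ N, ∀ n ≥ N, Subsingleton (H n)) (_ : ∃ N, ∀ n ≥ N, Subsingleton (H' n))
    (q : ℕ) (_ : q < 2) (_ : ∀ n, n % 2 = q → Function.Surjective (πi n)),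
    Rinf k rH' q ≤ Rinf k rH q ∧ (Rinf k rH q ≤ Rinf k rH' q →
      (∀ e, e % 2 ≠ q → ∀ x, G.u e x = 0 → x = 0) ∧
      (∀ e, e % 2 = q → ∀ x, (∀ j, L.ℓ e j x ∈ LinearMap.range (rH' j)) →
        x ∈ LinearMap.range (rF e)))

theorem propTight : PropTight := by
  intro k _ Hi Fi H F H' _ _ _ _ _ _ _ _ _ _ _ _ _ ui πi G L rH rF rH' hu hπ hg hfin hfin' q hq
    hsurj
  obtain ⟨N₀, hN₀⟩ := hfin
  obtain ⟨N₀', hN₀'⟩ := hfin'
  obtain ⟨N₁, hN₁⟩ := L.inj
  obtain ⟨N₂, hN₂⟩ := L.surj
  let W : ∀ n, Submodule k (F n) := fun n => LinearMap.range (rF n)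
  have hW : ∀ n, (W n).map (G.u n) ≤ W (n + 2) := by
    rintro n _ ⟨_, ⟨x, rfl⟩, rfl⟩
    exact ⟨ui n x, hu n x⟩
  have hWπ : ∀ n, n % 2 = q → (W n).map (G.π n) = LinearMap.range (rH n) := by
    intro n hn
    apply le_antisymm
    · rintro _ ⟨_, ⟨x, rfl⟩, rfl⟩
      exact ⟨πi n x, (hπ n x).symm⟩
    · rintro _ ⟨y, rfl⟩
      obtain ⟨x, rfl⟩ := hsurj n hn y
      exact ⟨rF n x, ⟨x, rfl⟩, hπ n x⟩
  -- the basic identity for all large `m`
  have key : ∀ m, N₀ + N₀' + N₁ + N₂ ≤ m →
      Rinf k rH' q + ∑ i ∈ Finset.range (m + 1), kap G (q + 2 * i) +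
        ∑ i ∈ Finset.range m,
        ((finrank k (W (q + 2 * i + 2) ⊓ LinearMap.range (G.u (q + 2 * i)) :
            Submodule k (F (q + 2 * i + 2))) -
          finrank k ((W (q + 2 * i)).map (G.u (q + 2 * i)))) +
        (finrank k (LinearMap.ker (G.u (q + 2 * i))) -
          finrank k (W (q + 2 * i) ⊓ LinearMap.ker (G.u (q + 2 * i)) :
            Submodule k (F (q + 2 * i))))) +
        (∑ i ∈ Finset.range (m + 1), finrank k (LinearMap.range (rH' (q + 2 * i))) -
          finrank k (W (q + 2 * m))) ≤ Rinf k rH q ∧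
      finrank k (W (q + 2 * m)) ≤
        ∑ i ∈ Finset.range (m + 1), finrank k (LinearMap.range (rH' (q + 2 * i))) := by
    intro m hm
    have e1 : Rinf k rH q = ∑ i ∈ Finset.range (m + 1),
        (finrank k (H (q + 2 * i)) - finrank k (LinearMap.range (rH (q + 2 * i)))) := by
      refine finsum_parity q hq
        (fun n => finrank k (H n) - finrank k (LinearMap.range (rH n))) N₀ (m + 1) ?_ (by omega)
      intro n hn
      have := hN₀ n hn
      change finrank k (H n) - _ = 0
      rw [finrank_zero_of_subsingleton, Nat.zero_sub]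
    have e2 : Rinf k rH' q = ∑ i ∈ Finset.range (m + 1),
        (finrank k (H' (q + 2 * i)) - finrank k (LinearMap.range (rH' (q + 2 * i)))) := by
      refine finsum_parity q hq
        (fun n => finrank k (H' n) - finrank k (LinearMap.range (rH' n))) N₀' (m + 1) ?_
        (by omega)
      intro n hn
      have := hN₀' n hn
      change finrank k (H' n) - _ = 0
      rw [finrank_zero_of_subsingleton, Nat.zero_sub]
    have e3 := sum_tsub_add (m := m + 1) (a := fun i => finrank k (H (q + 2 * i)))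
      (b := fun i => finrank k (LinearMap.range (rH (q + 2 * i))))
      fun n => Submodule.finrank_le _
    have e4 := sum_tsub_add (m := m + 1) (a := fun i => finrank k (H' (q + 2 * i)))
      (b := fun i => finrank k (LinearMap.range (rH' (q + 2 * i))))
      fun n => Submodule.finrank_le _
    have e5 := sum_h G q hq m
    have e6 := sum_a G q hq W hW m
    have e7 : ∑ i ∈ Finset.range (m + 1), finrank k ((W (q + 2 * i)).map (G.π (q + 2 * i))) =
        ∑ i ∈ Finset.range (m + 1), finrank k (LinearMap.range (rH (q + 2 * i))) :=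
      Finset.sum_congr rfl fun i _ => by rw [hWπ _ (by omega)]
    have e8 := finrank_loc L hq (m := m + 1) (e := q + 2 * m) hN₁ hN₂ hN₀' (by omega)
      (by omega) (by omega) (by omega)
    have e9 := finrank_W_le L (q := q) (m := m + 1) (e := q + 2 * m) (rF (q + 2 * m)) rH' hN₁ hN₀'
      (by omega) (by omega) (by omega) (fun j x => hg _ j x)
    have e10 : finrank k (W (q + 2 * m)) = finrank k (LinearMap.range (rF (q + 2 * m))) := rfl
    rw [e1, e2]
    rw [e7, e10] at e6
    rw [e8] at e5
    beta_reduce at e3 e4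
    rw [e10]
    refine ⟨?_, e9⟩
    omega
  refine ⟨?_, fun hle => ?_⟩
  · have := (key _ le_rfl).1
    omega
  -- the equality case
  have hkap : ∀ i, kap G (q + 2 * i) = 0 := by
    intro i
    have h1 := (key (N₀ + N₀' + N₁ + N₂ + i) (by omega)).1
    have h2 : ∑ j ∈ Finset.range (N₀ + N₀' + N₁ + N₂ + i + 1), kap G (q + 2 * j) = 0 := by omega
    exact (Finset.sum_eq_zero_iff.1 h2) i (Finset.mem_range.2 (by omega))
  have hβγ : ∀ i, finrank k (W (q + 2 * i + 2) ⊓ LinearMap.range (G.u (q + 2 * i)) :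
            Submodule k (F (q + 2 * i + 2))) ≤
          finrank k ((W (q + 2 * i)).map (G.u (q + 2 * i))) ∧
        finrank k (LinearMap.ker (G.u (q + 2 * i))) ≤
          finrank k (W (q + 2 * i) ⊓ LinearMap.ker (G.u (q + 2 * i)) :
            Submodule k (F (q + 2 * i))) := by
    intro i
    have h1 := (key (N₀ + N₀' + N₁ + N₂ + i + 1) (by omega)).1
    have h2 : ∑ i ∈ Finset.range (N₀ + N₀' + N₁ + N₂ + i + 1),
        ((finrank k (W (q + 2 * i + 2) ⊓ LinearMap.range (G.u (q + 2 * i)) :
            Submodule k (F (q + 2 * i + 2))) -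
          finrank k ((W (q + 2 * i)).map (G.u (q + 2 * i)))) +
        (finrank k (LinearMap.ker (G.u (q + 2 * i))) -
          finrank k (W (q + 2 * i) ⊓ LinearMap.ker (G.u (q + 2 * i)) :
            Submodule k (F (q + 2 * i))))) = 0 := by omega
    have h3 := (Finset.sum_eq_zero_iff.1 h2) i (Finset.mem_range.2 (by omega))
    omega
  have hrank : ∀ m, N₀ + N₀' + N₁ + N₂ ≤ m →
      ∑ i ∈ Finset.range (m + 1), finrank k (LinearMap.range (rH' (q + 2 * i))) ≤
        finrank k (LinearMap.range (rF (q + 2 * m))) := by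
    intro m hm
    obtain ⟨h1, h2⟩ := key m hm
    have h3 : finrank k (W (q + 2 * m)) = finrank k (LinearMap.range (rF (q + 2 * m))) := rfl
    omega
  have hker0 : ∀ e, e % 2 ≠ q → ∀ x, G.u e x = 0 → x = 0 := by
    intro e he x hx
    have h1 : LinearMap.ker (G.u e) = ⊥ := by
      apply Submodule.finrank_eq_zero.1
      rcases Nat.eq_zero_or_pos q with rfl | hq0
      · have h2 := hkap ((e + 1) / 2)
        rw [show 0 + 2 * ((e + 1) / 2) = e + 1 by omega] at h2
        exact h2
      · obtain rfl : q = 1 := by omega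
        have h2 := hkap (e / 2)
        rw [show 1 + 2 * (e / 2) = e + 1 by omega] at h2
        exact h2
    have h2 : x ∈ LinearMap.ker (G.u e) := hx
    rw [h1] at h2
    exact h2
  have hkerW : ∀ e, e % 2 = q → LinearMap.ker (G.u e) ≤ W e := by
    intro e he
    have h1 := (hβγ (e / 2)).2
    rw [show q + 2 * (e / 2) = e by omega] at h1
    have h2 := Submodule.eq_of_le_of_finrank_le (inf_le_right : W e ⊓ LinearMap.ker (G.u e) ≤ _) h1
    rw [← h2]
    exact inf_le_left
  have hsat : ∀ e, e % 2 = q → W (e + 2) ⊓ LinearMap.range (G.u e) ≤ (W e).map (G.u e) := by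
    intro e he
    have h1 := (hβγ (e / 2)).1
    rw [show q + 2 * (e / 2) = e by omega] at h1
    have hle' : (W e).map (G.u e) ≤ W (e + 2) ⊓ LinearMap.range (G.u e) :=
      le_inf (hW _) (by
        rintro _ ⟨x, -, rfl⟩
        exact ⟨x, rfl⟩)
    exact (Submodule.eq_of_le_of_finrank_le hle' h1).ge
  -- division by `u`
  have hdiv : ∀ e, e % 2 = q → ∀ x, G.u e x ∈ W (e + 2) → x ∈ W e := by
    intro e he x h1
    obtain ⟨w, hw, hw'⟩ := hsat e he ⟨h1, x, rfl⟩
    have h2 : x - w ∈ LinearMap.ker (G.u e) := by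
      rw [LinearMap.mem_ker, map_sub, hw', sub_self]
    have h3 := (W e).add_mem (hkerW e he h2) hw
    rwa [sub_add_cancel] at h3
  -- large degrees
  have hbig : ∀ m, N₀ + N₀' + N₁ + N₂ ≤ m → ∀ x : F (q + 2 * m),
      (∀ j, L.ℓ (q + 2 * m) j x ∈ LinearMap.range (rH' j)) → x ∈ W (q + 2 * m) := by
    intro m hm x hx
    -- the submodule of all such classes
    let S : Submodule k (F (q + 2 * m)) :=
      ⨅ j, (LinearMap.range (rH' j)).comap (L.ℓ (q + 2 * m) j)
    have hWS : W (q + 2 * m) ≤ S := by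
      rintro _ ⟨y, rfl⟩
      rw [Submodule.mem_iInf]
      intro j
      exact hg _ j y
    have hS : finrank k S ≤
        ∑ i ∈ Finset.range (m + 1), finrank k (LinearMap.range (rH' (q + 2 * i))) := by
      let Φ : S →ₗ[k] (∀ i : Fin (m + 1), LinearMap.range (rH' (q + 2 * (i : ℕ)))) :=
        LinearMap.pi fun i => LinearMap.codRestrict _
          ((L.ℓ (q + 2 * m) (q + 2 * i)).comp S.subtype) (by
            rintro ⟨y, hy⟩
            exact (Submodule.mem_iInf _).1 hy _)
      have hinj : Function.Injective Φ := by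
        rw [injective_iff_map_eq_zero]
        intro y hy
        apply Subtype.ext
        refine loc_ext L (q := q) (m := m + 1) hN₁ hN₀' (by omega) (by omega) (by omega) y.1
          fun i hi => ?_
        exact congrArg Subtype.val (congrFun hy ⟨i, hi⟩)
      refine (LinearMap.finrank_le_finrank_of_injective hinj).trans ?_
      rw [Module.finrank_pi_fintype, Finset.sum_range]
    have h2 := Submodule.eq_of_le_of_finrank_le hWS (hS.trans (hrank m hm))
    rw [h2, Submodule.mem_iInf]
    exact hx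
  refine ⟨hker0, fun e he x hx => ?_⟩
  change x ∈ W e
  -- descending from the large degrees
  have hdown : ∀ r m, N₀ + N₀' + N₁ + N₂ ≤ m + r → ∀ x : F (q + 2 * m),
      (∀ j, L.ℓ (q + 2 * m) j x ∈ LinearMap.range (rH' j)) → x ∈ W (q + 2 * m) := by
    intro r
    induction r with
    | zero => intro m hm; exact hbig m hm
    | succ r ih =>
      intro m hm x hx
      refine hdiv _ (by omega) x (ih (m + 1) (by omega) (G.u (q + 2 * m) x) fun j => ?_)
      have := hx j
      rwa [← L.ℓ_u (q + 2 * m) j x] at this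
  obtain ⟨m, rfl⟩ : ∃ m, e = q + 2 * m := ⟨e / 2, by omega⟩
  exact hdown (N₀ + N₀' + N₁ + N₂) m (by omega) x hx

end Vale.Agent.P216.H494
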